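import Vale.Agent.P219.Six.Defs
import Vale.Agent.P219.Sharp.Geom
import Vale.Agent.P219.CH.Yau

/-!
# P219: the mixed Hessian of the half squared distance and the logarithm change of variables
-/

noncomputable section

open MeasureTheory Set Filter Topology Matrix
open scoped ENNReal

namespace Vale.Agent.P219.CH.Six

variable {n : ℕ} {G : (Fin n → ℝ) → Matrix (Fin n) (Fin n) ℝ}
  {D : (Fin n → ℝ) → (Fin n → ℝ) → ℝ} {e : Phase n → Fin n → ℝ}

/-- The mixed Hessian of `D`: the derivative in `y` of the differential at `x` of `D y`. -/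
def mixedD (D : (Fin n → ℝ) → (Fin n → ℝ) → ℝ) (x y : Fin n → ℝ) :
    (Fin n → ℝ) →L[ℝ] (Fin n → ℝ) :=
  fderiv ℝ (fun z => cd (D z) x) y

lemma hasFDerivAt_mixed (h : IsCH G D) (x y : Fin n → ℝ) :
    HasFDerivAt (fun z => cd (D z) x) (mixedD D x y) y :=
  (((Sharp.contDiff_logCovector h).comp (contDiff_const.prodMk contDiff_id)).differentiable
    one_ne_zero y).hasFDerivAt

lemma mixed_symm_apply (h : IsCH G D) (x y : Fin n → ℝ) (a b : Fin n) :
    mixedD D x y (ev b) a = mixedD D y x (ev a) b := by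
  set F : (Fin n → ℝ) × (Fin n → ℝ) → ℝ := fun p => D p.1 p.2
  set F₂ := fderiv ℝ (fderiv ℝ F) (x, y)
  have hF : HasFDerivAt (fderiv ℝ F) F₂ (x, y) :=
    ((h.smooth_dist.fderiv_right (m := 1) le_rfl).differentiable one_ne_zero _).hasFDerivAt
  have hF1 : ∀ p, HasFDerivAt F (fderiv ℝ F p) p := fun p =>
    (h.smooth_dist.differentiable two_ne_zero p).hasFDerivAt
  have e1 : ∀ z, cd (D z) x a = fderiv ℝ F (x, z) (ev a, 0) := fun z => by
    have hd : HasFDerivAt (D z)
        ((fderiv ℝ F (x, z)).comp ((ContinuousLinearMap.id ℝ _).prod 0)) x := by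
      have he : D z = fun w => F (w, z) := funext fun w => h.dist_comm z w
      rw [he]
      have hp : HasFDerivAt (fun w : Fin n → ℝ => (w, z))
          ((ContinuousLinearMap.id ℝ _).prod 0) x :=
        (hasFDerivAt_id (𝕜 := ℝ) x).prodMk (hasFDerivAt_const z x)
      exact (hF1 (x, z)).comp x hp
    show fderiv ℝ (D z) x (ev a) = _
    rw [hd.fderiv]; simp
  have e2 : ∀ z, cd (D z) y b = fderiv ℝ F (z, y) (0, ev b) := fun z => by
    have hd : HasFDerivAt (D z)
        ((fderiv ℝ F (z, y)).comp ((0 : (Fin n → ℝ) →L[ℝ] (Fin n → ℝ)).prod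
          (ContinuousLinearMap.id ℝ _))) y :=
      (hF1 (z, y)).comp y ((hasFDerivAt_const z y).prodMk (hasFDerivAt_id y))
    show fderiv ℝ (D z) y (ev b) = _
    rw [hd.fderiv]; simp
  have d1 : HasFDerivAt (fun z => cd (D z) x a)
      ((F₂.comp ((0 : (Fin n → ℝ) →L[ℝ] (Fin n → ℝ)).prod (ContinuousLinearMap.id ℝ _))).flip
        (ev a, 0)) y := by
    rw [funext e1]
    have h1 := (hF.comp y ((hasFDerivAt_const x y).prodMk (hasFDerivAt_id y))).clm_apply
      (hasFDerivAt_const ((ev a, 0) : (Fin n → ℝ) × (Fin n → ℝ)) y)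
    simpa [Function.comp_def] using h1
  have d2 : HasFDerivAt (fun z => cd (D z) y b)
      ((F₂.comp ((ContinuousLinearMap.id ℝ _).prod 0)).flip (0, ev b)) x := by
    rw [funext e2]
    have hp : HasFDerivAt (fun w : Fin n → ℝ => (w, y))
        ((ContinuousLinearMap.id ℝ _).prod 0) x :=
      (hasFDerivAt_id (𝕜 := ℝ) x).prodMk (hasFDerivAt_const y x)
    have h1 := (hF.comp x hp).clm_apply
      (hasFDerivAt_const ((0, ev b) : (Fin n → ℝ) × (Fin n → ℝ)) x)
    simpa [Function.comp_def] using h1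
  have l1 := ((hasFDerivAt_pi'.1 (hasFDerivAt_mixed h x y) a).unique d1)
  have l2 := ((hasFDerivAt_pi'.1 (hasFDerivAt_mixed h y x) b).unique d2)
  have r1 := congrArg (fun L : (Fin n → ℝ) →L[ℝ] ℝ => L (ev b)) l1
  have r2 := congrArg (fun L : (Fin n → ℝ) →L[ℝ] ℝ => L (ev a)) l2
  simp at r1 r2
  rw [r1, r2]
  exact (h.smooth_dist.contDiffAt.isSymmSndFDerivAt
    (by simp [minSmoothness_of_isRCLikeNormedField])) (0, ev b) (ev a, 0)

/-- The mixed Hessian is symmetric. -/
theorem opMat_mixed_symm (h : IsCH G D) (x y : Fin n → ℝ) :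
    opMat (mixedD D y x) = (opMat (mixedD D x y))ᵀ := by
  ext a b
  simp only [opMat, Matrix.of_apply, Matrix.transpose_apply]
  exact (mixed_symm_apply h x y b a).symm

theorem det_mixed_symm (h : IsCH G D) (x y : Fin n → ℝ) :
    (mixedD D y x).det = (mixedD D x y).det := by
  rw [det_eq_det_opMat, det_eq_det_opMat, opMat_mixed_symm h x y, det_transpose]

lemma opMat_mulVec (L : (Fin n → ℝ) →L[ℝ] (Fin n → ℝ)) (v : Fin n → ℝ) :
    opMat L *ᵥ v = L v := by
  rw [clm_eq_sum L v]
  funext a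
  simp [opMat, mulVec, dotProduct, Finset.sum_apply, mul_comm]

lemma abs_det_le_one {B : Matrix (Fin n) (Fin n) ℝ}
    (hB : ∀ w, (B *ᵥ w) ⬝ᵥ (B *ᵥ w) ≤ w ⬝ᵥ w) : |B.det| ≤ 1 := by
  have hP : (Bᵀ * B).PosSemidef := by
    simpa [conjTranspose_eq_transpose_of_trivial] using posSemidef_conjTranspose_mul_self B
  have hle : ∀ i, hP.isHermitian.eigenvalues i ≤ 1 := fun i => by
    have e := hP.isHermitian.eigenvalues_eq i
    set v : Fin n → ℝ := WithLp.ofLp (hP.isHermitian.eigenvectorBasis i)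
    have hn : v ⬝ᵥ v = 1 := by
      have := hP.isHermitian.eigenvectorBasis.orthonormal.1 i
      have h2 : ‖hP.isHermitian.eigenvectorBasis i‖ ^ 2 = 1 := by rw [this]; norm_num
      rw [EuclideanSpace.norm_sq_eq] at h2
      simpa [v, dotProduct, sq] using h2
    rw [e, ← hn]
    simp only [star_trivial, RCLike.re_to_real]
    rw [← mulVec_mulVec, dotProduct_mulVec, vecMul_transpose]
    exact hB v
  have hd : (Bᵀ * B).det ≤ 1 := by
    rw [hP.isHermitian.det_eq_prod_eigenvalues]
    simp only [RCLike.ofReal_real_eq_id, id_eq]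
    exact Finset.prod_le_one (fun i _ => hP.eigenvalues_nonneg i) fun i _ => hle i
  rw [det_mul, det_transpose] at hd
  rw [← sq_le_one_iff_abs_le_one, sq]
  exact hd

/-- The mixed Hessian does not expand: the comparison theorem of Rauch. -/
theorem abs_det_mixed_le (h : IsCH G D) (x y : Fin n → ℝ) :
    |(mixedD D x y).det| ≤ dens G x * dens G y := by
  obtain ⟨-, -, -, hx4⟩ := Sharp.frame_spec h x
  obtain ⟨hy1, hy2, -, hy4⟩ := Sharp.frame_spec h y
  set C := opMat (mixedD D x y)
  set A := Sharp.frame G x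
  set A' := Sharp.frame G y
  have hu : ∀ v k, cd (fun z => Sharp.ucoord G D x z k) y ⬝ᵥ v = (A *ᵥ (C *ᵥ v)) k := fun v k => by
    have hd : HasFDerivAt (fun z => A *ᵥ cd (D z) x)
        ((Matrix.toLin' A).toContinuousLinearMap.comp (mixedD D x y)) y :=
      ((Matrix.toLin' A).toContinuousLinearMap.hasFDerivAt).comp y (hasFDerivAt_mixed h x y)
    rw [cd_dotProduct, show (fun z => Sharp.ucoord G D x z k) = fun z => (A *ᵥ cd (D z) x) k from rfl,
      (hasFDerivAt_pi'.1 hd k).fderiv, opMat_mulVec]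
    simp
  have hB : ∀ w, ((A * C * A') *ᵥ w) ⬝ᵥ ((A * C * A') *ᵥ w) ≤ w ⬝ᵥ w := fun w => by
    have key := Sharp.sum_fderiv_ucoord_le h x y (A' *ᵥ w)
    simp only [hu] at key
    have e : qf G y (A' *ᵥ w) = w ⬝ᵥ w := by
      rw [qf, dotProduct_mulVec, vecMul_mulVec, hy1, ← dotProduct_mulVec, mulVec_mulVec, hy2,
        one_mulVec]
    rw [← mulVec_mulVec, ← mulVec_mulVec, ← e]
    simpa [dotProduct, sq] using key
  have h1 := abs_det_le_one hB
  rw [det_mul, det_mul, abs_mul, abs_mul, hx4, hy4, ← det_eq_det_opMat] at h1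
  have p1 := h.dens_pos x
  have p2 := h.dens_pos y
  field_simp at h1
  linarith

/-- The derivative of the logarithm. -/
theorem hasFDerivAt_logv (h : IsCH G D) (x y : Fin n → ℝ) :
    HasFDerivAt (logv G D x)
      ((Matrix.toLin' (-(G x)⁻¹)).toContinuousLinearMap.comp (mixedD D x y)) y := by
  have e : logv G D x = fun z => Matrix.toLin' (-(G x)⁻¹) (cd (D z) x) := funext fun z => by
    simp [logv, grad]
  rw [e]
  exact ((Matrix.toLin' (-(G x)⁻¹)).toContinuousLinearMap.hasFDerivAt).comp y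
    (hasFDerivAt_mixed h x y)

/-- The Jacobian of the logarithm. -/
theorem abs_det_fderiv_logv (h : IsCH G D) (x y : Fin n → ℝ) :
    |(fderiv ℝ (logv G D x) y).det| * (G x).det = |(mixedD D x y).det| := by
  rw [(hasFDerivAt_logv h x y).fderiv, ContinuousLinearMap.det,
    ContinuousLinearMap.toLinearMap_comp, LinearMap.det_comp, LinearMap.coe_toContinuousLinearMap,
    LinearMap.det_toLin', det_neg, det_nonsing_inv, Ring.inverse_eq_inv', abs_mul, abs_mul,
    abs_inv, abs_pow, abs_neg, abs_one, one_pow, one_mul, abs_of_pos (h.det_pos x)]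
  have := (h.det_pos x).ne'
  rw [ContinuousLinearMap.det]
  field_simp

theorem dens_mul_self (h : IsCH G D) (x : Fin n → ℝ) : dens G x * dens G x = (G x).det :=
  Real.mul_self_sqrt (h.det_pos x).le

/-- The logarithm shrinks volume. -/
theorem abs_det_fderiv_logv_le (h : IsCH G D) (x y : Fin n → ℝ) :
    |(fderiv ℝ (logv G D x) y).det| * dens G x ≤ dens G y := by
  have h1 := abs_det_mixed_le h x y
  rw [← abs_det_fderiv_logv h x y, ← dens_mul_self h x] at h1
  refine le_of_mul_le_mul_right ?_ (h.dens_pos x)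
  linarith

theorem logv_injective (he : IsExp G D e) (x : Fin n → ℝ) : Function.Injective (logv G D x) :=
  fun y z hyz => by rw [← he.exp_logv x y, hyz, he.exp_logv]

/-- Substitution by the logarithm in a tangent space. -/
theorem lintegral_logv (h : IsCH G D) (he : IsExp G D e) (x : Fin n → ℝ)
    (F : (Fin n → ℝ) → ℝ≥0∞) :
    ∫⁻ v, F v = ∫⁻ y, ENNReal.ofReal |(fderiv ℝ (logv G D x) y).det| * F (logv G D x y) := by
  have h1 := lintegral_image_eq_lintegral_abs_det_fderiv_mul volume MeasurableSet.univ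
    (f := logv G D x) (f' := fderiv ℝ (logv G D x))
    (fun y _ => ((hasFDerivAt_logv h x y).differentiableAt.hasFDerivAt).hasFDerivWithinAt)
    (logv_injective he x).injOn F
  rw [image_univ, Function.Surjective.range_eq (fun v => ⟨e (x, v), he.logv_exp x v⟩),
    setLIntegral_univ, setLIntegral_univ] at h1
  exact h1

/-- The substitution on pairs of points, weighted by the mixed Hessian. -/
theorem lintegral_mixed (h : IsCH G D) (he : IsExp G D e) (F : Phase n → ℝ≥0∞) :
    ∫⁻ x, ∫⁻ y, F (x, logv G D x y) * ENNReal.ofReal |(mixedD D x y).det| =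
      ∫⁻ x, ∫⁻ v, F (x, v) * ENNReal.ofReal (G x).det := by
  refine lintegral_congr fun x => ?_
  rw [lintegral_logv h he x fun v => F (x, v) * ENNReal.ofReal (G x).det]
  refine lintegral_congr fun y => ?_
  rw [← abs_det_fderiv_logv h x y, ENNReal.ofReal_mul (abs_nonneg _)]
  ring

end Vale.Agent.P219.CH.Six
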