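import Vale.Agent.P219.Six.Defs
import Vale.Agent.P219.Six.Mixed

/-!
# P219, six dimensions: geodesics as preimages of rays under the logarithm

The eikonal equation, differentiated in the first variable, says that the differential of the
logarithm at `x` maps `grad (D x)` to the logarithm itself; the law of cosines turns the curves
`t ↦ e (x, t • v)` into geodesics.
-/

noncomputable section

open MeasureTheory Set Filter Topology Matrix

namespace Vale.Agent.P219.CH.Six

variable {n : ℕ} {G : (Fin n → ℝ) → Matrix (Fin n) (Fin n) ℝ}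
  {D : (Fin n → ℝ) → (Fin n → ℝ) → ℝ} {e : Phase n → Fin n → ℝ}

/-- The half squared distance as a function of a pair. -/
def Dp (D : (Fin n → ℝ) → (Fin n → ℝ) → ℝ) (p : Phase n) : ℝ := D p.1 p.2

/-- The second derivative of the half squared distance. -/
def D2 (D : (Fin n → ℝ) → (Fin n → ℝ) → ℝ) (p : Phase n) : Phase n →L[ℝ] Phase n →L[ℝ] ℝ :=
  fderiv ℝ (fderiv ℝ (Dp D)) p

lemma contDiff_fderiv_Dp (h : IsCH G D) : ContDiff ℝ 1 (fderiv ℝ (Dp D)) :=
  h.smooth_dist.fderiv_right le_rfl

lemma D2_symm (h : IsCH G D) (p a b : Phase n) : D2 D p a b = D2 D p b a :=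
  (h.smooth_dist.contDiffAt.isSymmSndFDerivAt (by simp)).eq a b

lemma hasFDerivAt_fderiv_Dp_apply (h : IsCH G D) (p b : Phase n) :
    HasFDerivAt (fun q => fderiv ℝ (Dp D) q b) ((D2 D p).flip b) p :=
  (((contDiff_fderiv_Dp h).differentiable one_ne_zero p).hasFDerivAt.clm_apply
    (hasFDerivAt_const b p)).congr_fderiv (by ext v <;> simp [D2])

lemma cd_right_eq (h : IsCH G D) (x y : Fin n → ℝ) (j : Fin n) :
    cd (D x) y j = fderiv ℝ (Dp D) (x, y) (0, ev j) := by
  have h1 := ((h.smooth_dist.differentiable two_ne_zero (x, y)).hasFDerivAt).comp y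
    (hasFDerivAt_prodMk_right x y)
  rw [cd, show fderiv ℝ (D x) y = _ from h1.fderiv]
  rfl

lemma cd_left_eq (h : IsCH G D) (x y : Fin n → ℝ) (i : Fin n) :
    cd (D y) x i = fderiv ℝ (Dp D) (x, y) (ev i, 0) := by
  have h1 := ((h.smooth_dist.differentiable two_ne_zero (x, y)).hasFDerivAt).comp x
    (hasFDerivAt_prodMk_left (𝕜 := ℝ) x y)
  have e1 : D y = (fun p : Phase n => D p.1 p.2) ∘ fun z => (z, y) := by
    funext z; exact Sharp.dist_symm h y z
  rw [cd, e1, h1.fderiv]
  rfl

/-- The mixed second derivative of the half squared distance. -/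
def mixed (D : (Fin n → ℝ) → (Fin n → ℝ) → ℝ) (x y : Fin n → ℝ) :
    (Fin n → ℝ) →L[ℝ] (Fin n → ℝ) :=
  ContinuousLinearMap.pi fun i =>
    ((D2 D (x, y)).flip (ev i, 0)).comp (ContinuousLinearMap.inr ℝ (Fin n → ℝ) (Fin n → ℝ))

lemma hasFDerivAt_cd_left (h : IsCH G D) (x y : Fin n → ℝ) :
    HasFDerivAt (fun z => cd (D z) x) (mixed D x y) y := by
  refine hasFDerivAt_pi'.2 fun i => ?_
  simp only [cd_left_eq h, mixed, ContinuousLinearMap.proj_pi]
  exact (hasFDerivAt_fderiv_Dp_apply h (x, y) (ev i, 0)).comp y (hasFDerivAt_prodMk_right x y)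

/-- The eikonal equation differentiated in the first variable. -/
lemma mixed_grad (h : IsCH G D) (x y : Fin n → ℝ) :
    mixed D x y (grad G (D x) y) = cd (D y) x := by
  funext i
  have hinl : HasDerivAt (fun t : ℝ => (x + t • ev i, y)) (ev i, (0 : Fin n → ℝ)) 0 :=
    (hasDerivAt_line x (ev i)).prodMk (hasDerivAt_const (0 : ℝ) y)
  have hc : ∀ j, HasDerivAt (fun t : ℝ => cd (D (x + t • ev i)) y j)
      (D2 D (x, y) (ev i, 0) (0, ev j)) 0 := fun j => by
    simp only [cd_right_eq h]
    exact (hasFDerivAt_fderiv_Dp_apply h (x, y) (0, ev j)).comp_hasDerivAt_of_eq 0 hinl (by simp)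
  have hl : HasDerivAt (fun t : ℝ => 2 * D (x + t • ev i) y)
      (2 * fderiv ℝ (Dp D) (x, y) (ev i, 0)) 0 := by
    have := ((h.smooth_dist.differentiable two_ne_zero (x, y)).hasFDerivAt).comp_hasDerivAt_of_eq
      (0 : ℝ) hinl (by simp)
    exact this.const_mul 2
  have hs : HasDerivAt (fun t : ℝ => pairing G y (cd (D (x + t • ev i)) y) (cd (D (x + t • ev i)) y))
      (2 * ((fun j => D2 D (x, y) (ev i, 0) (0, ev j)) ⬝ᵥ grad G (D x) y)) 0 := by
    simp only [pairing_eq_sum]
    refine (HasDerivAt.fun_sum fun a _ => HasDerivAt.fun_sum fun b _ =>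
      (hc a).fun_mul ((hc b).const_mul _)).congr_deriv ?_
    simp only [zero_smul, add_zero]
    rw [two_mul]
    conv_rhs => arg 2; rw [show ∀ a : Fin n → ℝ, a ⬝ᵥ grad G (D x) y = pairing G y a (cd (D x) y)
      from fun _ => rfl, h.pairing_comm]
    conv_rhs => arg 1; rw [show ∀ a : Fin n → ℝ, a ⬝ᵥ grad G (D x) y = pairing G y a (cd (D x) y)
      from fun _ => rfl]
    simp only [pairing_eq_sum, Finset.sum_add_distrib]
  have hu := hs.unique (hl.congr_of_eventuallyEq (Eventually.of_forall fun t => h.eikonal _ y))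
  have hd : (fun j => D2 D (x, y) (ev i, 0) (0, ev j)) ⬝ᵥ grad G (D x) y =
      D2 D (x, y) (ev i, 0) (0, grad G (D x) y) := by
    have := clm_eq_sum ((D2 D (x, y) (ev i, 0)).comp
      (ContinuousLinearMap.inr ℝ (Fin n → ℝ) (Fin n → ℝ))) (grad G (D x) y)
    simp only [ContinuousLinearMap.comp_apply, ContinuousLinearMap.inr_apply, smul_eq_mul] at this
    rw [this]
    exact Finset.sum_congr rfl fun j _ => mul_comm _ _
  rw [hd, D2_symm h] at hu
  rw [cd_left_eq h]
  have e1 : mixed D x y (grad G (D x) y) i = D2 D (x, y) (0, grad G (D x) y) (ev i, 0) := rfl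
  rw [e1]
  linarith

lemma logv_eq (x y : Fin n → ℝ) : logv G D x y = -((G x)⁻¹ *ᵥ cd (D y) x) := rfl

/-- The differential of the logarithm. -/
def dlog (G : (Fin n → ℝ) → Matrix (Fin n) (Fin n) ℝ) (D : (Fin n → ℝ) → (Fin n → ℝ) → ℝ)
    (x y : Fin n → ℝ) : (Fin n → ℝ) →L[ℝ] (Fin n → ℝ) :=
  (Matrix.mulVecLin (-(G x)⁻¹)).toContinuousLinearMap.comp (mixed D x y)

lemma hasFDerivAt_logv_dlog (h : IsCH G D) (x y : Fin n → ℝ) :
    HasFDerivAt (logv G D x) (dlog G D x y) y := by
  have h1 := (Matrix.mulVecLin (-(G x)⁻¹)).toContinuousLinearMap.hasFDerivAt.comp y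
    (hasFDerivAt_cd_left h x y)
  refine h1.congr_of_eventuallyEq (Eventually.of_forall fun z => ?_)
  simp [logv_eq]

lemma dlog_grad (h : IsCH G D) (x y : Fin n → ℝ) :
    dlog G D x y (grad G (D x) y) = logv G D x y := by
  simp [dlog, mixed_grad h, logv_eq]

lemma logv_dot (h : IsCH G D) (x y z : Fin n → ℝ) :
    logv G D x y ⬝ᵥ (G x *ᵥ logv G D x z) = pairing G x (cd (D y) x) (cd (D z) x) := by
  rw [logv, logv, mulVec_neg, neg_dotProduct_neg, grad, grad, h.mulVec_inv, dotProduct_comm]
  exact h.pairing_comm x _ _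

lemma logv_self_dot (h : IsCH G D) (x y : Fin n → ℝ) :
    logv G D x y ⬝ᵥ (G x *ᵥ logv G D x y) = 2 * D x y := by
  rw [logv_dot h, h.eikonal, Sharp.dist_symm h y x]

lemma vnorm_sq (h : IsCH G D) (x v : Fin n → ℝ) : vnorm G x v ^ 2 = v ⬝ᵥ (G x *ᵥ v) :=
  Real.sq_sqrt (by simpa using (h.posDef x).posSemidef.dotProduct_mulVec_nonneg v)

/-! ## The lines -/

lemma logv_line (he : IsExp G D e) (p : Phase n) (t : ℝ) :
    logv G D p.1 (line e p t) = t • p.2 := he.logv_exp _ _

lemma hasDerivAt_line_flow (he : IsExp G D e) (p : Phase n) (t : ℝ) :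
    HasDerivAt (line e p) (flow e t p).2 t := by
  have h1 : DifferentiableAt ℝ (line e p) t :=
    (he.contDiff.differentiable one_ne_zero _).comp t
      ((differentiableAt_const p.1).prodMk (differentiableAt_id.smul_const p.2))
  exact h1.hasDerivAt

lemma dlog_velocity (h : IsCH G D) (he : IsExp G D e) (p : Phase n) (t : ℝ) :
    dlog G D p.1 (line e p t) (flow e t p).2 = p.2 := by
  refine ((hasFDerivAt_logv_dlog h p.1 _).comp_hasDerivAt t (hasDerivAt_line_flow he p t)).unique ?_
  refine (HasDerivAt.congr_of_eventuallyEq ?_ (Eventually.of_forall fun s => logv_line he p s))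
  simpa using (hasDerivAt_id t).smul_const p.2

lemma dlog_injective (h : IsCH G D) (he : IsExp G D e) (x y : Fin n → ℝ) :
    Function.Injective (dlog G D x y) := by
  have h1 := ((he.contDiff.differentiable one_ne_zero (x, logv G D x y)).hasFDerivAt.comp _
    (hasFDerivAt_prodMk_right x (logv G D x y))).comp y (hasFDerivAt_logv_dlog h x y)
  have h2 := h1.unique ((hasFDerivAt_id y).congr_of_eventuallyEq
    (Eventually.of_forall fun z => he.exp_logv x z))
  exact Function.LeftInverse.injective
    (g := fun v => fderiv ℝ e (x, logv G D x y) (0, v)) fun v => DFunLike.congr_fun h2 v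

/-- The gradient of `D` at the start is `t` times the velocity. -/
lemma grad_line (h : IsCH G D) (he : IsExp G D e) (p : Phase n) (t : ℝ) :
    grad G (D p.1) (line e p t) = t • (flow e t p).2 := by
  refine dlog_injective h he p.1 (line e p t) ?_
  rw [dlog_grad h, map_smul, dlog_velocity h he, logv_line he]

lemma dist_start (h : IsCH G D) (he : IsExp G D e) (p : Phase n) (t : ℝ) :
    D p.1 (line e p t) = t ^ 2 * vnorm G p.1 p.2 ^ 2 / 2 := by
  have := logv_self_dot h p.1 (line e p t)
  rw [logv_line he, mulVec_smul, smul_dotProduct, dotProduct_smul, ← vnorm_sq h, smul_eq_mul,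
    smul_eq_mul] at this
  linarith

lemma continuous_velocity (he : IsExp G D e) :
    Continuous fun z : ℝ × Phase n => (flow e z.1 z.2).2 := by
  have e1 : (fun z : ℝ × Phase n => (flow e z.1 z.2).2) =
      fun z => fderiv ℝ e (z.2.1, z.1 • z.2.2) (0, z.2.2) := by
    funext z
    refine (hasDerivAt_line_flow he z.2 z.1).unique ?_
    refine (he.contDiff.differentiable one_ne_zero _).hasFDerivAt.comp_hasDerivAt z.1 ?_
    simpa using (hasDerivAt_const z.1 z.2.1).prodMk ((hasDerivAt_id z.1).smul_const z.2.2)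
  rw [e1]
  exact ((he.contDiff.continuous_fderiv one_ne_zero).comp
    (continuous_snd.fst.prodMk (continuous_fst.smul continuous_snd.snd))).clm_apply
      (continuous_const.prodMk continuous_snd.snd)

lemma continuous_flow (he : IsExp G D e) :
    Continuous fun z : ℝ × Phase n => flow e z.1 z.2 :=
  (he.contDiff.continuous.comp
    (continuous_snd.fst.prodMk (continuous_fst.smul continuous_snd.snd))).prodMk
      (continuous_velocity he)

/-- Lines have constant speed. -/
lemma speed (h : IsCH G D) (he : IsExp G D e) (p : Phase n) (t : ℝ) :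
    (flow e t p).2 ⬝ᵥ (G (line e p t) *ᵥ (flow e t p).2) = vnorm G p.1 p.2 ^ 2 := by
  have hc : Continuous fun t => (flow e t p).2 ⬝ᵥ (G (line e p t) *ᵥ (flow e t p).2) := by
    have h1 : Continuous fun t : ℝ => flow e t p :=
      (continuous_flow he).comp (continuous_id.prodMk continuous_const)
    have h2 : Continuous fun y => G y :=
      continuous_pi fun i => continuous_pi fun j => (h.smooth_metric i j).continuous
    exact h1.snd.dotProduct (((h2.comp h1.fst)).matrix_mulVec h1.snd)
  refine congrFun (Continuous.ext_on (dense_compl_singleton (0 : ℝ)) hc continuous_const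
    fun s hs => ?_) t
  have h1 := h.eikonal p.1 (line e p s)
  rw [dist_start h he] at h1
  have h2 : pairing G (line e p s) (cd (D p.1) (line e p s)) (cd (D p.1) (line e p s)) =
      grad G (D p.1) (line e p s) ⬝ᵥ (G (line e p s) *ᵥ grad G (D p.1) (line e p s)) := by
    rw [grad, h.mulVec_inv, dotProduct_comm]; rfl
  rw [h2, grad_line h he, mulVec_smul, smul_dotProduct, dotProduct_smul, smul_eq_mul,
    smul_eq_mul] at h1
  refine mul_left_cancel₀ (pow_ne_zero 2 hs) ?_
  linarith

/-- Distances along a line. -/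
lemma dist_line (h : IsCH G D) (he : IsExp G D e) (p : Phase n) (a b : ℝ) :
    D (line e p a) (line e p b) = (b - a) ^ 2 * vnorm G p.1 p.2 ^ 2 / 2 := by
  set S := vnorm G p.1 p.2
  have hS : 0 ≤ S := Real.sqrt_nonneg _
  refine le_antisymm ?_ ?_
  · have key : ∀ ε : ℝ, 0 < ε →
        √(2 * D (line e p a) (line e p b) + ε) ≤ √ε + S * |b - a| := by
      intro ε hε
      have hpos : ∀ s, 0 < 2 * D (line e p a) (line e p s) + ε := fun s => by
        linarith [h.dist_nonneg (line e p a) (line e p s)]
      have hd : ∀ s, HasDerivAt (fun s => √(2 * D (line e p a) (line e p s) + ε))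
          (2 * (cd (D (line e p a)) (line e p s) ⬝ᵥ (flow e s p).2) /
            (2 * √(2 * D (line e p a) (line e p s) + ε))) s := fun s => by
        rw [cd_dotProduct]
        exact ((((h.contDiff_D _).differentiable two_ne_zero _).hasFDerivAt.comp_hasDerivAt s
          (hasDerivAt_line_flow he p s)).const_mul 2).add_const ε |>.sqrt (hpos s).ne'
      have hb : ∀ s, ‖deriv (fun s => √(2 * D (line e p a) (line e p s) + ε)) s‖ ≤ S := fun s => by
        set y := line e p s
        set ξ := cd (D (line e p a)) y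
        set w := (flow e s p).2
        have h1 := h.abs_pairing_le y ξ (G y *ᵥ w)
        rw [pairing, h.inv_mulVec, conorm, conorm, pairing, pairing, h.inv_mulVec,
          dotProduct_comm (G y *ᵥ w) w, speed h he, Real.sqrt_sq hS] at h1
        have h2 : √(ξ ⬝ᵥ ((G y)⁻¹ *ᵥ ξ)) ≤ √(2 * D (line e p a) y + ε) := by
          rw [show ξ ⬝ᵥ ((G y)⁻¹ *ᵥ ξ) = 2 * D (line e p a) y from h.eikonal _ _]
          exact Real.sqrt_le_sqrt (by linarith)
        have hp := Real.sqrt_pos.2 (hpos s)
        rw [(hd s).deriv, Real.norm_eq_abs, mul_div_mul_left _ _ two_ne_zero, abs_div, abs_of_pos hp,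
          div_le_iff₀ hp, mul_comm S]
        exact h1.trans (mul_le_mul_of_nonneg_right h2 hS)
      have h3 := convex_univ.norm_image_sub_le_of_norm_deriv_le
        (fun s _ => (hd s).differentiableAt) (fun s _ => hb s) (mem_univ a) (mem_univ b)
      rw [h.dist_self, mul_zero, zero_add, Real.norm_eq_abs, Real.norm_eq_abs] at h3
      linarith [le_abs_self (√(2 * D (line e p a) (line e p b) + ε) - √ε)]
    have hlim : √(2 * D (line e p a) (line e p b) + 0) ≤ √0 + S * |b - a| :=
      le_of_tendsto_of_tendsto (b := 𝓝[>] (0 : ℝ))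
        ((Continuous.tendsto (by fun_prop : Continuous fun ε : ℝ =>
          √(2 * D (line e p a) (line e p b) + ε)) 0).mono_left nhdsWithin_le_nhds)
        ((Continuous.tendsto (by fun_prop : Continuous fun ε : ℝ => √ε + S * |b - a|) 0).mono_left
          nhdsWithin_le_nhds) (eventually_nhdsWithin_of_forall fun ε hε => key ε hε)
    rw [add_zero, Real.sqrt_zero, zero_add] at hlim
    have h4 := (Real.sqrt_le_iff.1 hlim).2
    rw [mul_pow, sq_abs] at h4
    linarith
  · have hc := h.cosine (line e p a) (line e p b) p.1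
    rw [← logv_dot h, logv_line he, logv_line he, mulVec_smul, smul_dotProduct, dotProduct_smul,
      ← vnorm_sq h, smul_eq_mul, smul_eq_mul, Sharp.dist_symm h (line e p a) p.1,
      Sharp.dist_symm h (line e p b) p.1, dist_start h he, dist_start h he] at hc
    linarith

/-- The group law. -/
lemma logv_line_line (h : IsCH G D) (he : IsExp G D e) (p : Phase n) (t s : ℝ) :
    logv G D (line e p t) (line e p (t + s)) = s • (flow e t p).2 := by
  set S := vnorm G p.1 p.2
  set z := line e p t
  set w := (flow e t p).2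
  set u := line e p (t + s)
  set g := grad G (D u) z with hg
  have h1 : HasDerivAt (fun τ => D u (line e p τ)) (cd (D u) z ⬝ᵥ w) t := by
    rw [cd_dotProduct]
    exact ((h.contDiff_D _).differentiable two_ne_zero _).hasFDerivAt.comp_hasDerivAt t
      (hasDerivAt_line_flow he p t)
  have h2 : HasDerivAt (fun τ => D u (line e p τ)) (-(s * S ^ 2)) t := by
    have h3 : HasDerivAt (fun τ => (τ - (t + s)) ^ 2 * S ^ 2 / 2) (-(s * S ^ 2)) t :=
      (((((hasDerivAt_id t).sub_const (t + s)).pow 2).mul_const (S ^ 2)).div_const 2).congr_deriv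
        (by simp; ring)
    exact h3.congr_of_eventuallyEq (Eventually.of_forall fun τ => dist_line h he p (t + s) τ)
  have hcd := h1.unique h2
  have hGg : G z *ᵥ g = cd (D u) z := h.mulVec_inv _ _
  have hzero : (g + s • w) ⬝ᵥ (G z *ᵥ (g + s • w)) = 0 := by
    have hgg : g ⬝ᵥ cd (D u) z = s ^ 2 * S ^ 2 := by
      have h5 : D u z = (t - (t + s)) ^ 2 * S ^ 2 / 2 := dist_line h he p (t + s) t
      rw [dotProduct_comm, show cd (D u) z ⬝ᵥ g = 2 * D u z from h.eikonal u z, h5]
      ring
    have hgw : g ⬝ᵥ (G z *ᵥ w) = cd (D u) z ⬝ᵥ w := by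
      rw [dotProduct_mulVec, ← mulVec_transpose,
        show (G z)ᵀ = G z by simpa using (h.posDef z).isHermitian.eq, hGg]
    have hww : w ⬝ᵥ (G z *ᵥ w) = S ^ 2 := speed h he p t
    simp only [mulVec_add, mulVec_smul, add_dotProduct, dotProduct_add, smul_dotProduct,
      dotProduct_smul, smul_eq_mul, hgg, hgw, hGg, dotProduct_comm w (cd (D u) z), hcd, hww]
    ring
  have hv : g + s • w = 0 := by
    by_contra hne
    exact ((h.posDef z).dotProduct_mulVec_pos hne).ne' (by simpa using hzero)
  rw [logv, ← hg, neg_eq_iff_add_eq_zero]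
  exact hv

lemma line_flow (h : IsCH G D) (he : IsExp G D e) (p : Phase n) (t s : ℝ) :
    line e (flow e t p) s = line e p (t + s) := by
  rw [line, ← logv_line_line h he p t s]
  exact he.exp_logv _ _

lemma flow_flow (h : IsCH G D) (he : IsExp G D e) (p : Phase n) (t s : ℝ) :
    flow e s (flow e t p) = flow e (t + s) p := by
  have h1 : HasDerivAt (line e (flow e t p)) (flow e (t + s) p).2 s :=
    ((hasDerivAt_line_flow he p (t + s)).comp_const_add t s).congr_of_eventuallyEq
      (Eventually.of_forall fun r => line_flow h he p t r)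
  exact Prod.ext (line_flow h he p t s) h1.deriv

lemma line_zero (he : IsExp G D e) (h : IsCH G D) (p : Phase n) : line e p 0 = p.1 := by
  have h0 : logv G D p.1 p.1 = 0 := by
    have h1 := logv_self_dot h p.1 p.1
    rw [h.dist_self, mul_zero] at h1
    by_contra hne
    exact ((h.posDef p.1).dotProduct_mulVec_pos hne).ne' (by simpa using h1)
  rw [line, zero_smul]
  conv_rhs => rw [← he.exp_logv p.1 p.1, h0]

lemma flow_zero (h : IsCH G D) (he : IsExp G D e) (p : Phase n) : flow e 0 p = p := by
  refine Prod.ext (line_zero he h p) ?_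
  have h1 := logv_line_line h he p 0 1
  rw [zero_add, one_smul, line_zero he h, logv_line he, one_smul] at h1
  exact h1.symm

lemma line_flip (p : Phase n) (t : ℝ) : line e (flip p) t = line e p (-t) := by
  simp [line, flip]

lemma vnorm_flow (h : IsCH G D) (he : IsExp G D e) (p : Phase n) (t : ℝ) :
    vnorm G (flow e t p).1 (flow e t p).2 = vnorm G p.1 p.2 := by
  rw [vnorm, show (flow e t p).1 = line e p t from rfl, speed h he,
    Real.sqrt_sq (show (0 : ℝ) ≤ vnorm G p.1 p.2 from Real.sqrt_nonneg _)]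

end Vale.Agent.P219.CH.Six
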