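import Vale.Agent.P219.Six.Radial

/-!
# P219, six dimensions: the geodesic flow preserves the Liouville measure

The reflection `(x, v) ↦ (y, logv y x)`, `y = e (x, v)`, is the swap of `(x, y)` in the variables
`(x, logv x y)`, in which `det G dx dv` becomes the symmetric `|det mixedD| dx dy`.
-/

noncomputable section

open MeasureTheory Set Filter Topology Matrix
open scoped ENNReal

namespace Vale.Agent.P219.CH.Six

variable {n : ℕ} {G : (Fin n → ℝ) → Matrix (Fin n) (Fin n) ℝ}
  {D : (Fin n → ℝ) → (Fin n → ℝ) → ℝ} {e : Phase n → Fin n → ℝ}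

lemma continuous_det_mixedD (h : IsCH G D) :
    Continuous fun p : Phase n => |(mixedD D p.1 p.2).det| := by
  have h1 : Continuous fun p : Phase n => opMat (mixedD D p.1 p.2) := by
    have hm : ∀ p : Phase n, mixedD D p.1 p.2 = mixed D p.1 p.2 := fun p =>
      (hasFDerivAt_cd_left h p.1 p.2).fderiv
    refine continuous_pi fun a => continuous_pi fun b => ?_
    simp only [opMat, Matrix.of_apply, hm]
    exact (((contDiff_fderiv_Dp h).continuous_fderiv one_ne_zero).clm_apply
      continuous_const).clm_apply continuous_const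
  simp only [det_eq_det_opMat]
  exact h1.matrix_det.abs

lemma continuous_logv (h : IsCH G D) : Continuous fun p : Phase n => logv G D p.1 p.2 := by
  have hi : Continuous fun p : Phase n => (G p.1)⁻¹ :=
    continuous_pi fun i => continuous_pi fun j => (h.contDiff_inv i j).continuous.comp continuous_fst
  exact (hi.matrix_mulVec (Sharp.contDiff_logCovector h).continuous).neg

/-- The integral against `det G dx dv`. -/
def I0 (G : (Fin n → ℝ) → Matrix (Fin n) (Fin n) ℝ) (F : Phase n → ℝ≥0∞) : ℝ≥0∞ :=
  ∫⁻ x, ∫⁻ v, F (x, v) * ENNReal.ofReal (G x).det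

/-- The reflection. -/
def refl' (G : (Fin n → ℝ) → Matrix (Fin n) (Fin n) ℝ) (D : (Fin n → ℝ) → (Fin n → ℝ) → ℝ)
    (e : Phase n → Fin n → ℝ) (p : Phase n) : Phase n :=
  (e p, logv G D (e p) p.1)

lemma I0_refl (h : IsCH G D) (he : IsExp G D e) {F : Phase n → ℝ≥0∞} (hF : Measurable F) :
    I0 G (fun p => F (refl' G D e p)) = I0 G F := by
  have hm : Measurable fun p : Phase n =>
      F (p.2, logv G D p.2 p.1) * ENNReal.ofReal |(mixedD D p.2 p.1).det| :=
    (hF.comp ((continuous_snd.prodMk ((continuous_logv h).comp continuous_swap)).measurable)).mul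
      ((continuous_det_mixedD h).comp continuous_swap).measurable.ennreal_ofReal
  calc I0 G (fun p => F (refl' G D e p))
      = ∫⁻ x, ∫⁻ y, F (refl' G D e (x, logv G D x y)) * ENNReal.ofReal |(mixedD D x y).det| :=
        (lintegral_mixed h he fun p => F (refl' G D e p)).symm
    _ = ∫⁻ x, ∫⁻ y, F (y, logv G D y x) * ENNReal.ofReal |(mixedD D y x).det| :=
        lintegral_congr fun x => lintegral_congr fun y => by
          rw [det_mixed_symm h x y, refl', he.exp_logv]
    _ = ∫⁻ y, ∫⁻ x, F (y, logv G D y x) * ENNReal.ofReal |(mixedD D y x).det| :=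
        lintegral_lintegral_swap hm.aemeasurable
    _ = I0 G F := lintegral_mixed h he F

lemma I0_flip (F : Phase n → ℝ≥0∞) : I0 G (fun p => F (flip p)) = I0 G F :=
  lintegral_congr fun x => (Measure.measurePreserving_neg volume).lintegral_comp_emb
    (MeasurableEquiv.neg (Fin n → ℝ)).measurableEmbedding
    fun v => F (x, v) * ENNReal.ofReal (G x).det

lemma I0_smul (F : Phase n → ℝ≥0∞) {t : ℝ} (ht : t ≠ 0) :
    I0 G (fun p => F (p.1, t • p.2)) = ENNReal.ofReal |(t ^ n)⁻¹| * I0 G F := by
  have key : ∀ x, ∫⁻ v, F (x, t • v) * ENNReal.ofReal (G x).det =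
      ENNReal.ofReal |(t ^ n)⁻¹| * ∫⁻ v, F (x, v) * ENNReal.ofReal (G x).det := fun x => by
    have hmap := Measure.map_addHaar_smul (volume : Measure (Fin n → ℝ)) ht
    rw [Module.finrank_fin_fun] at hmap
    rw [← smul_eq_mul (ENNReal.ofReal _), ← lintegral_smul_measure, ← hmap]
    exact ((measurableEmbedding_const_smul₀ (α := Fin n → ℝ) ht).lintegral_map (μ := volume)
      fun v => F (x, v) * ENNReal.ofReal (G x).det).symm
  simp only [I0, key]
  exact lintegral_const_mul' _ _ ENNReal.ofReal_ne_top

lemma flow_one (h : IsCH G D) (he : IsExp G D e) (p : Phase n) :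
    flow e 1 p = flip (refl' G D e p) := by
  have h1 : line e p 1 = e p := by simp [line]
  have h2 := logv_line_line h he p 1 (-1)
  rw [add_neg_cancel, line_zero he h, h1, neg_smul, one_smul] at h2
  exact Prod.ext h1 (by simp [flip, refl', h2])

lemma flow_scale (he : IsExp G D e) (p : Phase n) (t : ℝ) :
    flow e 1 (p.1, t • p.2) = (line e p t, t • (flow e t p).2) := by
  have h1 : ∀ τ, line e (p.1, t • p.2) τ = line e p (τ * t) := fun τ => by
    simp [line, smul_smul]
  refine Prod.ext (show line e (p.1, t • p.2) 1 = _ by rw [h1, one_mul]) ?_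
  show deriv (line e (p.1, t • p.2)) 1 = _
  have h2 : HasDerivAt (line e (p.1, t • p.2)) (t • (flow e t p).2) 1 := by
    refine HasDerivAt.congr_of_eventuallyEq ?_ (Eventually.of_forall h1)
    exact (hasDerivAt_line_flow he p t).scomp_of_eq (1 : ℝ) (hasDerivAt_mul_const t) (one_mul t).symm
  exact h2.deriv

/-- The Gaussian weight. -/
def wgt (G : (Fin n → ℝ) → Matrix (Fin n) (Fin n) ℝ) (a : ℝ) (p : Phase n) : ℝ≥0∞ :=
  ENNReal.ofReal (Real.exp (-(a * vnorm G p.1 p.2 ^ 2 / 2)))

lemma continuous_vnorm (h : IsCH G D) : Continuous fun p : Phase n => vnorm G p.1 p.2 := by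
  have h2 : Continuous fun y => G y :=
    continuous_pi fun i => continuous_pi fun j => (h.smooth_metric i j).continuous
  exact (continuous_snd.dotProduct ((h2.comp continuous_fst).matrix_mulVec continuous_snd)).sqrt

lemma measurable_wgt (h : IsCH G D) (a : ℝ) : Measurable (wgt G a) :=
  (Real.continuous_exp.comp
    ((continuous_const.mul ((continuous_vnorm h).pow 2)).div_const 2).neg).measurable.ennreal_ofReal

lemma vnorm_smul (t : ℝ) (x v : Fin n → ℝ) : vnorm G x (t • v) = |t| * vnorm G x v := by
  rw [vnorm, vnorm, mulVec_smul, smul_dotProduct, dotProduct_smul, smul_eq_mul, smul_eq_mul,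
    ← mul_assoc, ← sq, Real.sqrt_mul (sq_nonneg t), Real.sqrt_sq_eq_abs]

lemma lintegral_liou (h : IsCH G D) {F : Phase n → ℝ≥0∞} (hF : Measurable F) :
    ∫⁻ p, F p ∂liou G = I0 G (fun p => F p * wgt G 1 p) := by
  have hd : Measurable fun p : Phase n => ENNReal.ofReal (dens G p.1 * fibre G p.1 p.2) :=
    ((h.continuous_dens.comp continuous_fst).mul ((h.continuous_dens.comp continuous_fst).mul
      (Real.continuous_exp.comp
        (((continuous_vnorm h).pow 2).div_const 2).neg))).measurable.ennreal_ofReal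
  rw [liou, lintegral_withDensity_eq_lintegral_mul _ hd hF, Measure.volume_eq_prod,
    lintegral_prod _ (hd.mul hF).aemeasurable]
  refine lintegral_congr fun x => lintegral_congr fun v => ?_
  simp only [Pi.mul_apply, fibre, wgt, one_mul]
  rw [← mul_assoc, dens_mul_self h, ENNReal.ofReal_mul (h.det_pos x).le]
  ring

lemma lintegral_flow (h : IsCH G D) (he : IsExp G D e) (t : ℝ) {F : Phase n → ℝ≥0∞}
    (hF : Measurable F) : ∫⁻ p, F (flow e t p) ∂liou G = ∫⁻ p, F p ∂liou G := by
  have hflow : ∀ s, Measurable (flow e s) := fun s =>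
    ((continuous_flow he).comp (continuous_const.prodMk continuous_id)).measurable
  rw [lintegral_liou h (F := fun p => F (flow e t p)) (hF.comp (hflow t)), lintegral_liou h hF]
  rcases eq_or_ne t 0 with rfl | ht
  · simp only [flow_zero h he]
  set H : Phase n → ℝ≥0∞ := fun q => F (q.1, t⁻¹ • q.2) * wgt G (t ^ 2)⁻¹ q
  have hH : Measurable H := (hF.comp
    ((continuous_fst.prodMk (continuous_snd.const_smul t⁻¹)).measurable)).mul (measurable_wgt h _)
  have hw : ∀ p : Phase n, wgt G (t ^ 2)⁻¹ (p.1, t • p.2) = wgt G 1 p := fun p => by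
    simp only [wgt, vnorm_smul, mul_pow, sq_abs]
    congr 3
    field_simp
  have e1 : ∀ p, F (flow e t p) * wgt G 1 p = H (flow e 1 (p.1, t • p.2)) := fun p => by
    have e3 : wgt G (t ^ 2)⁻¹ (flow e 1 (p.1, t • p.2)) = wgt G (t ^ 2)⁻¹ (p.1, t • p.2) := by
      simp only [wgt, vnorm_flow h he]
    simp only [H, e3, hw]
    rw [flow_scale he, inv_smul_smul₀ ht]
    rfl
  have e2 : ∀ p, H (p.1, t • p.2) = F p * wgt G 1 p := fun p => by
    simp only [H, inv_smul_smul₀ ht, hw]
  simp only [e1]
  rw [I0_smul (fun q => H (flow e 1 q)) ht]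
  simp only [flow_one h he]
  rw [I0_refl h he (F := fun q => H (flip q))
    (hH.comp (continuous_fst.prodMk continuous_snd.neg).measurable), I0_flip, ← I0_smul H ht]
  simp only [e2]

lemma lintegral_flip (h : IsCH G D) {F : Phase n → ℝ≥0∞} (hF : Measurable F) :
    ∫⁻ p, F (flip p) ∂liou G = ∫⁻ p, F p ∂liou G := by
  rw [lintegral_liou h (F := fun p => F (flip p))
    (hF.comp (continuous_fst.prodMk continuous_snd.neg).measurable), lintegral_liou h hF,
    ← I0_flip (fun p => F p * wgt G 1 p)]
  have e1 : ∀ p, wgt G 1 (flip p) = wgt G 1 p := fun p => by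
    simp [wgt, flip, vnorm, mulVec_neg]
  simp only [e1]

lemma measurePreserving_of_lintegral {α : Type*} [MeasurableSpace α] {μ : Measure α} {f : α → α}
    (hf : Measurable f)
    (h : ∀ F : α → ℝ≥0∞, Measurable F → ∫⁻ a, F (f a) ∂μ = ∫⁻ a, F a ∂μ) :
    MeasurePreserving f μ μ :=
  ⟨hf, Measure.ext_of_lintegral _ fun F hF => by rw [lintegral_map hF hf, h F hF]⟩

/-- The geodesic flow of the exponential map. -/
theorem flowPin (n : ℕ) : FlowPin n := by
  intro G D e h he
  refine ⟨h.dist_comm, hasDerivAt_line_flow he, flow_zero h he, line_flow h he,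
    fun p t s => flow_flow h he p t s, line_flip, vnorm_flow h he, dist_start h he, grad_line h he,
    continuous_flow he, ?_, fun t => ?_⟩
  · exact measurePreserving_of_lintegral (continuous_fst.prodMk continuous_snd.neg).measurable
      fun F hF => lintegral_flip h hF
  · exact measurePreserving_of_lintegral
      ((continuous_flow he).comp (continuous_const.prodMk continuous_id)).measurable
      fun F hF => lintegral_flow h he t hF

end Vale.Agent.P219.CH.Six
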