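import Vale.Agent.P219.Six.PairMeasure

/-!
# The pair integrand along one geodesic
-/

noncomputable section

open MeasureTheory Set Filter Topology Matrix
open scoped ENNReal

namespace Vale.Agent.P219.CH.Six

variable {n : ℕ} {G : (Fin n → ℝ) → Matrix (Fin n) (Fin n) ℝ}
  {D : (Fin n → ℝ) → (Fin n → ℝ) → ℝ}

/-- The derivative of `u` at the start of the geodesic of `p`. -/
def slp (u : (Fin n → ℝ) → ℝ) (p : Phase n) : ℝ := cd u p.1 ⬝ᵥ p.2

/-- The absolute cosine between a phase point and the gradient of `u`. -/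
def cosv (G : (Fin n → ℝ) → Matrix (Fin n) (Fin n) ℝ) (u : (Fin n → ℝ) → ℝ) (p : Phase n) : ℝ :=
  |slp u p| / (conorm G p.1 (cd u p.1) * vnorm G p.1 p.2)

lemma _root_.Vale.Agent.P219.CH.IsCH.continuous_cd_D (h : IsCH G D) :
    Continuous fun w : Phase n => cd (D w.1) w.2 := by
  have h1 : ContDiff ℝ 1 fun w : Phase n => fderiv ℝ (D w.1) w.2 :=
    ContDiff.fderiv (m := 2) (n := 1) (f := fun (w : Phase n) (z : Fin n → ℝ) => D w.1 z)
      (h.smooth_dist.comp ((contDiff_fst.comp contDiff_fst).prodMk contDiff_snd)) contDiff_snd le_rfl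
  exact continuous_pi fun i => h1.continuous.clm_apply continuous_const

lemma _root_.Vale.Agent.P219.CH.IsCH.measurable_acos (h : IsCH G D) {u : (Fin n → ℝ) → ℝ}
    (hu : ContDiff ℝ 1 u) : Measurable fun w : Phase n => acos G D u w.1 w.2 := by
  have h1 : Continuous fun w : Phase n => normalPart G D w.1 u w.2 :=
    h.continuous_pairing.comp (continuous_snd.prodMk
      (((continuous_cd hu).comp continuous_snd).prodMk h.continuous_cd_D))
  exact h1.abs.measurable.div (((h.continuous_conorm_cd hu).comp continuous_snd).mul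
    ((continuous_const.mul h.continuous_D).sqrt)).measurable

lemma acos_nonneg (u : (Fin n → ℝ) → ℝ) (x y : Fin n → ℝ) : 0 ≤ acos G D u x y :=
  div_nonneg (abs_nonneg _) (mul_nonneg (conorm_nonneg _ _) (Real.sqrt_nonneg _))

lemma _root_.Vale.Agent.P219.CH.IsCH.acos_le_one (h : IsCH G D) (u : (Fin n → ℝ) → ℝ)
    (x y : Fin n → ℝ) : acos G D u x y ≤ 1 :=
  div_le_one_of_le₀ (h.abs_normalPart_le x u y) (mul_nonneg (conorm_nonneg _ _) (Real.sqrt_nonneg _))

lemma _root_.Vale.Agent.P219.CH.IsCH.dotProduct_le (h : IsCH G D) (x ξ v : Fin n → ℝ) :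
    |ξ ⬝ᵥ v| ≤ conorm G x ξ * vnorm G x v := by
  have e : (G x)⁻¹ *ᵥ (G x *ᵥ v) = v := by
    rw [mulVec_mulVec, nonsing_inv_mul _ ((isUnit_iff_ne_zero).2 (h.det_pos x).ne'), one_mulVec]
  have h1 := h.abs_pairing_le x ξ (G x *ᵥ v)
  rw [pairing, e] at h1
  refine h1.trans_eq ?_
  rw [conorm, conorm, pairing, pairing, e, vnorm, dotProduct_comm (G x *ᵥ v)]

/-- Shift of a record. -/
lemma rec_shift (η c : ℝ) (f : ℝ → ℝ) (a : ℝ) :
    Rec η (fun s => f (c + s)) a ↔ Rec η f (c + a) := by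
  constructor
  · intro hr s hs
    rcases hr (s - c) (by linarith) with h1 | ⟨z, hz, h1⟩
    · left; simpa using h1
    · exact Or.inr ⟨c + z, ⟨by linarith [hz.1], by linarith [hz.2]⟩, h1⟩
  · intro hr s hs
    rcases hr (c + s) (by linarith) with h1 | ⟨z, hz, h1⟩
    · exact Or.inl h1
    · exact Or.inr ⟨z - c, ⟨by linarith [hz.1], by linarith [hz.2]⟩, by simpa using h1⟩

/-- Shift of a pair. -/
lemma paired_shift (η c : ℝ) (f : ℝ → ℝ) (a b : ℝ) :
    Paired η (fun s => f (c + s)) a b ↔ Paired η f (c + a) (c + b) := by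
  unfold Paired
  have e : Rec η (fun s => f (c + -s)) (-b) ↔ Rec η (fun s => f (-s)) (-(c + b)) := by
    have h2 := rec_shift η (-c) (fun q => f (-q)) (-b)
    simp only [neg_add_rev, neg_neg] at h2 ⊢
    rw [show (fun s : ℝ => f (c + -s)) = fun s => f (-s + c) from funext fun s => by rw [add_comm]]
    rw [h2, add_comm (-c) (-b)]
  refine and_congr (rec_shift η c f a) (and_congr e (and_congr_right fun _ =>
    and_congr_right fun _ => ⟨fun hz z hz' => ?_, fun hz z hz' =>
      hz _ ⟨by linarith [hz'.1], by linarith [hz'.2]⟩⟩))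
  have := hz (z - c) ⟨by linarith [hz'.1], by linarith [hz'.2]⟩
  simpa using this

/-- `r exp (-Q r ^ 2 / 2)` is at most `1 / sqrt Q`. -/
lemma mul_exp_sq_le {Q r : ℝ} (hQ : 0 < Q) :
    r * Real.exp (-(Q * (r ^ 2 / 2))) ≤ 1 / Real.sqrt Q := by
  have hs := Real.sqrt_pos.2 hQ
  have h1 := Real.add_one_le_exp (Q * (r ^ 2 / 2))
  have h2 := Real.sq_sqrt hQ.le
  rw [Real.exp_neg, ← div_eq_mul_inv, div_le_div_iff₀ (Real.exp_pos _) hs, one_mul]
  nlinarith [sq_nonneg (Real.sqrt Q * r - 1)]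

/-- The pair kernel is nonnegative at cosines. -/
lemma pairKer_nonneg {r c d : ℝ} (hc : c ∈ Icc (0 : ℝ) 1) (hd : d ∈ Icc (0 : ℝ) 1) :
    0 ≤ pairKer r c d := by
  rcases eq_or_ne r 0 with rfl | hr
  · simp [pairKer]
  have h2 : 0 < r ^ 2 := by positivity
  have e : pairKer r c d = (17 * r ^ 2 - 25 * (c + d) * r + (30 + 10 * (c ^ 2 + d ^ 2))) / r ^ 2 := by
    unfold pairKer; field_simp
  rw [e]
  refine div_nonneg ?_ h2.le
  nlinarith [sq_nonneg (34 * r - 25 * (c + d)), sq_nonneg (c - d),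
    mul_self_le_mul_self hc.1 hc.2, mul_self_le_mul_self hd.1 hd.2]

/-- The weight of a cosine in the negative terms. -/
def cosWt (c : ℝ) : ℝ := 240 * c + 48 * c ^ 3

/-- The pointwise inequality for one pair. -/
theorem pair_point (hpoly : PolyPin) {a b cx cy N t s Q : ℝ} (ha : 0 < a) (hb : 0 < b) (hN : 0 < N)
    (ht : 0 < t) (hs : 0 < s) (hQ : 0 < Q) (hcx : a ≤ cx * N) (hcy : b ≤ cy * N) :
    360 * s * t * (a * b) ≤
      s ^ 5 * ((1 - Real.exp (-(Q * ((t * N) ^ 2 / 2)))) *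
          pairKer (s * (t * N)) (a / (cx * N)) (b / (cy * N)) * (cx * cy)) * ((t * N) ^ 5 * N) +
        a * b * ((360 * s / Real.sqrt Q + cosWt (a / (cx * N))) / N) +
        a * b * (cosWt (b / (cy * N)) / N) := by
  have hcx0 : 0 < cx := pos_of_mul_pos_left (ha.trans_le hcx) hN.le
  have hcy0 : 0 < cy := pos_of_mul_pos_left (hb.trans_le hcy) hN.le
  set c := a / (cx * N) with hc
  set d := b / (cy * N) with hd
  set w := Real.exp (-(Q * ((t * N) ^ 2 / 2)))
  have hw0 : 0 ≤ w := (Real.exp_pos _).le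
  have hw1 : w ≤ 1 := Real.exp_le_one_iff.2 (by
    have : 0 ≤ Q * ((t * N) ^ 2 / 2) := by positivity
    linarith)
  have hc0 : 0 ≤ c := by positivity
  have hd0 : 0 ≤ d := by positivity
  have hp := mul_le_mul_of_nonneg_left (hpoly (s * (t * N)) c d (by positivity) hc0 hd0)
    (mul_nonneg (sub_nonneg.2 hw1) (by positivity : 0 ≤ cx * cy * N))
  have e1 : c * d * (cx * cy * N) = a * b / N := by rw [hc, hd]; field_simp
  have hrw : t * w * N ≤ 1 / Real.sqrt Q := by
    have := mul_exp_sq_le (r := t * N) hQ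
    calc t * w * N = t * N * w := by ring
      _ ≤ _ := this
  have hneg : 0 ≤ w * (a * b / N) * (cosWt c + cosWt d) := by
    have : 0 ≤ cosWt c + cosWt d := by unfold cosWt; positivity
    positivity
  have hloss := mul_le_mul_of_nonneg_left hrw (by positivity : 0 ≤ 360 * s * (a * b / N))
  have eL : (1 - w) * (cx * cy * N) *
      (360 * c * d * (s * (t * N)) - 240 * (c * d) * (c + d) - 48 * (c * d) * (c ^ 3 + d ^ 3)) =
      (1 - w) * (a * b / N) * (360 * (s * (t * N)) - (cosWt c + cosWt d)) := by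
    rw [← e1]; unfold cosWt; ring
  rw [eL] at hp
  have eA : a * b / N * N = a * b := div_mul_cancel₀ _ hN.ne'
  have e2 : 360 * s * t * (a * b) = a * b / N * (360 * (s * (t * N))) := by
    rw [← eA]; field_simp
  have e3 : a * b * ((360 * s / Real.sqrt Q + cosWt c) / N) + a * b * (cosWt d / N) =
      360 * s * (a * b / N) * (1 / Real.sqrt Q) + a * b / N * (cosWt c + cosWt d) := by ring
  have e4 : s ^ 5 * ((1 - w) * pairKer (s * (t * N)) c d * (cx * cy)) * ((t * N) ^ 5 * N) =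
      (1 - w) * (cx * cy * N) * ((s * (t * N)) ^ 5 * pairKer (s * (t * N)) c d) := by ring
  rw [add_assoc, e3, e2, e4]
  nlinarith [hp, hneg, hloss]

end Vale.Agent.P219.CH.Six
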