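import Vale.Agent.P219.Six.Mixed

/-!
# P219: polar coordinates along geodesics from one point
-/

noncomputable section

open MeasureTheory Set Filter Topology Matrix
open scoped ENNReal

namespace Vale.Agent.P219.CH.Six

variable {n : ℕ} {G : (Fin n → ℝ) → Matrix (Fin n) (Fin n) ℝ}
  {D : (Fin n → ℝ) → (Fin n → ℝ) → ℝ} {e : Phase n → Fin n → ℝ}

lemma continuous_vnorm_right (x : Fin n → ℝ) : Continuous (vnorm G x) :=
  Real.continuous_sqrt.comp (continuous_id.dotProduct (continuous_const.matrix_mulVec continuous_id))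

lemma vnorm_smul_of_nonneg {t : ℝ} (ht : 0 ≤ t) (x v : Fin n → ℝ) :
    vnorm G x (t • v) = t * vnorm G x v := by
  rw [vnorm, vnorm, mulVec_smul, dotProduct_smul, smul_dotProduct, smul_eq_mul, smul_eq_mul,
    ← mul_assoc, Real.sqrt_mul (mul_self_nonneg t), Real.sqrt_mul_self ht]

lemma vnorm_nonneg (x v : Fin n → ℝ) : 0 ≤ vnorm G x v := Real.sqrt_nonneg _

/-- Substitution `v ↦ t v` in a lower integral. -/
lemma lintegral_smul_eq {t : ℝ} (ht : 0 < t) (F : (Fin n → ℝ) → ℝ≥0∞) (hF : Measurable F) :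
    ∫⁻ v, F (t • v) = ENNReal.ofReal ((t ^ n)⁻¹) * ∫⁻ w, F w := by
  have h1 : ∫⁻ v, F (t • v) = ∫⁻ w, F w ∂Measure.map (fun v => t • v) volume :=
    (lintegral_map hF (measurable_id.const_smul t)).symm
  rw [h1, show (fun v : Fin n → ℝ => t • v) = (t • ·) from rfl,
    Measure.map_addHaar_smul volume ht.ne', lintegral_smul_measure, Module.finrank_fin_fun,
    abs_of_pos (by positivity), smul_eq_mul]

/-- The radial integral is at most `8 / a ^ 6`, in product form. -/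
lemma radial_le {a : ℝ} (ha : 0 < a) :
    ∫⁻ t in Ioi (0 : ℝ), ENNReal.ofReal (a ^ 6 * (t⁻¹ ^ 7 * Real.exp (-((a / t) ^ 2 / 2)))) ≤
      8 := by
  set g : ℝ → ℝ≥0∞ := fun s => ENNReal.ofReal (4 * (Real.exp (-s) * s ^ (2 : ℕ)))
  set φ : ℝ → ℝ := fun t => a ^ 2 / (2 * t ^ 2)
  have hd : ∀ t ∈ Ioi (0 : ℝ), HasDerivWithinAt φ (-(a ^ 2 / t ^ 3)) (Ioi 0) t := fun t ht => by
    have ht' : (t : ℝ) ≠ 0 := (mem_Ioi.1 ht).ne'
    have h := ((hasDerivAt_pow 2 t).const_mul 2).inv (by positivity)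
    have h2 := (h.const_mul (a ^ 2)).hasDerivWithinAt (s := Ioi (0 : ℝ))
    simp only [φ, div_eq_mul_inv]
    refine h2.congr_deriv ?_
    push_cast
    field_simp
  have hinj : InjOn φ (Ioi 0) := fun s hs t ht hst => by
    have hs' : (s : ℝ) ≠ 0 := (mem_Ioi.1 hs).ne'
    have ht' : (t : ℝ) ≠ 0 := (mem_Ioi.1 ht).ne'
    simp only [φ] at hst
    field_simp at hst
    exact (sq_eq_sq₀ (mem_Ioi.1 hs).le (mem_Ioi.1 ht).le).1 (by linarith)
  have himg : φ '' Ioi 0 ⊆ Ioi 0 := by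
    rintro _ ⟨t, ht, rfl⟩
    have : 0 < t := mem_Ioi.1 ht
    exact mem_Ioi.2 (by positivity)
  have h1 := lintegral_image_eq_lintegral_abs_deriv_mul measurableSet_Ioi hd hinj g
  calc ∫⁻ t in Ioi (0 : ℝ), ENNReal.ofReal (a ^ 6 * (t⁻¹ ^ 7 * Real.exp (-((a / t) ^ 2 / 2))))
      = ∫⁻ t in Ioi (0 : ℝ), ENNReal.ofReal |(-(a ^ 2 / t ^ 3))| * g (φ t) := by
        refine setLIntegral_congr_fun measurableSet_Ioi fun t ht => ?_
        have ht' : 0 < t := mem_Ioi.1 ht
        simp only [g, φ]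
        rw [← ENNReal.ofReal_mul (abs_nonneg _), abs_neg, abs_of_pos (by positivity),
          show a ^ 2 / (2 * t ^ 2) = (a / t) ^ 2 / 2 by ring]
        congr 1
        field_simp
        ring
    _ = ∫⁻ s in φ '' Ioi 0, g s := h1.symm
    _ ≤ ∫⁻ s in Ioi 0, g s := lintegral_mono_set himg
    _ = 8 := by
        have hint : IntegrableOn (fun s : ℝ => Real.exp (-s) * s ^ (2 : ℕ)) (Ioi 0) := by
          refine (Real.GammaIntegral_convergent (show (0 : ℝ) < 3 by norm_num)).congr_fun ?_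
            measurableSet_Ioi
          intro s _
          norm_num
        have hval : ∫ s in Ioi (0 : ℝ), Real.exp (-s) * s ^ (2 : ℕ) = 2 := by
          have h := Real.Gamma_eq_integral (show (0 : ℝ) < 3 by norm_num)
          rw [show (3 : ℝ) = (2 : ℕ) + 1 by norm_num, Real.Gamma_nat_eq_factorial] at h
          norm_num at h
          rw [h]
        rw [← ofReal_integral_eq_lintegral_ofReal (hint.const_mul 4)
          (ae_restrict_of_forall_mem measurableSet_Ioi fun s _ => by positivity),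
          integral_const_mul, hval]
        norm_num

/-- The integrand at time `t` as a function of `w = t v`. -/
@[irreducible] def radialFn (G : (Fin 6 → ℝ) → Matrix (Fin 6) (Fin 6) ℝ) (e : Phase 6 → Fin 6 → ℝ)
    (f : (Fin 6 → ℝ) → ℝ≥0∞) (x w : Fin 6 → ℝ) (t : ℝ) : ℝ≥0∞ :=
  ENNReal.ofReal (dens G x * Real.exp (-((vnorm G x w / t) ^ 2 / 2))) * (f (e (x, w)) *
    ENNReal.ofReal (vnorm G x w ^ 6 / t))

variable {G₆ : (Fin 6 → ℝ) → Matrix (Fin 6) (Fin 6) ℝ} {e₆ : Phase 6 → Fin 6 → ℝ}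
  {f : (Fin 6 → ℝ) → ℝ≥0∞}

lemma measurable_radialFn (he : Continuous e₆) (hf : Measurable f) (x : Fin 6 → ℝ) :
    Measurable (Function.uncurry (radialFn G₆ e₆ f x)) := by
  have hcx : Continuous fun w => e₆ (x, w) := he.comp (continuous_const.prodMk continuous_id)
  have hn : Measurable fun p : (Fin 6 → ℝ) × ℝ => vnorm G₆ x p.1 :=
    (continuous_vnorm_right (G := G₆) x).measurable.comp measurable_fst
  rw [show Function.uncurry (radialFn G₆ e₆ f x) = fun p : (Fin 6 → ℝ) × ℝ =>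
      ENNReal.ofReal (dens G₆ x * Real.exp (-((vnorm G₆ x p.1 / p.2) ^ 2 / 2))) * (f (e₆ (x, p.1)) *
        ENNReal.ofReal (vnorm G₆ x p.1 ^ 6 / p.2)) from funext fun p => by
    simp [Function.uncurry, radialFn.eq_def]]
  refine (Measurable.ennreal_ofReal ?_).mul ((hf.comp (hcx.measurable.comp measurable_fst)).mul
    (Measurable.ennreal_ofReal ?_))
  · exact measurable_const.mul ((((hn.div measurable_snd).pow_const 2).div_const 2).neg.exp)
  · exact (hn.pow_const 6).div measurable_snd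

lemma integrand_eq (x v : Fin 6 → ℝ) {t : ℝ} (ht : 0 < t) :
    ENNReal.ofReal (fibre G₆ x v) * (f (line e₆ (x, v) t) *
      ENNReal.ofReal ((t * vnorm G₆ x v) ^ 5 * vnorm G₆ x v)) =
        radialFn G₆ e₆ f x (t • v) t := by
  simp only [radialFn.eq_def, fibre, line, vnorm_smul_of_nonneg ht.le]
  rw [mul_div_cancel_left₀ _ ht.ne']
  congr 3
  field_simp

lemma measurable_integrand (he : Continuous e₆) (hf : Measurable f) (x : Fin 6 → ℝ) :
    Measurable fun p : (Fin 6 → ℝ) × ℝ => ENNReal.ofReal (fibre G₆ x p.1) *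
      (f (line e₆ (x, p.1) p.2) *
        ENNReal.ofReal ((p.2 * vnorm G₆ x p.1) ^ 5 * vnorm G₆ x p.1)) := by
  have hc : Continuous fun p : (Fin 6 → ℝ) × ℝ => e₆ (x, p.2 • p.1) :=
    he.comp (continuous_const.prodMk (continuous_snd.smul continuous_fst))
  have hn : Measurable fun p : (Fin 6 → ℝ) × ℝ => vnorm G₆ x p.1 :=
    (continuous_vnorm_right (G := G₆) x).measurable.comp measurable_fst
  have hfib : Measurable fun p : (Fin 6 → ℝ) × ℝ => fibre G₆ x p.1 := by
    unfold fibre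
    exact measurable_const.mul (((hn.pow_const 2).div_const 2).neg.exp)
  exact hfib.ennreal_ofReal.mul ((hf.comp hc.measurable).mul
    ((((measurable_snd.mul hn).pow_const 5).mul hn).ennreal_ofReal))

lemma radialFn_le {G₁ : (Fin 6 → ℝ) → Matrix (Fin 6) (Fin 6) ℝ} (x w : Fin 6 → ℝ)
    (hd : 0 ≤ dens G₁ x) :
    ∫⁻ t in Ioi (0 : ℝ), ENNReal.ofReal ((t ^ 6)⁻¹) * radialFn G₁ e₆ f x w t ≤
      8 * (ENNReal.ofReal (dens G₁ x) * f (e₆ (x, w))) := by
  rcases (vnorm_nonneg (G := G₁) x w).eq_or_lt with h0 | h0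
  · simp [radialFn.eq_def, ← h0]
  have e : ∀ t ∈ Ioi (0 : ℝ), ENNReal.ofReal ((t ^ 6)⁻¹) * radialFn G₁ e₆ f x w t =
      (ENNReal.ofReal (dens G₁ x) * f (e₆ (x, w))) * ENNReal.ofReal (vnorm G₁ x w ^ 6 *
        (t⁻¹ ^ 7 * Real.exp (-((vnorm G₁ x w / t) ^ 2 / 2)))) := by
    intro t ht
    have ht' : 0 < t := mem_Ioi.1 ht
    simp only [radialFn.eq_def]
    rw [show vnorm G₁ x w ^ 6 * (t⁻¹ ^ 7 * Real.exp (-((vnorm G₁ x w / t) ^ 2 / 2))) =
        (t ^ 6)⁻¹ * (Real.exp (-((vnorm G₁ x w / t) ^ 2 / 2)) * (vnorm G₁ x w ^ 6 / t)) by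
      field_simp,
      ENNReal.ofReal_mul hd, ENNReal.ofReal_mul (inv_nonneg.2 (by positivity)),
      ENNReal.ofReal_mul (Real.exp_pos _).le]
    ring
  rw [setLIntegral_congr_fun measurableSet_Ioi e, lintegral_const_mul _ (by fun_prop), mul_comm 8]
  exact mul_le_mul' le_rfl (radial_le h0)

lemma swap_and_scale (he : Continuous e₆) (hf : Measurable f) (x : Fin 6 → ℝ) :
    ∫⁻ v, ENNReal.ofReal (fibre G₆ x v) * ∫⁻ t in Ioi (0 : ℝ),
        f (line e₆ (x, v) t) * ENNReal.ofReal ((t * vnorm G₆ x v) ^ 5 * vnorm G₆ x v) =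
      ∫⁻ w, ∫⁻ t in Ioi (0 : ℝ), ENNReal.ofReal ((t ^ 6)⁻¹) * radialFn G₆ e₆ f x w t := by
  have hΦ := measurable_radialFn (G₆ := G₆) he hf x
  have hH := measurable_integrand (G₆ := G₆) he hf x
  have h1 : ∀ t ∈ Ioi (0 : ℝ), (∫⁻ v, ENNReal.ofReal (fibre G₆ x v) * (f (line e₆ (x, v) t) *
      ENNReal.ofReal ((t * vnorm G₆ x v) ^ 5 * vnorm G₆ x v))) =
      ∫⁻ w, ENNReal.ofReal ((t ^ 6)⁻¹) * radialFn G₆ e₆ f x w t := by
    intro t ht
    have hm : Measurable fun w => radialFn G₆ e₆ f x w t :=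
      hΦ.comp (measurable_id.prodMk measurable_const)
    have e1 := lintegral_congr (μ := (volume : Measure (Fin 6 → ℝ)))
      fun v => integrand_eq (G₆ := G₆) (e₆ := e₆) (f := f) x v (mem_Ioi.1 ht)
    have e2 := lintegral_smul_eq (n := 6) (mem_Ioi.1 ht) (fun w => radialFn G₆ e₆ f x w t) hm
    exact e1.trans (e2.trans (lintegral_const_mul _ hm).symm)
  have hS : Measurable (Function.uncurry fun (t : ℝ) (w : Fin 6 → ℝ) =>
      ENNReal.ofReal ((t ^ 6)⁻¹) * radialFn G₆ e₆ f x w t) :=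
    ((measurable_fst.pow_const 6).inv.ennreal_ofReal).mul (hΦ.comp measurable_swap)
  rw [← lintegral_lintegral_swap hS.aemeasurable, ← setLIntegral_congr_fun measurableSet_Ioi h1,
    ← lintegral_lintegral_swap hH.aemeasurable]
  exact lintegral_congr fun v => (lintegral_const_mul' _ _ ENNReal.ofReal_ne_top).symm

/-- Polar coordinates with the comparison theorem of Rauch. -/
theorem polarPin : PolarPin := by
  intro G D e h he x f hf
  have hec := he.contDiff.continuous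
  have hcx : Continuous fun w => e (x, w) := hec.comp (continuous_const.prodMk continuous_id)
  rw [swap_and_scale hec hf x]
  calc ∫⁻ w, ∫⁻ t in Ioi (0 : ℝ), ENNReal.ofReal ((t ^ 6)⁻¹) * radialFn G e f x w t
      ≤ ∫⁻ w, 8 * (ENNReal.ofReal (dens G x) * f (e (x, w))) :=
        lintegral_mono fun w => radialFn_le x w (h.dens_pos x).le
    _ = 8 * ∫⁻ w, ENNReal.ofReal (dens G x) * f (e (x, w)) :=
        lintegral_const_mul 8 (measurable_const.mul (hf.comp hcx.measurable))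
    _ ≤ 8 * ∫⁻ y, f y ∂volM G := by
        refine mul_le_mul' le_rfl ?_
        rw [lintegral_logv h he x, volM,
          lintegral_withDensity_eq_lintegral_mul _ h.continuous_dens.measurable.ennreal_ofReal hf]
        refine lintegral_mono fun y => ?_
        rw [he.exp_logv, Pi.mul_apply, ← mul_assoc, ← ENNReal.ofReal_mul (abs_nonneg _)]
        exact mul_le_mul' (ENNReal.ofReal_le_ofReal (abs_det_fderiv_logv_le h x y)) le_rfl

end Vale.Agent.P219.CH.Six
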