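import Vale.Agent.P219.Six.Descent

/-!
# P219: proper maps with invertible derivative are bijective

A damped Newton step is a descent step on every sublevel set of the residual, so the theorem of
Hadamard follows from the retraction onto the isolated zeros.
-/

noncomputable section

open Set Filter Topology

namespace Vale.Agent.P219.CH.Six.Descent

variable {E : Type*} [NormedAddCommGroup E] [NormedSpace ℝ E] [FiniteDimensional ℝ E]

/-- An injective endomorphism as an equivalence. -/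
def equivOfInj (L : E →L[ℝ] E) (hL : Function.Injective L) : E ≃L[ℝ] E :=
  (LinearEquiv.ofInjectiveEndo L.toLinearMap hL).toContinuousLinearEquiv

lemma coe_equivOfInj (L : E →L[ℝ] E) (hL : Function.Injective L) :
    (equivOfInj L hL : E →L[ℝ] E) = L := by
  ext v; rfl

lemma exists_antilipschitz (L : E →L[ℝ] E) (hL : Function.Injective L) :
    ∃ C, AntilipschitzWith C L :=
  ⟨_, (equivOfInj L hL).antilipschitz⟩

lemma isUnit_of_injective (L : E →L[ℝ] E) (hL : Function.Injective L) : IsUnit L :=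
  ⟨(equivOfInj L hL).toUnit, coe_equivOfInj L hL⟩

variable {Φ : E → E}

lemma isolated_zero (hΦ : ContDiff ℝ 1 Φ) (hu : ∀ z, Function.Injective (fderiv ℝ Φ z)) (v z : E) :
    ∀ᶠ w in 𝓝[≠] z, ‖Φ w - v‖ ≠ 0 := by
  have h1 := ((hΦ.differentiable one_ne_zero z).hasFDerivAt).eventually_ne
    (exists_antilipschitz _ (hu z)) (c := v)
  filter_upwards [h1] with w hw
  simpa [sub_eq_zero] using hw

/-- The damped Newton step. -/
def newton (Φ : E → E) (v : E) (τ : ℝ) (z : E) : E :=
  z - τ • (Ring.inverse (fderiv ℝ Φ z)) (Φ z - v)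

lemma exists_step (hΦ : ContDiff ℝ 1 Φ) (hu : ∀ z, Function.Injective (fderiv ℝ Φ z))
    (hp : ∀ M : ℝ, IsCompact {z | ‖Φ z‖ ≤ M}) (v : E) (M : ℝ) :
    IsCompact {z | ‖Φ z - v‖ ≤ M} ∧ ∃ (T : E → E) (q C : ℝ), 0 ≤ q ∧ q < 1 ∧ 0 ≤ C ∧
      MapsTo T {z | ‖Φ z - v‖ ≤ M} {z | ‖Φ z - v‖ ≤ M} ∧
      ContinuousOn T {z | ‖Φ z - v‖ ≤ M} ∧
      (∀ z ∈ {z | ‖Φ z - v‖ ≤ M}, ‖Φ (T z) - v‖ ≤ q * ‖Φ z - v‖) ∧
      ∀ z ∈ {z | ‖Φ z - v‖ ≤ M}, dist z (T z) ≤ C * ‖Φ z - v‖ := by
  have hd : Continuous fun z => fderiv ℝ Φ z := hΦ.continuous_fderiv one_ne_zero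
  have hJ : Continuous fun z => Ring.inverse (fderiv ℝ Φ z) := by
    refine continuous_iff_continuousAt.2 fun z => ?_
    obtain ⟨u, hu'⟩ := isUnit_of_injective _ (hu z)
    refine ContinuousAt.comp (g := Ring.inverse) ?_ hd.continuousAt
    rw [← hu']
    exact NormedRing.inverse_continuousAt u
  set K := {z | ‖Φ z - v‖ ≤ M} with hKdef
  have hK : IsCompact K := by
    refine (hp (M + ‖v‖)).of_isClosed_subset
      (isClosed_le (hΦ.continuous.sub continuous_const).norm continuous_const) fun z hz => ?_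
    have := norm_le_norm_add_norm_sub' (Φ z) v
    have hz' : ‖Φ z - v‖ ≤ M := hz
    show ‖Φ z‖ ≤ M + ‖v‖
    linarith
  refine ⟨hK, ?_⟩
  obtain ⟨C₀, hC₀⟩ := hK.exists_bound_of_continuousOn hJ.continuousOn
  obtain ⟨ρ, hρ⟩ := hK.isBounded.subset_closedBall (0 : E)
  set C := max C₀ 0 with hC
  have hC0 : 0 ≤ C := le_max_right _ _
  have hM0 : ∀ z ∈ K, 0 ≤ M := fun z hz => (norm_nonneg _).trans hz
  set B := Metric.closedBall (0 : E) (ρ + C * max M 0)
  have hB : UniformContinuousOn (fun z => fderiv ℝ Φ z) B :=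
    (isCompact_closedBall _ _).uniformContinuousOn_of_continuous hd.continuousOn
  obtain ⟨δ, hδ, hδB⟩ := Metric.uniformContinuousOn_iff.1 hB (1 / (2 * C + 1)) (by positivity)
  set τ := min 1 (δ / (2 * (C * max M 0) + 1)) with hτ
  have hτ0 : 0 < τ := lt_min one_pos (div_pos hδ (by positivity))
  have hτ1 : τ ≤ 1 := min_le_left _ _
  have hτδ : τ * (C * max M 0) < δ := by
    have h1 : τ * (2 * (C * max M 0) + 1) ≤ δ :=
      (le_div_iff₀ (by positivity)).1 (min_le_right _ _)
    nlinarith [mul_nonneg hτ0.le (mul_nonneg hC0 (le_max_right M 0))]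
  have hdist : ∀ z ∈ K, ‖τ • Ring.inverse (fderiv ℝ Φ z) (Φ z - v)‖ ≤ τ * C * ‖Φ z - v‖ := by
    intro z hz
    rw [norm_smul, Real.norm_of_nonneg hτ0.le, mul_assoc]
    refine mul_le_mul_of_nonneg_left ((ContinuousLinearMap.le_opNorm _ _).trans ?_) hτ0.le
    exact mul_le_mul_of_nonneg_right ((hC₀ z hz).trans (le_max_left _ _)) (norm_nonneg _)
  have hdec : ∀ z ∈ K, ‖Φ (newton Φ v τ z) - v‖ ≤ (1 - τ / 2) * ‖Φ z - v‖ := by
    intro z hz
    set r := Φ z - v with hr
    set p := Ring.inverse (fderiv ℝ Φ z) r with hp'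
    have hrM : ‖r‖ ≤ max M 0 := le_trans hz (le_max_left _ _)
    have hlen : ‖τ • p‖ ≤ τ * (C * max M 0) := (hdist z hz).trans (by
      rw [mul_assoc]; gcongr)
    have hzB : z ∈ Metric.closedBall (0 : E) ρ := hρ hz
    rw [mem_closedBall_zero_iff] at hzB
    have hseg : segment ℝ z (z - τ • p) ⊆ B ∩ Metric.closedBall z ‖τ • p‖ := by
      refine ((convex_closedBall _ _).inter (convex_closedBall _ _)).segment_subset ⟨?_, ?_⟩ ⟨?_, ?_⟩
      · rw [mem_closedBall_zero_iff]; nlinarith [norm_nonneg (τ • p), hlen]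
      · exact Metric.mem_closedBall_self (norm_nonneg _)
      · rw [mem_closedBall_zero_iff]
        have := norm_sub_le z (τ • p)
        nlinarith [mul_le_mul_of_nonneg_right hτ1 (mul_nonneg hC0 (le_max_right M 0))]
      · simp
    have happ := (convex_segment z (z - τ • p)).norm_image_sub_le_of_norm_fderiv_le'
      (f := Φ) (φ := fderiv ℝ Φ z) (C := 1 / (2 * C + 1))
      (fun w _ => hΦ.differentiable one_ne_zero w) (fun w hw => ?_)
      (left_mem_segment ℝ _ _) (right_mem_segment ℝ _ _)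
    · obtain ⟨u, hu'⟩ := isUnit_of_injective _ (hu z)
      have hLp : fderiv ℝ Φ z p = r := by
        have h1 := Ring.mul_inverse_cancel _ ⟨u, hu'⟩
        calc fderiv ℝ Φ z p = (fderiv ℝ Φ z * Ring.inverse (fderiv ℝ Φ z)) r := rfl
          _ = r := by rw [h1]; rfl
      rw [sub_sub_cancel_left, map_neg, map_smul, hLp, norm_neg] at happ
      have e1 : Φ (newton Φ v τ z) - v =
          (1 - τ) • r + (Φ (z - τ • p) - Φ z - -(τ • r)) := by
        rw [newton, ← hr, ← hp', sub_smul, one_smul, hr]; abel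
      rw [e1]
      refine (norm_add_le _ _).trans ?_
      rw [norm_smul, Real.norm_of_nonneg (by linarith : (0 : ℝ) ≤ 1 - τ)]
      have h2 : 1 / (2 * C + 1) * ‖τ • p‖ ≤ τ / 2 * ‖r‖ := by
        rw [one_div, inv_mul_le_iff₀ (by positivity)]
        have := hdist z hz
        rw [← hr, ← hp'] at this
        nlinarith [mul_nonneg hτ0.le (norm_nonneg r)]
      linarith [happ.trans h2]
    · obtain ⟨h1, h2⟩ := hseg hw
      rw [Metric.mem_closedBall, dist_comm] at h2
      have hzB' : z ∈ B := (hseg (left_mem_segment ℝ _ _)).1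
      rw [← dist_eq_norm]
      exact (hδB w h1 z hzB' (by rw [dist_comm]; linarith)).le
  refine ⟨newton Φ v τ, 1 - τ / 2, τ * C, by linarith, by linarith, by positivity, ?_, ?_, hdec, ?_⟩
  · intro z hz
    have := hdec z hz
    show ‖Φ (newton Φ v τ z) - v‖ ≤ M
    nlinarith [norm_nonneg (Φ z - v), show ‖Φ z - v‖ ≤ M from hz]
  · exact (continuous_id.sub ((hJ.clm_apply (hΦ.continuous.sub continuous_const)).const_smul τ)
      ).continuousOn
  · intro z hz
    simpa [newton, dist_eq_norm] using hdist z hz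

/-- The theorem of Hadamard. -/
theorem bijective_of_proper (hΦ : ContDiff ℝ 1 Φ) (hu : ∀ z, Function.Injective (fderiv ℝ Φ z))
    (hp : ∀ M : ℝ, IsCompact {z | ‖Φ z‖ ≤ M}) : Function.Bijective Φ := by
  refine ⟨fun a b hab => ?_, fun v => ?_⟩
  · obtain ⟨M, hM⟩ := (segment_eq_image ℝ a b ▸ isCompact_Icc.image (by fun_prop) :
      IsCompact (segment ℝ a b)).bddAbove_image
        ((hΦ.continuous.sub (continuous_const (y := Φ b))).norm).continuousOn
    obtain ⟨hK, T, q, C, hq, hq1, hC, hT, hTc, hdec, hstep⟩ := exists_step hΦ hu hp (Φ b) M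
    exact eq_of_zeros (e := fun z => ‖Φ z - Φ b‖) hK hT hTc
      (hΦ.continuous.sub continuous_const).norm.continuousOn (fun z _ => norm_nonneg _) hq hq1 hC
      hdec hstep (fun z _ _ => isolated_zero hΦ hu (Φ b) z) (convex_segment a b).isPreconnected
      (fun z hz => hM ⟨z, hz, rfl⟩) (left_mem_segment ℝ a b) (right_mem_segment ℝ a b)
      (by simp [hab]) (by simp)
  · obtain ⟨hK, T, q, C, hq, hq1, hC, hT, -, hdec, hstep⟩ :=
      exists_step hΦ hu hp v ‖Φ 0 - v‖
    obtain ⟨a, -, -, ha⟩ := exists_zero (e := fun z => ‖Φ z - v‖) hK hT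
      (hΦ.continuous.sub continuous_const).norm.continuousOn (fun z _ => norm_nonneg _) hq hq1 hC
      hdec hstep (z := 0) (le_refl ‖Φ 0 - v‖)
    exact ⟨a, by simpa [sub_eq_zero] using ha⟩

end Vale.Agent.P219.CH.Six.Descent
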