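import Vale.Agent.P219.Six.Mixed
import Vale.Agent.P219.Six.Proper
import Vale.Agent.P219.CH.VarField

/-!
# P219: the exponential map of a Cartan-Hadamard structure

The half squared distance vanishes only on the diagonal, the minimisers of its convex combinations
are points between, so the mixed Hessian is injective, the logarithm is a proper local
diffeomorphism and by the theorem of Hadamard it has a continuously differentiable inverse.
-/

noncomputable section

open Set Filter Topology Matrix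

namespace Vale.Agent.P219.CH.Six

variable {n : ℕ} {G : (Fin n → ℝ) → Matrix (Fin n) (Fin n) ℝ}
  {D : (Fin n → ℝ) → (Fin n → ℝ) → ℝ}

lemma eq_zero_of_pairing (h : IsCH G D) (y : Fin n → ℝ) {ξ : Fin n → ℝ}
    (hξ : pairing G y ξ ξ ≤ 0) : ξ = 0 := by
  by_contra hne
  linarith [h.pairing_self_pos y hne]

lemma cd_self (h : IsCH G D) (x : Fin n → ℝ) : cd (D x) x = 0 :=
  eq_zero_of_pairing h x (by rw [h.eikonal, h.dist_self, mul_zero])

lemma quad_nonpos (h : IsCH G D) (y : Fin n → ℝ) {v : Fin n → ℝ}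
    (hv : v ⬝ᵥ (G y *ᵥ v) ≤ 0) : v = 0 := by
  by_contra hne
  have := (h.posDef y).dotProduct_mulVec_pos hne
  simp only [star_trivial] at this
  linarith

/-- The second differential is injective at a critical point. -/
lemma second_injective (h : IsCH G D) {x z : Fin n → ℝ} (hz : cd (D x) z = 0) {v : Fin n → ℝ}
    (hv : fderiv ℝ (fderiv ℝ (D x)) z v v = 0) : v = 0 := by
  refine quad_nonpos h z ((h.hessian x z v).trans_eq ?_)
  have hg : grad G (D x) z = 0 := by rw [grad, hz, mulVec_zero]
  have hd : dG G z 0 = 0 := by ext a b; simp [dG]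
  simp [hess, hg, hd, hv]

/-- The half squared distance vanishes only on the diagonal. -/
theorem eq_of_dist_eq_zero (h : IsCH G D) {x y : Fin n → ℝ} (hxy : D x y = 0) : x = y := by
  set f := D x with hfdef
  have hf : ContDiff ℝ 2 f := h.contDiff_D x
  have hseg : IsCompact (segment ℝ x y) := by
    rw [segment_eq_image]; exact isCompact_Icc.image (by fun_prop)
  obtain ⟨R₀, hR₀⟩ := hseg.bddAbove_image hf.continuous.continuousOn
  set R := max R₀ 0
  set K := {z | f z ≤ R}
  have hK : IsCompact K := h.proper x R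
  obtain ⟨C, hC, hCb⟩ := h.exists_norm_inv_mulVec_le hK
  obtain ⟨ρ, hρ⟩ := hK.isBounded.subset_closedBall (0 : Fin n → ℝ)
  set S := C * √(2 * R) with hS
  set B := Metric.closedBall (0 : Fin n → ℝ) (ρ + S)
  have hf1 : ContDiff ℝ 1 (fderiv ℝ f) := hf.fderiv_right le_rfl
  obtain ⟨M₀, hM₀⟩ := (isCompact_closedBall (0 : Fin n → ℝ) (ρ + S)).exists_bound_of_continuousOn
    (hf1.continuous_fderiv one_ne_zero).continuousOn
  set M := max M₀ 0
  have hM : 0 ≤ M := le_max_right _ _
  have hlip : ∀ a ∈ B, ∀ b ∈ B, ‖fderiv ℝ f b - fderiv ℝ f a‖ ≤ M * ‖b - a‖ := fun a ha b hb =>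
    (convex_closedBall _ _).norm_image_sub_le_of_norm_fderiv_le
      (fun w _ => hf1.differentiable one_ne_zero w) (fun w hw => (hM₀ w hw).trans (le_max_left _ _))
      ha hb
  set τ := 1 / (2 * M * C ^ 2 + 2) with hτdef
  have hτ : 0 < τ := by positivity
  have hτ1 : τ ≤ 1 := by
    rw [hτdef, div_le_one (by positivity)]
    linarith [mul_nonneg (mul_nonneg two_pos.le hM) (sq_nonneg C)]
  have hτ2 : τ * (2 * M * C ^ 2) ≤ 1 := by
    rw [hτdef, div_mul_eq_mul_div, one_mul, div_le_one (by positivity)]; linarith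
  set T := fun z => z - τ • grad G f z with hT
  have hnorm : ∀ z ∈ K, ‖grad G f z‖ ≤ C * √(2 * f z) := fun z hz => by
    have := hCb z hz (cd f z)
    rwa [conorm, h.eikonal] at this
  have hS' : ∀ z ∈ K, C * √(2 * f z) ≤ S := fun z hz =>
    mul_le_mul_of_nonneg_left (Real.sqrt_le_sqrt (by linarith [show f z ≤ R from hz])) hC
  have hdec : ∀ z ∈ K, f (T z) ≤ (1 - τ) * f z := by
    intro z hz
    set g := grad G f z with hg
    have hf0 : 0 ≤ f z := h.dist_nonneg x z
    have hgn : ‖τ • g‖ ≤ τ * (C * √(2 * f z)) := by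
      rw [norm_smul, Real.norm_of_nonneg hτ.le]; exact mul_le_mul_of_nonneg_left (hnorm z hz) hτ.le
    have hzB : ‖z‖ ≤ ρ := by simpa using hρ hz
    have hsub : segment ℝ z (z - τ • g) ⊆ B ∩ Metric.closedBall z ‖τ • g‖ := by
      refine ((convex_closedBall _ _).inter (convex_closedBall _ _)).segment_subset ⟨?_, ?_⟩ ⟨?_, ?_⟩
      · rw [mem_closedBall_zero_iff]
        linarith [norm_nonneg g, hnorm z hz, hS' z hz]
      · exact Metric.mem_closedBall_self (norm_nonneg _)
      · rw [mem_closedBall_zero_iff]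
        nlinarith [norm_sub_le z (τ • g), norm_nonneg g, hnorm z hz, hS' z hz]
      · simp
    have happ := (convex_segment z (z - τ • g)).norm_image_sub_le_of_norm_fderiv_le'
      (f := f) (φ := fderiv ℝ f z) (C := M * ‖τ • g‖)
      (fun w _ => hf.differentiable two_ne_zero w) (fun w hw => ?_)
      (left_mem_segment ℝ _ _) (right_mem_segment ℝ _ _)
    · have hdf : fderiv ℝ f z g = 2 * f z := by
        rw [← cd_dotProduct f z g]; exact h.eikonal x z
      rw [sub_sub_cancel_left, map_neg, map_smul, smul_eq_mul, hdf, norm_neg,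
        Real.norm_eq_abs] at happ
      have h1 := (abs_le.1 happ).2
      have h2 : ‖τ • g‖ * ‖τ • g‖ ≤ τ * (C * √(2 * f z)) * (τ * (C * √(2 * f z))) :=
        mul_le_mul hgn hgn (norm_nonneg _) ((norm_nonneg _).trans hgn)
      have h3 : M * ‖τ • g‖ * ‖τ • g‖ ≤ τ * f z := by
        have hs : √(2 * f z) * √(2 * f z) = 2 * f z := Real.mul_self_sqrt (by positivity)
        calc M * ‖τ • g‖ * ‖τ • g‖ = M * (‖τ • g‖ * ‖τ • g‖) := by ring
          _ ≤ M * (τ * (C * √(2 * f z)) * (τ * (C * √(2 * f z)))) :=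
            mul_le_mul_of_nonneg_left h2 hM
          _ = τ * (τ * (2 * M * C ^ 2)) * f z := by linear_combination M * τ ^ 2 * C ^ 2 * hs
          _ ≤ τ * 1 * f z := by gcongr
          _ = τ * f z := by ring
      show f (z - τ • g) ≤ (1 - τ) * f z
      linarith
    · obtain ⟨hwB, hwz⟩ := hsub hw
      rw [mem_closedBall_iff_norm] at hwz
      exact (hlip z (hsub (left_mem_segment ℝ _ _)).1 w hwB).trans
        (mul_le_mul_of_nonneg_left hwz hM)
  have hTc : Continuous T := by
    refine continuous_id.sub (Continuous.const_smul ?_ τ)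
    refine continuous_pi fun a => ?_
    simp only [grad, mulVec, dotProduct]
    exact continuous_finsetSum _ fun b _ => (h.contDiff_inv a b).continuous.mul
      ((continuous_apply b).comp (continuous_cd (hf.of_le one_le_two)))
  refine Descent.eq_of_zeros (T := T) (e := fun z => √(f z)) (q := √(1 - τ)) (C := τ * C * √2) hK
    (fun z hz => ?_) hTc.continuousOn hf.continuous.sqrt.continuousOn
    (fun z _ => Real.sqrt_nonneg _) (Real.sqrt_nonneg _) ?_ (by positivity) (fun z hz => ?_)
    (fun z hz => ?_) (fun z _ hz => ?_) (convex_segment x y).isPreconnected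
    (fun z hz => (hR₀ ⟨z, hz, rfl⟩).trans (le_max_left _ _)) (left_mem_segment ℝ x y)
    (right_mem_segment ℝ x y) (by simp [hfdef, h.dist_self]) (by simp [hxy])
  · show f (T z) ≤ R
    nlinarith [hdec z hz, h.dist_nonneg x z, show f z ≤ R from hz]
  · calc √(1 - τ) < √1 := Real.sqrt_lt_sqrt (by linarith) (by linarith)
      _ = 1 := Real.sqrt_one
  · rw [← Real.sqrt_mul (by linarith)]
    exact Real.sqrt_le_sqrt (hdec z hz)
  · rw [dist_eq_norm, hT, sub_sub_cancel, norm_smul, Real.norm_of_nonneg hτ.le,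
      mul_assoc τ C, mul_assoc τ]
    refine mul_le_mul_of_nonneg_left ((hnorm z hz).trans_eq ?_) hτ.le
    rw [Real.sqrt_mul two_pos.le, mul_assoc]
  · have hcd : ∀ w, f w = 0 → cd f w = 0 := fun w hw =>
      eq_zero_of_pairing h w (by rw [hfdef, h.eikonal, ← hfdef, hw, mul_zero])
    have hfd : ∀ w, f w = 0 → fderiv ℝ f w = 0 := fun w hw => by
      refine ContinuousLinearMap.ext fun v => ?_
      rw [← cd_dotProduct f w v, hcd w hw, zero_dotProduct]; rfl
    have hz0 : f z = 0 := (Real.sqrt_eq_zero (h.dist_nonneg x z)).1 hz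
    have hinj : Function.Injective (fderiv ℝ (fderiv ℝ f) z) := by
      refine (injective_iff_map_eq_zero _).2 fun v hv => second_injective h (hcd z hz0) ?_
      rw [hfdef] at hv; rw [hv]; rfl
    obtain ⟨K', hK', hanti⟩ :=
      (fderiv ℝ (fderiv ℝ f) z).toLinearMap.exists_antilipschitzWith (LinearMap.ker_eq_bot.2 hinj)
    filter_upwards [((hf1.differentiable one_ne_zero z).hasFDerivAt).eventually_ne
      ⟨K', hanti⟩ (c := 0)] with w hw hw0
    exact hw (hfd w ((Real.sqrt_eq_zero (h.dist_nonneg x w)).1 hw0))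

lemma dist_pos (h : IsCH G D) {x y : Fin n → ℝ} (hxy : x ≠ y) : 0 < D x y :=
  lt_of_le_of_ne (h.dist_nonneg x y) fun h0 => hxy (eq_of_dist_eq_zero h h0.symm)

/-! ## The mixed Hessian -/

/-- The differential at the first point of the half squared distance to the second. -/
def lcv (D : (Fin n → ℝ) → (Fin n → ℝ) → ℝ) (p : (Fin n → ℝ) × (Fin n → ℝ)) : Fin n → ℝ :=
  cd (D p.2) p.1

lemma hasFDerivAt_lcv (h : IsCH G D) (p : (Fin n → ℝ) × (Fin n → ℝ)) :
    HasFDerivAt (lcv D) (fderiv ℝ (lcv D) p) p :=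
  ((Sharp.contDiff_logCovector h).differentiable one_ne_zero p).hasFDerivAt

lemma fderiv_lcv_right (h : IsCH G D) (x y v : Fin n → ℝ) :
    fderiv ℝ (lcv D) (x, y) (0, v) = mixedD D x y v :=
  (DFunLike.congr_fun ((hasFDerivAt_mixed h x y).unique
    ((hasFDerivAt_lcv h (x, y)).comp y (hasFDerivAt_prodMk_right x y))) v).symm

/-- The mixed Hessian is injective on the diagonal. -/
theorem mixed_self_injective (h : IsCH G D) (x : Fin n → ℝ) :
    Function.Injective (mixedD D x x) := by
  refine (injective_iff_map_eq_zero _).2 fun v hv => second_injective h (cd_self h x) ?_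
  set L := fderiv ℝ (lcv D) (x, x)
  have hdiag : L (v, v) = 0 := by
    have h1 := (hasFDerivAt_lcv h (x, x)).comp (f := fun z : Fin n → ℝ => (z, z)) x
      ((hasFDerivAt_id (𝕜 := ℝ) x).prodMk (hasFDerivAt_id x))
    have h2 := h1.unique ((hasFDerivAt_const (0 : Fin n → ℝ) x).congr_of_eventuallyEq
      (Eventually.of_forall fun z => cd_self h z))
    exact DFunLike.congr_fun h2 v
  have hleft : L (v, 0) = 0 := by
    have h1 : L (v, v) = L (v, 0) + L (0, v) := by rw [← map_add]; simp
    rw [hdiag, fderiv_lcv_right h, hv, add_zero] at h1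
    exact h1.symm
  have hP := (hasFDerivAt_lcv h (x, x)).comp (f := fun z : Fin n → ℝ => (z, x)) x (hasFDerivAt_prodMk_left (𝕜 := ℝ) x x)
  have hA : HasFDerivAt (fderiv ℝ (D x)) (fderiv ℝ (fderiv ℝ (D x)) x) x :=
    (((h.contDiff_D x).fderiv_right (m := 1) le_rfl).differentiable one_ne_zero x).hasFDerivAt
  rw [clm_eq_sum (fderiv ℝ (fderiv ℝ (D x)) x v) v]
  refine Finset.sum_eq_zero fun i _ => ?_
  have h3 := DFunLike.congr_fun ((hasFDerivAt_pi'.1 hP i).unique
    (hA.clm_apply (hasFDerivAt_const (ev i) x))) v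
  simp at h3
  simp only [ev]
  rw [← h3]
  simp [L] at hleft
  simp [hleft]

/-- A point between two points. -/
theorem exists_between_points (h : IsCH G D) (x z : Fin n → ℝ) {t : ℝ} (ht0 : 0 < t) (ht1 : t < 1) :
    ∃ w, (1 - t) • cd (D x) w + t • cd (D z) w = 0 ∧ D x w = t ^ 2 * D x z ∧
      D z w = (1 - t) ^ 2 * D x z ∧ cd (D w) x = t • cd (D z) x := by
  have hs : 0 < 1 - t := by linarith
  set φ := fun w => (1 - t) * D x w + t * D z w with hφ
  have hc : Continuous φ :=
    (continuous_const.mul (h.contDiff_D x).continuous).add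
      (continuous_const.mul (h.contDiff_D z).continuous)
  have hx : x ∈ {w | D x w ≤ t * D z x / (1 - t)} := by
    show D x x ≤ _
    rw [h.dist_self]; exact div_nonneg (mul_nonneg ht0.le (h.dist_nonneg z x)) hs.le
  obtain ⟨w, hw, hmin⟩ := (h.proper x (t * D z x / (1 - t))).exists_isMinOn ⟨x, hx⟩ hc.continuousOn
  have hglob : ∀ u, φ w ≤ φ u := fun u => by
    by_cases hu : D x u ≤ t * D z x / (1 - t)
    · exact hmin hu
    · have h1 : φ w ≤ φ x := hmin hx
      rw [not_le, div_lt_iff₀ hs] at hu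
      simp only [hφ, h.dist_self] at h1 ⊢
      nlinarith [h.dist_nonneg z u]
  have hd1 := (((h.contDiff_D x).differentiable two_ne_zero w).hasFDerivAt.const_mul (1 - t)).add
    (((h.contDiff_D z).differentiable two_ne_zero w).hasFDerivAt.const_mul t)
  have hzero := (IsLocalMin.hasFDerivAt_eq_zero (f := φ) (Eventually.of_forall hglob) hd1)
  have hcrit : (1 - t) • cd (D x) w + t • cd (D z) w = 0 := by
    funext i
    have := DFunLike.congr_fun hzero (Pi.single i 1)
    simpa [cd] using this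
  set a := cd (D x) w with ha
  set k := (1 - t) / t with hk
  have hb : cd (D z) w = (-k) • a := by
    funext i
    have := congrFun hcrit i
    simp at this ⊢
    rw [hk]; field_simp; linarith
  have hbb : D z w = k ^ 2 * D x w := by
    have h1 := h.eikonal z w
    rw [hb, pairing_smul_left, h.pairing_comm, pairing_smul_left, ha, h.eikonal] at h1
    linarith
  have hcos := h.cosine x z w
  rw [hb, h.pairing_comm, pairing_smul_left, ha, h.eikonal, hbb] at hcos
  have htk : 1 + k = 1 / t := by rw [hk]; field_simp; ring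
  have hle : D x w ≤ t ^ 2 * D x z := by
    have h1 : D x w * (1 + k) ^ 2 ≤ D x z := by linarith
    rw [htk, div_pow, one_pow, ← mul_div_assoc, mul_one, div_le_iff₀ (by positivity)] at h1
    linarith
  have hge : t ^ 2 * D x z ≤ D x w := by
    have h1 := Sharp.dist_triangle h x w z
    rw [Sharp.dist_symm h w z, hbb, show 2 * (k ^ 2 * D x w) = k ^ 2 * (2 * D x w) by ring,
      Real.sqrt_mul (sq_nonneg k), Real.sqrt_sq (by rw [hk]; positivity)] at h1
    have h2 : √(2 * D x z) ≤ 1 / t * √(2 * D x w) := by rw [← htk]; linarith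
    rw [one_div, le_inv_mul_iff₀ ht0] at h2
    have h3 := mul_self_le_mul_self (by positivity) h2
    rw [Real.mul_self_sqrt (by linarith [h.dist_nonneg x w]), mul_mul_mul_comm,
      Real.mul_self_sqrt (by linarith [h.dist_nonneg x z])] at h3
    linarith
  have hxw : D x w = t ^ 2 * D x z := le_antisymm hle hge
  have hzw : D z w = (1 - t) ^ 2 * D x z := by
    rw [hbb, hxw, hk]; field_simp
  refine ⟨w, hcrit, hxw, hzw, ?_⟩
  have hc2 := h.cosine w z x
  rw [Sharp.dist_symm h w x, hxw, Sharp.dist_symm h z x, Sharp.dist_symm h w z, hzw] at hc2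
  have key : pairing G x (cd (D w) x + (-t) • cd (D z) x) (cd (D w) x + (-t) • cd (D z) x) ≤ 0 := by
    rw [pairing_add_left, pairing_smul_left, h.pairing_comm x (cd (D w) x),
      h.pairing_comm x (cd (D z) x), pairing_add_left, pairing_add_left, pairing_smul_left,
      pairing_smul_left, h.eikonal, h.eikonal, h.pairing_comm x (cd (D z) x) (cd (D w) x),
      Sharp.dist_symm h w x, hxw, Sharp.dist_symm h z x]
    nlinarith
  have := eq_zero_of_pairing h x key
  rwa [neg_smul, ← sub_eq_add_neg, sub_eq_zero] at this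

/-- The mixed Hessian is injective. -/
theorem mixed_injective (h : IsCH G D) (x y : Fin n → ℝ) : Function.Injective (mixedD D x y) := by
  have hiff : ∀ a, (mixedD D a y).det = 0 ↔ ¬ Function.Injective (mixedD D a y) := fun a => by
    rw [ContinuousLinearMap.det, LinearMap.det_eq_zero_iff_ker_ne_bot]
    exact not_congr LinearMap.ker_eq_bot
  have hcont : Continuous fun a => mixedD D a y := by
    refine (ContDiff.fderiv (n := 0) (m := 1) (f := fun a z => cd (D z) a) ?_ contDiff_const
      (by simp)).continuous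
    exact Sharp.contDiff_logCovector h
  by_contra hbad
  set S := {a | (mixedD D a y).det = 0} ∩ {a | D y a ≤ D y x}
  have hS : IsCompact S := (h.proper y (D y x)).inter_left
    (isClosed_eq (ContinuousLinearMap.continuous_det.comp hcont) continuous_const)
  obtain ⟨x₀, ⟨hx₀, -⟩, hmin⟩ := hS.exists_isMinOn ⟨x, (hiff x).2 hbad, show D y x ≤ D y x from le_rfl⟩
    (h.contDiff_D y).continuous.continuousOn
  have hne : x₀ ≠ y := fun he => (hiff x₀).1 hx₀ (he ▸ mixed_self_injective h y)
  obtain ⟨u, hu, hu0⟩ : ∃ u, mixedD D x₀ y u = 0 ∧ u ≠ 0 := by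
    by_contra hno
    push Not at hno
    exact (hiff x₀).1 hx₀ ((injective_iff_map_eq_zero _).2 hno)
  set Ψ := fun z => cd (D z) x₀ with hΨ
  have hΨc : ContDiff ℝ 1 Ψ :=
    (Sharp.contDiff_logCovector h).comp (contDiff_const.prodMk contDiff_id)
  have hΨ0 : Ψ x₀ = 0 := cd_self h x₀
  have hd0 : HasFDerivAt Ψ
      (Descent.equivOfInj _ (mixed_self_injective h x₀) : (Fin n → ℝ) →L[ℝ] Fin n → ℝ) x₀ := by
    rw [Descent.coe_equivOfInj]; exact hasFDerivAt_mixed h x₀ x₀
  set inv := hΨc.contDiffAt.localInverse hd0 one_ne_zero with hinv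
  have hleft : ∀ᶠ z in 𝓝 x₀, inv (Ψ z) = z :=
    (hΨc.contDiffAt.hasStrictFDerivAt' hd0 one_ne_zero).eventually_left_inverse
  have hsm : ∀ᶠ p in 𝓝 (0 : Fin n → ℝ), ContDiffAt ℝ 1 inv p := by
    have := (hΨc.contDiffAt.to_localInverse hd0 one_ne_zero).eventually (by simp)
    rwa [hΨ0] at this
  obtain ⟨U, hU, hUo, hxU⟩ := eventually_nhds_iff.1 hleft
  obtain ⟨ε, hε, hεU⟩ : ∃ ε > 0, ∀ z, D x₀ z < ε → z ∈ U := by
    rcases ({z | D x₀ z ≤ 1} ∩ Uᶜ).eq_empty_or_nonempty with he | hne'
    · refine ⟨1, one_pos, fun z hz => ?_⟩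
      by_contra hzU
      have : z ∈ ({z | D x₀ z ≤ 1} ∩ Uᶜ) := ⟨hz.le, hzU⟩
      rw [he] at this
      exact this
    · obtain ⟨a, ⟨ha1, ha2⟩, hamin⟩ := ((h.proper x₀ 1).inter_right hUo.isClosed_compl).exists_isMinOn
        hne' (h.contDiff_D x₀).continuous.continuousOn
      refine ⟨min 1 (D x₀ a), lt_min one_pos (dist_pos h fun he => ha2 (he ▸ hxU)), fun z hz => ?_⟩
      by_contra hzU
      exact absurd (hamin ⟨(hz.trans_le (min_le_left _ _)).le, hzU⟩)
        (not_le.2 (hz.trans_le (min_le_right _ _)))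
  obtain ⟨t, ht0, ht1, htε, htsm⟩ : ∃ t : ℝ, 0 < t ∧ t < 1 ∧ t ^ 2 * D x₀ y < ε ∧
      ContDiffAt ℝ 1 inv (t • Ψ y) := by
    have h1 : ∀ᶠ t in 𝓝 (0 : ℝ), t ^ 2 * D x₀ y < ε :=
      (Continuous.tendsto' (by fun_prop) _ _ (by simp)).eventually (eventually_lt_nhds hε)
    have h2 : ∀ᶠ t in 𝓝 (0 : ℝ), ContDiffAt ℝ 1 inv (t • Ψ y) :=
      (Continuous.tendsto' (by fun_prop) _ _ (by simp)).eventually hsm
    have h3 := ((h1.and h2).and (eventually_lt_nhds one_pos)).filter_mono
      (nhdsWithin_le_nhds (s := Ioi 0))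
    obtain ⟨t, ⟨⟨a, b⟩, c⟩, d⟩ := (h3.and self_mem_nhdsWithin).exists
    exact ⟨t, d, c, a, b⟩
  set W := fun z => inv (t • Ψ z) with hW
  have hmid : ∀ᶠ z in 𝓝 y, (1 - t) • cd (D x₀) (W z) + t • cd (D z) (W z) = 0 ∧
      D z (W z) = (1 - t) ^ 2 * D x₀ z := by
    have hev : ∀ᶠ z in 𝓝 y, t ^ 2 * D x₀ z < ε :=
      ((continuous_const.mul (h.contDiff_D x₀).continuous).tendsto y).eventually
        (eventually_lt_nhds htε)
    filter_upwards [hev] with z hz
    obtain ⟨w, hw1, hw2, hw3, hw4⟩ := exists_between_points h x₀ z ht0 ht1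
    have hWw : W z = w := by
      rw [hW]; simp only
      rw [show t • Ψ z = Ψ w from hw4.symm]
      exact hU w (hεU w (hw2 ▸ hz))
    rw [hWw]
    exact ⟨hw1, hw3⟩
  set s : ℝ → Fin n → ℝ := fun s => y + s • u with hs
  have hs' : HasDerivAt s u 0 := hasDerivAt_line y u
  have hΨu : HasDerivAt (fun r => t • Ψ (s r)) 0 0 := by
    have := ((hasFDerivAt_mixed h x₀ y).comp_hasDerivAt_of_eq 0 hs' (by simp [hs])).const_smul t
    rw [hu, smul_zero] at this
    exact this
  have hWu : HasDerivAt (fun r => W (s r)) 0 0 := by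
    have := (htsm.differentiableAt one_ne_zero).hasFDerivAt.comp_hasDerivAt_of_eq (0 : ℝ) hΨu
      (by simp [hs])
    simpa [hW, Function.comp_def] using this
  have hy : W (s 0) = W y := by simp [hs]
  have hA := (hasFDerivAt_lcv h (W y, x₀)).comp_hasDerivAt_of_eq 0
    (hWu.prodMk (hasDerivAt_const (0 : ℝ) x₀)) (by simp [hy])
  have hB := (hasFDerivAt_lcv h (W y, y)).comp_hasDerivAt_of_eq 0 (hWu.prodMk hs')
    (by simp [hs])
  have hs0 : Tendsto s (𝓝 0) (𝓝 y) := by simpa [hs] using hs'.continuousAt.tendsto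
  have hmid' : ∀ᶠ r in 𝓝 (0 : ℝ),
      (1 - t) • cd (D x₀) (W (s r)) + t • cd (D (s r)) (W (s r)) = 0 :=
    (hs0.eventually hmid).mono fun r hr => hr.1
  have hzero := ((hA.const_smul (1 - t)).add (hB.const_smul t)).unique
    ((hasDerivAt_const (0 : ℝ) (0 : Fin n → ℝ)).congr_of_eventuallyEq hmid')
  simp [ht0.ne', fderiv_lcv_right h] at hzero
  have hWbad : (mixedD D (W y) y).det = 0 :=
    (hiff _).2 fun hi => hu0 (hi (hzero.trans (map_zero _).symm))
  have hDW := (hmid.self_of_nhds).2
  have hpos := dist_pos h hne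
  have hlt : D y (W y) < D y x₀ := by
    rw [hDW, Sharp.dist_symm h y x₀]
    exact mul_lt_of_lt_one_left hpos (by nlinarith)
  have hle : D y (W y) ≤ D y x := hlt.le.trans (hmin ⟨(hiff x).2 hbad, show D y x ≤ D y x from le_rfl⟩)
  exact absurd (hmin ⟨hWbad, hle⟩) (not_le.2 hlt)

/-! ## The exponential map -/

/-- The covector of the logarithm is a bijection. -/
theorem covector_bijective (h : IsCH G D) (x : Fin n → ℝ) :
    Function.Bijective fun z => cd (D z) x := by
  have hc : ContDiff ℝ 1 fun z => cd (D z) x :=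
    (Sharp.contDiff_logCovector h).comp (contDiff_const.prodMk contDiff_id)
  refine Descent.bijective_of_proper hc (fun z => ?_) fun M => ?_
  · rw [(hasFDerivAt_mixed h x z).fderiv]; exact mixed_injective h x z
  · have hpc : Continuous fun ξ => pairing G x ξ ξ :=
      h.continuous_pairing.comp (continuous_const.prodMk (continuous_id.prodMk continuous_id))
    obtain ⟨B, hB⟩ := (isCompact_closedBall (0 : Fin n → ℝ) M).bddAbove_image hpc.continuousOn
    refine (h.proper x (B / 2)).of_isClosed_subset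
      (isClosed_le hc.continuous.norm continuous_const) fun z hz => ?_
    have h1 : pairing G x (cd (D z) x) (cd (D z) x) ≤ B :=
      hB ⟨_, mem_closedBall_zero_iff.2 hz, rfl⟩
    rw [h.eikonal, Sharp.dist_symm h z x] at h1
    show D x z ≤ B / 2
    linarith

lemma logv_bijective (h : IsCH G D) (x : Fin n → ℝ) : Function.Bijective (logv G D x) := by
  refine ⟨fun y z hyz => (covector_bijective h x).1 ?_, fun v => ?_⟩
  · have := congrArg (fun w => G x *ᵥ w) hyz
    simpa [logv, grad, mulVec_neg, h.mulVec_inv] using this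
  · obtain ⟨y, hy⟩ := (covector_bijective h x).2 (-(G x *ᵥ v))
    refine ⟨y, ?_⟩
    simp only at hy
    rw [logv, grad, hy, mulVec_neg, h.inv_mulVec, neg_neg]

/-- A Cartan-Hadamard structure has an exponential map. -/
theorem exists_isExp (h : IsCH G D) : ∃ e, IsExp G D e := by
  set e : Phase n → Fin n → ℝ := fun p => Function.invFun (logv G D p.1) p.2
  have hr : ∀ x v, logv G D x (e (x, v)) = v := fun x v =>
    Function.rightInverse_invFun (logv_bijective h x).2 v
  have hl : ∀ x y, e (x, logv G D x y) = y := fun x y =>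
    Function.leftInverse_invFun (logv_bijective h x).1 y
  refine ⟨e, ?_, hr, hl⟩
  set Φ : Phase n → Phase n := fun p => (p.1, logv G D p.1 p.2) with hΦdef
  have hΦ : ContDiff ℝ 1 Φ := by
    refine contDiff_fst.prodMk (ContDiff.neg (contDiff_pi.2 fun a => ?_))
    simp only [grad, mulVec, dotProduct]
    exact ContDiff.sum fun b _ => ((h.contDiff_inv a b).comp contDiff_fst).mul
      ((contDiff_apply ℝ ℝ b).comp (Sharp.contDiff_logCovector h))
  refine contDiff_iff_contDiffAt.2 fun p => ?_
  set a : Phase n := (p.1, e p)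
  have hΦa : Φ a = p := Prod.ext rfl (hr p.1 p.2)
  have hd : HasFDerivAt Φ (fderiv ℝ Φ a) a := (hΦ.differentiable one_ne_zero a).hasFDerivAt
  have hinj : Function.Injective (fderiv ℝ Φ a) := by
    refine (injective_iff_map_eq_zero _).2 fun u hu => ?_
    have hu1 : u.1 = 0 := by
      have := DFunLike.congr_fun
        ((hasFDerivAt_fst (𝕜 := ℝ) (E := Fin n → ℝ) (F := Fin n → ℝ)).comp a hd |>.unique
          hasFDerivAt_fst) u
      simpa [hu] using this.symm
    have h2 := (hd.comp a.2 (hasFDerivAt_prodMk_right a.1 a.2)).unique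
      ((hasFDerivAt_const a.1 a.2).prodMk (hasFDerivAt_logv h a.1 a.2))
    have h3 := DFunLike.congr_fun h2 u.2
    have hu' : ((0 : Fin n → ℝ), u.2) = u := Prod.ext hu1.symm rfl
    simp [hu', hu] at h3
    refine Prod.ext hu1 (mixed_injective h a.1 a.2 ?_)
    have h4 := congrArg (fun w => G a.1 *ᵥ w) (congrArg Prod.snd h3)
    simpa [h.mulVec_inv, mulVec_neg, neg_mulVec] using h4
  have hd' : HasFDerivAt Φ (Descent.equivOfInj _ hinj : Phase n →L[ℝ] Phase n) a := by
    rw [Descent.coe_equivOfInj]; exact hd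
  have hsm := hΦ.contDiffAt.to_localInverse hd' one_ne_zero
  have hri := (hΦ.contDiffAt.hasStrictFDerivAt' hd' one_ne_zero).eventually_right_inverse
  rw [hΦa] at hsm hri
  refine (contDiff_snd.contDiffAt.comp p hsm).congr_of_eventuallyEq ?_
  filter_upwards [hri] with q (hq : Φ (hΦ.contDiffAt.localInverse hd' one_ne_zero q) = q)
  have h5 : (hΦ.contDiffAt.localInverse hd' one_ne_zero q).1 = q.1 := (congrArg Prod.fst hq :)
  have h6 := congrArg Prod.snd hq
  simp only [hΦdef] at h6
  show e q = (hΦ.contDiffAt.localInverse hd' one_ne_zero q).2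
  refine (logv_bijective h q.1).1 ?_
  rw [show logv G D q.1 (e q) = q.2 from hr q.1 q.2]
  conv_lhs => rw [← h6]
  exact congrArg (fun w => logv G D w _) h5

end Vale.Agent.P219.CH.Six
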