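import Vale.Agent.P219.Six.Defs

/-!
# P219: the one-dimensional pairing lemma of records in an excursion
-/

noncomputable section

open MeasureTheory Set Filter Topology
open scoped ENNReal

namespace Vale.Agent.P219.CH.Six.Line

variable {f : ℝ → ℝ} {η : ℝ}

/-- The pairs of times whose interval stays above the level form an open set. -/
lemma isOpen_band (hf : Continuous f) :
    IsOpen {p : ℝ × ℝ | ∀ z ∈ Icc p.1 p.2, η < f z} := by
  rw [Metric.isOpen_iff]
  intro p hp
  obtain ⟨δ, hδ, hsub⟩ := (isCompact_Icc (a := p.1) (b := p.2)).exists_thickening_subset_open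
    (isOpen_Ioi.preimage hf) hp
  by_cases hle : p.1 ≤ p.2
  · refine ⟨δ, hδ, fun q hq z hz => ?_⟩
    have hq' := max_lt_iff.1 ((Prod.dist_eq (x := q) (y := p)).symm.trans_lt (Metric.mem_ball.1 hq))
    rw [Real.dist_eq, Real.dist_eq, abs_lt, abs_lt] at hq'
    refine hsub (Metric.mem_thickening_iff.2 ⟨max p.1 (min z p.2),
      ⟨le_max_left _ _, max_le hle (min_le_right _ _)⟩, ?_⟩)
    rw [Real.dist_eq, abs_lt]
    rcases le_total z p.2 with h2 | h2 <;> rcases le_total z p.1 with h1 | h1 <;>
      simp only [min_def, max_def] <;> split_ifs <;> constructor <;>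
      linarith [hz.1, hz.2, hq'.1.1, hq'.1.2, hq'.2.1, hq'.2.2]
  · push Not at hle
    refine ⟨(p.1 - p.2) / 2, by linarith, fun q hq z hz => ?_⟩
    have hq' := max_lt_iff.1 ((Prod.dist_eq (x := q) (y := p)).symm.trans_lt (Metric.mem_ball.1 hq))
    rw [Real.dist_eq, Real.dist_eq, abs_lt, abs_lt] at hq'
    exfalso
    linarith [hz.1, hz.2, hq'.1.1, hq'.1.2, hq'.2.1, hq'.2.2]

/-- The records form a closed set. -/
lemma isClosed_rec (hf : Continuous f) : IsClosed {a | Rec η f a} := by
  rw [← isOpen_compl_iff]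
  have e : {a | Rec η f a}ᶜ =
      ⋃ s : ℝ, Ioi s ∩ {a | f a < f s} ∩ {a | ∀ z ∈ Icc s a, η < f z} := by
    ext a
    simp only [mem_compl_iff, mem_ofPred_eq, mem_iUnion, mem_inter_iff, mem_Ioi, Rec]
    push Not
    constructor
    · rintro ⟨s, hs, h1, h2⟩
      exact ⟨s, ⟨lt_of_le_of_ne hs fun h => by simp [h] at h1, h1⟩, h2⟩
    · rintro ⟨s, ⟨hs, h1⟩, h2⟩
      exact ⟨s, hs.le, h1, h2⟩
  rw [e]
  exact isOpen_iUnion fun s => (isOpen_Ioi.inter (isOpen_lt hf continuous_const)).inter
    ((isOpen_band hf).preimage (Continuous.prodMk continuous_const continuous_id))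

/-- The paired times form a measurable set. -/
lemma measurableSet_paired (hf : Continuous f) :
    MeasurableSet {p : ℝ × ℝ | Paired η f p.1 p.2} := by
  refine ((isClosed_rec hf).preimage continuous_fst).measurableSet.inter ?_
  refine ((isClosed_rec (hf.comp continuous_neg)).preimage continuous_snd.neg).measurableSet.inter ?_
  refine MeasurableSet.inter ((hf.measurable.comp measurable_fst) measurableSet_Ioo) ?_
  exact ((hf.measurable.comp measurable_snd) measurableSet_Ioo).inter
    (isOpen_band hf).measurableSet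

lemma paired_neg (a b : ℝ) :
    Paired η (fun t => f (-t)) a b ↔ Paired η f (-b) (-a) := by
  have e : ∀ z, z ∈ Icc a b ↔ -z ∈ Icc (-b) (-a) := fun z => by simp [and_comm]
  simp only [Paired, neg_neg]
  constructor
  · rintro ⟨h1, h2, h3, h4, h5⟩
    exact ⟨h2, h1, h4, h3, fun z hz => by simpa using h5 (-z) ((e _).2 (by simpa using hz))⟩
  · rintro ⟨h1, h2, h3, h4, h5⟩
    exact ⟨h2, h1, h4, h3, fun z hz => h5 _ ((e z).1 hz)⟩

/-- On records of one excursion the function is monotone. -/
lemma monotoneOn_rec {t : ℝ} {A : Set ℝ}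
    (hA : ∀ x ∈ A, x ≤ t ∧ Rec η f x ∧ ∀ z ∈ Icc x t, η < f z) : MonotoneOn f A := by
  intro x hx y hy hxy
  rcases (hA y hy).2.1 x hxy with h | ⟨z, hz, hle⟩
  · exact h
  · exact absurd hle (not_le.2 ((hA x hx).2.2 z ⟨hz.1, hz.2.trans (hA y hy).1⟩))

/-- The entries paired with a fixed exit carry mass at most one. -/
lemma entry_le (hf : ContDiff ℝ 1 f) (h01 : ∀ t, f t ∈ Icc (0 : ℝ) 1) (b : ℝ) :
    ∫⁻ s in Ioi (0 : ℝ), {s | Paired η f (b - s) b}.indicator
      (fun s => ENNReal.ofReal (deriv f (b - s))) s ≤ 1 := by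
  set A : Set ℝ := {x | Paired η f x b} ∩ Iio b with hAdef
  have hAm : MeasurableSet A :=
    ((measurableSet_paired hf.continuous).preimage (measurable_id.prodMk measurable_const)).inter
      measurableSet_Iio
  have e : ∀ s, (Ioi (0 : ℝ)).indicator ({s | Paired η f (b - s) b}.indicator
      (fun s => ENNReal.ofReal (deriv f (b - s)))) s =
        A.indicator (fun x => ENNReal.ofReal (deriv f x)) (b - s) := by
    intro s
    by_cases h1 : 0 < s <;> by_cases h2 : Paired η f (b - s) b <;>
      simp [hAdef, h1, h2, Set.indicator, sub_lt_self_iff]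
  rw [← lintegral_indicator measurableSet_Ioi, lintegral_congr e,
    lintegral_sub_left_eq_self (fun x => A.indicator (fun x => ENNReal.ofReal (deriv f x)) x) b,
    lintegral_indicator hAm,
    lintegral_deriv_eq_volume_image_of_monotoneOn hAm
      (fun x _ => ((hf.differentiable one_ne_zero) x).hasDerivAt.hasDerivWithinAt)
      (monotoneOn_rec (t := b) fun x hx => ⟨hx.2.le, hx.1.1, hx.1.2.2.2.2⟩)]
  refine (measure_mono (image_subset_iff.2 fun x _ => h01 x :
    f '' A ⊆ Icc (0 : ℝ) 1)).trans ?_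
  simp

/-- The entries before a time with a high value. -/
def entries (η : ℝ) (f : ℝ → ℝ) (t : ℝ) : Set ℝ :=
  {x | x < t ∧ Rec η f x ∧ f x ∈ Ioo η (1 - η) ∧ ∀ z ∈ Icc x t, η < f z}

lemma measurableSet_entries (hf : Continuous f) (t : ℝ) : MeasurableSet (entries η f t) := by
  refine measurableSet_Iio.inter ((isClosed_rec hf).measurableSet.inter
    (((hf.measurable) measurableSet_Ioo).inter ?_))
  exact ((isOpen_band hf).preimage (Continuous.prodMk continuous_id continuous_const)).measurableSet

/-- All levels of the band are crossed at entries before a time with a high value. -/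
lemma entries_mass (hf : ContDiff ℝ 1 f) (hc : HasCompactSupport f) (hη : 0 < η) {t : ℝ}
    (ht : 1 - η < f t) :
    ENNReal.ofReal (1 - 2 * η) ≤ ∫⁻ x in entries η f t, ENNReal.ofReal (deriv f x) := by
  rw [lintegral_deriv_eq_volume_image_of_monotoneOn (measurableSet_entries hf.continuous t)
    (fun x _ => ((hf.differentiable one_ne_zero) x).hasDerivAt.hasDerivWithinAt)
    (monotoneOn_rec (t := t) fun x hx => ⟨hx.1.le, hx.2.1, hx.2.2.2⟩)]
  refine le_trans (le_of_eq ?_) (measure_mono (s := Ioo η (1 - η)) fun c hcm => ?_)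
  · rw [Real.volume_Ioo]; congr 1; ring
  obtain ⟨z₀, hz₀t, hz₀⟩ : ∃ z ≤ t, f z ≤ η := by
    obtain ⟨r, hr⟩ := hc.isCompact.bddBelow
    refine ⟨min t (r - 1), min_le_left _ _, ?_⟩
    rw [image_eq_zero_of_notMem_tsupport (f := f) (x := min t (r - 1)) fun h => by
      linarith [hr h, min_le_right t (r - 1)]]
    exact hη.le
  set S := {z | z ≤ t ∧ f z ≤ η} with hS
  have hSne : S.Nonempty := ⟨z₀, hz₀t, hz₀⟩
  have hSb : BddAbove S := ⟨t, fun z hz => hz.1⟩
  have hL : sSup S ∈ S :=
    (isClosed_Iic.inter (isClosed_le hf.continuous continuous_const)).csSup_mem hSne hSb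
  set L := sSup S
  set T := {z | z ∈ Icc L t ∧ c ≤ f z} with hT
  have hTne : T.Nonempty := ⟨t, ⟨hL.1, le_rfl⟩, by linarith [hcm.2]⟩
  have hTb : BddBelow T := ⟨L, fun z hz => hz.1.1⟩
  have hxT : sInf T ∈ T :=
    (isClosed_Icc.inter (isClosed_le continuous_const hf.continuous)).csInf_mem hTne hTb
  set x := sInf T
  obtain ⟨hxI, hxc⟩ := hxT
  obtain ⟨y, hy, hyc⟩ := intermediate_value_Icc hxI.1 hf.continuous.continuousOn
    (show c ∈ Icc (f L) (f x) from ⟨hL.2.trans hcm.1.le, hxc⟩)
  have hfx : f x = c := by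
    have : x ≤ y := csInf_le hTb ⟨⟨hy.1, hy.2.trans hxI.2⟩, hyc.ge⟩
    rwa [le_antisymm hy.2 this] at hyc
  have hLx : L < x := lt_of_le_of_ne hxI.1 fun h => by rw [← h] at hfx; linarith [hL.2, hcm.1]
  refine ⟨x, ⟨lt_of_le_of_ne hxI.2 fun h => by rw [h] at hfx; linarith [hcm.2], ?_,
    hfx ▸ hcm, fun z hz => ?_⟩, hfx⟩
  · intro s hs
    rcases lt_or_ge s L with h | h
    · exact Or.inr ⟨L, ⟨h.le, hLx.le⟩, hL.2⟩
    · refine Or.inl ?_
      rcases eq_or_lt_of_le hs with h' | h'
      · rw [h']
      · by_contra hlt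
        push Not at hlt
        exact absurd (csInf_le hTb ⟨⟨h, hs.trans hxI.2⟩, by linarith⟩) (not_le.2 h')
  · by_contra hle
    push Not at hle
    linarith [le_csSup hSb (show z ∈ S from ⟨hz.2, hle⟩), hz.1]

/-- The exits after a time with a high value carry the width of the band. -/
lemma exits_mass (hf : ContDiff ℝ 1 f) (hc : HasCompactSupport f) (hη : 0 < η) {t : ℝ}
    (ht : 1 - η < f t) :
    ENNReal.ofReal (1 - 2 * η) ≤
      ∫⁻ y, (entries η (fun s => f (-s)) (-t)).indicator
        (fun x => ENNReal.ofReal (-deriv f (-x))) (-y) := by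
  have h := entries_mass (f := fun s => f (-s)) (hf.comp contDiff_neg)
    (hc.comp_homeomorph (Homeomorph.neg ℝ)) hη (t := -t) (by simpa using ht)
  simp only [deriv_comp_neg] at h
  rw [← lintegral_indicator (measurableSet_entries (f := fun s => f (-s))
    (hf.continuous.comp continuous_neg) _)] at h
  exact h.trans (le_of_eq ((Measure.measurePreserving_neg (volume : Measure ℝ)).lintegral_comp_emb
    (MeasurableEquiv.neg ℝ).measurableEmbedding _).symm)

/-- An entry before and an exit after a time with a high value are paired. -/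
lemma paired_of_mem {t a b : ℝ} (ha : a ∈ entries η f t)
    (hb : -b ∈ entries η (fun s => f (-s)) (-t)) : Paired η f a b ∧ a < t ∧ t < b := by
  refine ⟨⟨ha.2.1, hb.2.1, ha.2.2.1, by simpa using hb.2.2.1, fun z hz => ?_⟩, ha.1,
    by linarith [hb.1]⟩
  rcases le_total z t with h | h
  · exact ha.2.2.2 z ⟨hz.1, h⟩
  · simpa using hb.2.2.2 (-z) ⟨by linarith [hz.2], by linarith⟩

/-- The crossing mass. -/
lemma crossing (hf : ContDiff ℝ 1 f) (hc : HasCompactSupport f) (hη : 0 < η) (hη2 : η < 1 / 2) :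
    ENNReal.ofReal ((1 - 2 * η) ^ 2) * volume {t | 1 - η < f t} ≤
      ∫⁻ a, ∫⁻ s in Ioi (0 : ℝ), {s | Paired η f a (a + s)}.indicator
        (fun s => ENNReal.ofReal (deriv f a) * ENNReal.ofReal (-deriv f (a + s)) *
          ENNReal.ofReal s) s := by
  have hd : Measurable (deriv f) := measurable_deriv f
  set W : ℝ → ℝ → ℝ≥0∞ := fun a b => {p : ℝ × ℝ | Paired η f p.1 p.2}.indicator
    (fun p => ENNReal.ofReal (deriv f p.1) * ENNReal.ofReal (-deriv f p.2)) (a, b) with hW
  have hWm : Measurable fun p : ℝ × ℝ => W p.1 p.2 :=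
    Measurable.indicator ((hd.comp measurable_fst).ennreal_ofReal.mul
      (hd.comp measurable_snd).neg.ennreal_ofReal) (measurableSet_paired hf.continuous)
  set K : ℝ → ℝ → ℝ → ℝ≥0∞ := fun a b t =>
    {t | a < t ∧ t < b ∧ 1 - η < f t}.indicator (fun _ => W a b) t with hK
  have hKm : Measurable fun q : ℝ × ℝ × ℝ => K q.1 q.2.1 q.2.2 := by
    have e : (fun q : ℝ × ℝ × ℝ => K q.1 q.2.1 q.2.2) =
        {q : ℝ × ℝ × ℝ | q.1 < q.2.2 ∧ q.2.2 < q.2.1 ∧ 1 - η < f q.2.2}.indicator
          (fun q => W q.1 q.2.1) := by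
      funext q; simp [hK, Set.indicator]
    rw [e]
    refine Measurable.indicator (hWm.comp (measurable_fst.prodMk measurable_snd.fst)) ?_
    exact ((measurableSet_lt measurable_fst measurable_snd.snd).inter
      ((measurableSet_lt measurable_snd.snd measurable_snd.fst).inter
        (measurableSet_lt measurable_const (hf.continuous.measurable.comp measurable_snd.snd))))
  have step1 : ∀ a, ∫⁻ b, ∫⁻ t, K a b t ≤ ∫⁻ s in Ioi (0 : ℝ),
      {s | Paired η f a (a + s)}.indicator
        (fun s => ENNReal.ofReal (deriv f a) * ENNReal.ofReal (-deriv f (a + s)) *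
          ENNReal.ofReal s) s := by
    intro a
    rw [← lintegral_indicator measurableSet_Ioi]
    refine le_trans (le_of_eq (lintegral_add_left_eq_self _ a).symm) (lintegral_mono fun s => ?_)
    have hle : ∫⁻ t, K a (a + s) t ≤ W a (a + s) * ENNReal.ofReal s := by
      have hsub : {t | a < t ∧ t < a + s ∧ 1 - η < f t} ⊆ Ioo a (a + s) := fun t ht => ⟨ht.1, ht.2.1⟩
      calc ∫⁻ t, K a (a + s) t
          ≤ ∫⁻ t, (Ioo a (a + s)).indicator (fun _ => W a (a + s)) t :=
            lintegral_mono fun t => indicator_le_indicator_of_subset hsub (fun _ => bot_le) t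
        _ = W a (a + s) * ENNReal.ofReal s := by
            rw [lintegral_indicator measurableSet_Ioo, setLIntegral_const, Real.volume_Ioo,
              add_sub_cancel_left]
    refine hle.trans (le_of_eq ?_)
    by_cases hs : 0 < s <;> by_cases hp : Paired η f a (a + s)
    · simp [hW, hs, hp, Set.indicator]
    · simp [hW, hs, hp, Set.indicator]
    · simp [hs, ENNReal.ofReal_eq_zero.2 (not_lt.1 hs)]
    · simp [hs, ENNReal.ofReal_eq_zero.2 (not_lt.1 hs)]
  refine le_trans ?_ (lintegral_mono step1)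
  have sw1 : ∀ a, ∫⁻ b, ∫⁻ t, K a b t = ∫⁻ t, ∫⁻ b, K a b t := fun a =>
    lintegral_lintegral_swap (hKm.comp (measurable_const.prodMk measurable_id)).aemeasurable
  rw [lintegral_congr sw1, lintegral_lintegral_swap (f := fun a t => ∫⁻ b, K a b t)]
  swap
  · exact ((hKm.comp (measurable_fst.fst.prodMk
      (measurable_snd.prodMk measurable_fst.snd))).lintegral_prod_right'
        (f := fun r : (ℝ × ℝ) × ℝ => K r.1.1 r.2 r.1.2)).aemeasurable
  rw [← setLIntegral_const]
  refine (lintegral_indicator (measurableSet_lt measurable_const hf.continuous.measurable)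
    _).symm.trans_le (lintegral_mono fun t => ?_)
  by_cases ht : 1 - η < f t
  swap
  · simp [ht]
  rw [Set.indicator_of_mem (show t ∈ {t | 1 - η < f t} from ht)]
  set A := entries η f t
  set B := fun y => (entries η (fun s => f (-s)) (-t)).indicator
    (fun x => ENNReal.ofReal (-deriv f (-x))) (-y)
  calc ENNReal.ofReal ((1 - 2 * η) ^ 2)
      = ENNReal.ofReal (1 - 2 * η) * ENNReal.ofReal (1 - 2 * η) := by
        rw [sq, ENNReal.ofReal_mul (by linarith)]
    _ ≤ (∫⁻ a, A.indicator (fun x => ENNReal.ofReal (deriv f x)) a) * ∫⁻ b, B b := by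
        rw [lintegral_indicator (measurableSet_entries hf.continuous t)]
        exact mul_le_mul' (entries_mass hf hc hη ht) (exits_mass hf hc hη ht)
    _ = ∫⁻ a, A.indicator (fun x => ENNReal.ofReal (deriv f x)) a * ∫⁻ b, B b := by
        rw [lintegral_mul_const]
        exact hd.ennreal_ofReal.indicator (measurableSet_entries hf.continuous t)
    _ ≤ ∫⁻ a, ∫⁻ b, K a b t := lintegral_mono fun a => by
        refine lintegral_const_mul_le _ _ |>.trans (lintegral_mono fun b => ?_)
        by_cases ha : a ∈ A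
        swap
        · simp [ha]
        by_cases hb : -b ∈ entries η (fun s => f (-s)) (-t)
        swap
        · simp [B, hb]
        obtain ⟨hp, hat, htb⟩ := paired_of_mem ha hb
        simp [B, hK, hW, ha, hb, hp, hat, htb, ht, Set.indicator]

/-- The pairing lemma. -/
theorem linePin : LinePin := by
  intro f hf hc h01 η hη hη2
  refine ⟨fun a => ?_, entry_le hf h01, crossing hf hc hη hη2⟩
  have h := entry_le (η := η) (f := fun s => f (-s)) (hf.comp contDiff_neg) (fun t => h01 _) (-a)
  refine le_trans (le_of_eq (lintegral_congr fun s => ?_)) h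
  have e : Paired η f a (a + s) ↔ Paired η (fun s => f (-s)) (-a - s) (-a) := by
    rw [paired_neg, neg_neg, show -(-a - s) = a + s by ring]
  by_cases hp : Paired η f a (a + s)
  · rw [indicator_of_mem (a := s) hp, indicator_of_mem (a := s) (e.1 hp), deriv_comp_neg,
      show -(-a - s) = a + s by ring]
  · rw [indicator_of_notMem (a := s) hp, indicator_of_notMem (a := s) fun h' => hp (e.2 h')]

end Vale.Agent.P219.CH.Six.Line
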