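import Vale.Agent.P219.Six.Defs
import Vale.Agent.P219.CH.Basic

/-!
# Measurability along geodesics and the localisation of inequalities stated line by line
-/

noncomputable section

open MeasureTheory Set Filter Topology Matrix
open scoped ENNReal

namespace Vale.Agent.P219.CH.Six

variable {n : ℕ} {G : (Fin n → ℝ) → Matrix (Fin n) (Fin n) ℝ}
  {D : (Fin n → ℝ) → (Fin n → ℝ) → ℝ}

/-- The records of a continuous family form a closed set. -/
theorem isClosed_rec {X : Type*} [TopologicalSpace X] {F : X → ℝ → ℝ} (η : ℝ)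
    (hF : Continuous (Function.uncurry F)) {a : X → ℝ} (ha : Continuous a) :
    IsClosed {x | Rec η (F x) (a x)} := by
  rw [← isOpen_compl_iff, isOpen_iff_eventually]
  intro x₀ hx₀
  simp only [mem_compl_iff, mem_setOf_eq, Rec, not_forall, not_or, not_exists, not_and,
    not_le] at hx₀ ⊢
  obtain ⟨s, hs, hlt, hz⟩ := hx₀
  have hst : s < a x₀ := lt_of_le_of_ne hs fun e => by rw [e] at hlt; exact lt_irrefl _ hlt
  have hc : Continuous fun x => F x (a x) := hF.comp (continuous_id.prodMk ha)
  have hs' : Continuous fun x => F x s := hF.comp (continuous_id.prodMk continuous_const)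
  have h1 : ∀ᶠ x in 𝓝 x₀, ∀ θ ∈ Icc (0 : ℝ) 1, η < F x (s + θ * (a x - s)) := by
    refine isCompact_Icc.eventually_forall_of_forall_eventually fun θ hθ => ?_
    have : Continuous fun q : X × ℝ => F q.1 (s + q.2 * (a q.1 - s)) :=
      hF.comp (continuous_fst.prodMk (continuous_const.add
        (continuous_snd.mul ((ha.comp continuous_fst).sub continuous_const))))
    refine (this.tendsto (x₀, θ)).eventually (lt_mem_nhds (hz _ ⟨?_, ?_⟩))
    · nlinarith [hθ.1]
    · nlinarith [hθ.2]
  filter_upwards [h1, (ha.tendsto x₀).eventually (lt_mem_nhds hst),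
    (hc.tendsto x₀).eventually_lt (hs'.tendsto x₀) hlt] with x hx hxs hxl
  refine ⟨s, hxs.le, hxl, fun z hz' => ?_⟩
  have h0 : 0 < a x - s := sub_pos.2 hxs
  have := hx ((z - s) / (a x - s)) ⟨div_nonneg (sub_nonneg.2 hz'.1) h0.le,
    (div_le_one h0).2 (by linarith [hz'.2])⟩
  rwa [div_mul_cancel₀ _ h0.ne', add_sub_cancel] at this

/-- Staying above `η` on an interval is an open condition. -/
theorem isOpen_above {X : Type*} [TopologicalSpace X] {F : X → ℝ → ℝ} (η : ℝ)
    (hF : Continuous (Function.uncurry F)) {a b : X → ℝ} (ha : Continuous a) (hb : Continuous b) :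
    IsOpen {x | ∀ θ ∈ Icc (0 : ℝ) 1, η < F x (a x + θ * (b x - a x))} := by
  rw [isOpen_iff_eventually]
  intro x₀ hx₀
  refine isCompact_Icc.eventually_forall_of_forall_eventually fun θ hθ => ?_
  have : Continuous fun q : X × ℝ => F q.1 (a q.1 + q.2 * (b q.1 - a q.1)) :=
    hF.comp (continuous_fst.prodMk ((ha.comp continuous_fst).add
      (continuous_snd.mul ((hb.comp continuous_fst).sub (ha.comp continuous_fst)))))
  exact (this.tendsto (x₀, θ)).eventually (lt_mem_nhds (hx₀ θ hθ))

/-- The paired parameters form a measurable set. -/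
theorem measurableSet_paired {X : Type*} [TopologicalSpace X] [MeasurableSpace X]
    [OpensMeasurableSpace X] {F : X → ℝ → ℝ} (η : ℝ) (hF : Continuous (Function.uncurry F))
    {a b : X → ℝ} (ha : Continuous a) (hb : Continuous b) :
    MeasurableSet {x | a x < b x ∧ Paired η (F x) (a x) (b x)} := by
  have hFn : Continuous (Function.uncurry fun x s => F x (-s)) :=
    hF.comp (continuous_fst.prodMk continuous_snd.neg)
  have hc : Continuous fun x => F x (a x) := hF.comp (continuous_id.prodMk ha)
  have hd : Continuous fun x => F x (b x) := hF.comp (continuous_id.prodMk hb)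
  have e : {x | a x < b x ∧ Paired η (F x) (a x) (b x)} = {x | a x < b x} ∩
      ({x | Rec η (F x) (a x)} ∩ ({x | Rec η (fun s => F x (-s)) (-(b x))} ∩
      ((fun x => F x (a x)) ⁻¹' Ioo η (1 - η) ∩ ((fun x => F x (b x)) ⁻¹' Ioo η (1 - η) ∩
      {x | ∀ θ ∈ Icc (0 : ℝ) 1, η < F x (a x + θ * (b x - a x))})))) := by
    ext x
    simp only [Paired, mem_setOf_eq, mem_inter_iff, mem_preimage]
    refine and_congr_right fun hab => ?_
    refine and_congr_right fun _ => and_congr_right fun _ => and_congr_right fun _ =>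
      and_congr_right fun _ => ⟨fun h θ hθ => h _ ⟨?_, ?_⟩, fun h z hz => ?_⟩
    · nlinarith [hθ.1]
    · nlinarith [hθ.2]
    · have h0 : 0 < b x - a x := sub_pos.2 hab
      have := h ((z - a x) / (b x - a x)) ⟨div_nonneg (sub_nonneg.2 hz.1) h0.le,
        (div_le_one h0).2 (by linarith [hz.2])⟩
      rwa [div_mul_cancel₀ _ h0.ne', add_sub_cancel] at this
  rw [e]
  exact (isOpen_lt ha hb).measurableSet.inter ((isClosed_rec η hF ha).measurableSet.inter
    ((isClosed_rec η hFn hb.neg).measurableSet.inter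
      ((hc.measurable measurableSet_Ioo).inter ((hd.measurable measurableSet_Ioo).inter
        (isOpen_above η hF ha hb).measurableSet))))

lemma IsExp.continuous_line {e : Phase n → Fin n → ℝ} (he : IsExp G D e) :
    Continuous fun z : Phase n × ℝ => line e z.1 z.2 :=
  he.contDiff.continuous.comp (continuous_fst.fst.prodMk (continuous_snd.smul continuous_fst.snd))

lemma IsExp.contDiff_line {e : Phase n → Fin n → ℝ} (he : IsExp G D e) (p : Phase n) :
    ContDiff ℝ 1 (line e p) :=
  he.contDiff.comp (contDiff_const.prodMk (contDiff_id.smul contDiff_const))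

instance sFinite_liou : SFinite (liou G) := by unfold liou; infer_instance

lemma ae_snd_ne_zero (hn : n ≠ 0) : ∀ᵐ p ∂liou G, p.2 ≠ 0 := by
  have : Nonempty (Fin n) := Fin.pos_iff_nonempty.1 (Nat.pos_of_ne_zero hn)
  refine (withDensity_absolutelyContinuous _ _).ae_le ?_
  rw [mem_ae_iff]
  have e : ({p : Phase n | p.2 ≠ 0}ᶜ : Set (Phase n)) = Set.univ ×ˢ {0} := by ext p; simp
  rw [e, Measure.volume_eq_prod, Measure.prod_prod]
  simp

lemma _root_.Vale.Agent.P219.CH.IsCH.vnorm_pos (h : IsCH G D) {x v : Fin n → ℝ} (hv : v ≠ 0) : 0 < vnorm G x v :=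
  Real.sqrt_pos.2 (by simpa using (h.posDef x).dotProduct_mulVec_pos hv)

lemma vnorm_zero (x : Fin n → ℝ) : vnorm G x 0 = 0 := by simp [vnorm]

lemma _root_.Vale.Agent.P219.CH.IsCH.continuous_vnorm (h : IsCH G D) : Continuous fun p : Phase n => vnorm G p.1 p.2 := by
  refine Real.continuous_sqrt.comp ?_
  simp only [dotProduct, mulVec, Finset.mul_sum]
  exact continuous_finsetSum _ fun i _ => continuous_finsetSum _ fun j _ =>
    ((continuous_apply i).comp continuous_snd).mul
      (((h.smooth_metric i j).continuous.comp continuous_fst).mul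
        ((continuous_apply j).comp continuous_snd))

/-- An inequality of integrals along every line gives one for the Liouville measure. -/
theorem lintegral_le_of_lines (hn : n ≠ 0) (h : IsCH G D) {e : Phase n → Fin n → ℝ}
    (he : IsExp G D e) (hpin : FlowPin n) (o : Fin n → ℝ) (R : ℝ)
    {F H : Phase n → ℝ≥0∞} (hF : Measurable F) (hH : Measurable H)
    (hF0 : ∀ p, R < D o p.1 → F p = 0) (hH0 : ∀ p, R < D o p.1 → H p = 0)
    (hle : ∀ p : Phase n, p.2 ≠ 0 → ∫⁻ t, F (flow e t p) ≤ ∫⁻ t, H (flow e t p)) :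
    ∫⁻ p, F p ∂liou G ≤ ∫⁻ p, H p ∂liou G := by
  obtain ⟨hsymm, -, h0, -, hcomp, -, hN, hD, -, hcont, -, hmp⟩ := hpin G D e h he
  set U : Set (Phase n) := {p | D o p.1 < R + 1}
  have hU : IsOpen U := isOpen_lt ((h.contDiff_D o).continuous.comp continuous_fst) continuous_const
  set χ : Phase n → ℝ≥0∞ := U.indicator 1
  have hχ : Measurable χ := measurable_one.indicator hU.measurableSet
  have hjoint : Measurable fun z : Phase n × ℝ => flow e z.2 z.1 :=
    (hcont.comp (continuous_snd.prodMk continuous_fst)).measurable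
  set τ : Phase n → ℝ≥0∞ := fun p => ∫⁻ t, χ (flow e t p)
  have hτm : Measurable τ := (hχ.comp hjoint).lintegral_prod_right'
  have hτinv : ∀ p t, τ (flow e t p) = τ p := fun p t => by
    simp only [τ, hcomp]
    exact lintegral_add_left_eq_self (fun s => χ (flow e s p)) t
  have hτfin : ∀ p : Phase n, p.2 ≠ 0 → τ p ≠ ∞ := by
    intro p hp
    obtain ⟨B, hB⟩ := (h.proper o (R + 1)).bddAbove_image
      (h.contDiff_D p.1).continuous.continuousOn
    have hN0 := h.vnorm_pos (x := p.1) hp
    obtain ⟨T, hT⟩ : ∃ T, T = Real.sqrt (2 * |B|) / vnorm G p.1 p.2 := ⟨_, rfl⟩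
    refine ne_top_of_le_ne_top (b := volume (Icc (-T) T)) measure_Icc_lt_top.ne ?_
    rw [← lintegral_indicator_one measurableSet_Icc]
    refine lintegral_mono fun t => ?_
    simp only [χ]
    by_cases ht : flow e t p ∈ U
    · have h1 : D p.1 (line e p t) ≤ |B| :=
        (hB ⟨_, (show D o (line e p t) ≤ R + 1 from le_of_lt ht), rfl⟩).trans (le_abs_self B)
      rw [hD] at h1
      have h2 : |t| ≤ T := by
        rw [hT, le_div_iff₀ hN0]
        exact Real.le_sqrt_of_sq_le (by rw [mul_pow, sq_abs]; linarith)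
      rw [Set.indicator_of_mem ht, Set.indicator_of_mem (show t ∈ Icc (-T) T from abs_le.1 h2)]
      rfl
    · rw [Set.indicator_of_notMem ht]; exact bot_le
  have hτpos : ∀ p ∈ U, τ p ≠ 0 := by
    intro p hp
    have ho : IsOpen ((fun t => flow e t p) ⁻¹' U) :=
      hU.preimage (hcont.comp (continuous_id.prodMk continuous_const))
    have hpos := ho.measure_pos volume ⟨0, by simpa [h0] using hp⟩
    have e1 : τ p = volume ((fun t => flow e t p) ⁻¹' U) := by
      simp only [τ, χ]
      rw [← lintegral_indicator_one ho.measurableSet]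
      rfl
    exact e1 ▸ hpos.ne'
  set W : Phase n → ℝ≥0∞ := fun p => χ p * (τ p)⁻¹
  have hWm : Measurable W := hχ.mul hτm.inv
  have key : ∀ {K : Phase n → ℝ≥0∞}, Measurable K → (∀ p, R < D o p.1 → K p = 0) →
      ∫⁻ p, K p ∂liou G = ∫⁻ p, W p * (∫⁻ t : ℝ, K (flow e t p)) ∂liou G := by
    intro K hK hK0
    have h1 : ∫⁻ p, K p ∂liou G = ∫⁻ p, (∫⁻ t : ℝ, K p * W (flow e t p)) ∂liou G := by
      refine lintegral_congr_ae ((ae_snd_ne_zero hn).mono fun p hp => ?_)
      show K p = _
      by_cases hp0 : K p = 0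
      · simp [hp0]
      have hpU : p ∈ U := by
        by_contra hc
        simp only [U, mem_setOf_eq, not_lt] at hc
        exact hp0 (hK0 p (by linarith))
      simp only [W, hτinv]
      have hm : Measurable fun t : ℝ => χ (flow e t p) := hχ.comp (hjoint.comp measurable_prodMk_left)
      rw [lintegral_const_mul _ (hm.mul_const _), lintegral_mul_const _ hm]
      show K p = K p * (τ p * (τ p)⁻¹)
      rw [ENNReal.mul_inv_cancel (hτpos p hpU) (hτfin p hp), mul_one]
    rw [h1, lintegral_lintegral_swap ((hK.comp measurable_fst).mul (hWm.comp hjoint)).aemeasurable]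
    have h2 : ∀ t, ∫⁻ p, K p * W (flow e t p) ∂liou G =
        ∫⁻ p, K (flow e (-t) p) * W p ∂liou G := fun t => by
      have hm : Measurable fun p => K (flow e (-t) p) * W p :=
        (hK.comp (hmp (-t)).measurable).mul hWm
      rw [← (hmp t).lintegral_comp hm]
      simp only [hcomp, add_neg_cancel, h0]
    simp only [h2]
    rw [lintegral_lintegral_swap]
    · refine lintegral_congr fun p => ?_
      have hm : Measurable fun t : ℝ => K (flow e t p) := hK.comp (hjoint.comp measurable_prodMk_left)
      have hm' : Measurable fun t : ℝ => K (flow e (-t) p) := hm.comp measurable_neg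
      rw [lintegral_mul_const _ hm', mul_comm]
      congr 1
      exact (Measure.measurePreserving_neg (volume : Measure ℝ)).lintegral_comp hm
    · exact ((hK.comp ((hcont.comp ((continuous_fst.neg).prodMk continuous_snd)).measurable)).mul
        (hWm.comp measurable_snd)).aemeasurable
  rw [key hF hF0, key hH hH0]
  exact lintegral_mono_ae ((ae_snd_ne_zero hn).mono fun p hp => mul_le_mul_right (hle p hp) _)

end Vale.Agent.P219.CH.Six
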