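import Vale.Agent.P219.Six.Defs

/-!
# The polynomial inequality of the six-dimensional certificate
-/

noncomputable section

namespace Vale.Agent.P219.CH.Six

/-- Equality for `r = 2 c = 2 d`: a quintic and a cubic homogeneous part, each nonnegative. -/
theorem polyPin : PolyPin := by
  intro r c d hr hc hd
  have e : r ^ 5 * pairKer r c d =
      17 * r ^ 5 - 25 * (c + d) * r ^ 4 + (30 + 10 * (c ^ 2 + d ^ 2)) * r ^ 3 := by
    unfold pairKer
    field_simp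
  rw [e]
  have hcd : 0 ≤ c * d := mul_nonneg hc hd
  have h3 : 0 ≤ 30 * r ^ 3 - 360 * c * d * r + 240 * (c * d) * (c + d) := by
    have hs := Real.sq_sqrt hcd
    have hs0 := Real.sqrt_nonneg (c * d)
    set t := Real.sqrt (c * d)
    have hcs : 2 * t ≤ c + d := by nlinarith [sq_nonneg (c - d)]
    nlinarith [mul_nonneg (mul_nonneg (sq_nonneg (r - 2 * t)) (by linarith : 0 ≤ r + 4 * t)) (by norm_num : (0:ℝ) ≤ 30),
      mul_le_mul_of_nonneg_left hcs (mul_nonneg hcd (by norm_num : (0:ℝ) ≤ 240))]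
  have h5 : 0 ≤ 17 * r ^ 5 - 25 * (c + d) * r ^ 4 + 10 * (c ^ 2 + d ^ 2) * r ^ 3 +
      48 * (c * d) * (c ^ 3 + d ^ 3) := by
    obtain ⟨s, hs⟩ : ∃ s, s = c + d := ⟨_, rfl⟩
    rcases eq_or_lt_of_le (show 0 ≤ s by rw [hs]; linarith) with h0 | h0
    · have hc0 : c = 0 := by linarith
      have hd0 : d = 0 := by linarith
      subst hc0 hd0
      nlinarith [pow_pos hr 5]
    -- concave in `c d`: interpolate between `c d = 0` and `c = d`
    have hp : 4 * (c * d) ≤ s ^ 2 := by rw [hs]; nlinarith [sq_nonneg (c - d)]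
    have f0 : 0 ≤ r ^ 3 * (17 * r ^ 2 - 25 * r * s + 10 * s ^ 2) :=
      mul_nonneg (pow_nonneg hr.le 3) (by nlinarith [sq_nonneg (34 * r - 25 * s)])
    have f1 : 0 ≤ (r - s) ^ 2 * (17 * r ^ 3 + 9 * r ^ 2 * s + 6 * r * s ^ 2 + 3 * s ^ 3) := by
      positivity
    have key : s ^ 2 * (17 * r ^ 5 - 25 * (c + d) * r ^ 4 + 10 * (c ^ 2 + d ^ 2) * r ^ 3 +
        48 * (c * d) * (c ^ 3 + d ^ 3)) =
        (s ^ 2 - 4 * (c * d)) * (r ^ 3 * (17 * r ^ 2 - 25 * r * s + 10 * s ^ 2)) +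
        4 * (c * d) * ((r - s) ^ 2 * (17 * r ^ 3 + 9 * r ^ 2 * s + 6 * r * s ^ 2 + 3 * s ^ 3)) +
        36 * s ^ 3 * (c * d) * (s ^ 2 - 4 * (c * d)) := by
      rw [hs]; ring
    refine nonneg_of_mul_nonneg_right (a := s ^ 2) ?_ (by positivity)
    rw [key]
    have := sub_nonneg.2 hp
    positivity
  linarith

end Vale.Agent.P219.CH.Six
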