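import Vale.Agent.P219.Six.AssemblyPoint

/-!
# The sharp inequality in dimension six from its three parts
-/

noncomputable section

open MeasureTheory Set Filter Topology Matrix
open scoped ENNReal

namespace Vale.Agent.P219.CH.Six


variable {G : (Fin 6 → ℝ) → Matrix (Fin 6) (Fin 6) ℝ} {D : (Fin 6 → ℝ) → (Fin 6 → ℝ) → ℝ} {u : (Fin 6 → ℝ) → ℝ}

/-- The measure `|du| dvol`. -/
def bdry (G : (Fin 6 → ℝ) → Matrix (Fin 6) (Fin 6) ℝ) (u : (Fin 6 → ℝ) → ℝ) : Measure (Fin 6 → ℝ) :=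
  volume.withDensity fun y => ENNReal.ofReal (conorm G y (cd u y) * dens G y)

lemma dist_comm' (h : IsCH G D) (x y : (Fin 6 → ℝ)) : D x y = D y x := by
  have key : ∀ a b : (Fin 6 → ℝ), D a b ≤ D b a := by
    intro a b
    have h1 := h.cosine b a b
    have hz : pairing G b (cd (D b) b) (cd (D b) b) = 0 := by
      rw [h.eikonal, h.dist_self, mul_zero]
    have h2 := h.abs_pairing_le b (cd (D b) b) (cd (D a) b)
    have hc : conorm G b (cd (D b) b) = 0 := by rw [conorm, hz, Real.sqrt_zero]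
    rw [hc, zero_mul, abs_nonpos_iff] at h2
    rw [h.dist_self, h2] at h1
    linarith
  exact le_antisymm (key x y) (key y x)

lemma integral_bdry (h : IsCH G D) (hu : ContDiff ℝ 1 u) (f : (Fin 6 → ℝ) → ℝ) :
    ∫ y, f y ∂bdry G u = ∫ y, f y * (conorm G y (cd u y) * dens G y) := by
  rw [bdry, integral_withDensity_eq_integral_toReal_smul
    ((h.continuous_conorm_cd hu).fun_mul h.continuous_dens).measurable.ennreal_ofReal
    (Eventually.of_forall fun _ => ENNReal.ofReal_lt_top)]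
  exact integral_congr_ae (Eventually.of_forall fun y => by
    simp only [smul_eq_mul, ENNReal.toReal_ofReal (mul_nonneg (conorm_nonneg y _) (h.dens_pos y).le)]
    ring)

lemma isFiniteMeasure_bdry (h : IsCH G D) {K : Set (Fin 6 → ℝ)} (hK : IsCompact K) (hu : Comp K u) :
    IsFiniteMeasure (bdry G u) := by
  refine isFiniteMeasure_withDensity_ofReal ?_
  have := h.integrable_mul_conorm hK hu (continuous_const (y := (1 : ℝ)))
  simpa using this.hasFiniteIntegral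

lemma ae_bdry_mem (h : IsCH G D) {K : Set (Fin 6 → ℝ)} (hK : IsCompact K) (hu : Comp K u) :
    ∀ᵐ y ∂bdry G u, y ∈ K := by
  rw [bdry, ae_withDensity_iff ((h.continuous_conorm_cd hu.1).fun_mul h.continuous_dens).measurable.ennreal_ofReal]
  refine Eventually.of_forall fun y hy => ?_
  by_contra hyK
  exact hy (by simp [cd_eq_zero_of_notMem fun hs => hyK (hu.2.1 hs), conorm_zero])

lemma real_bdry_univ (h : IsCH G D) {K : Set (Fin 6 → ℝ)} (hK : IsCompact K) (hu : Comp K u) :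
    (bdry G u).real Set.univ = per G u := by
  have h1 := integral_bdry h hu.1 (fun _ => (1 : ℝ))
  simp only [integral_const, smul_eq_mul, mul_one, one_mul] at h1
  exact h1

/-- The pair integral is at most the square of the perimeter plus the rows. -/
theorem pair_le_rows (h : IsCH G D) {o : (Fin 6 → ℝ)} {R Q s ε : ℝ} (hu : Comp {y | D o y ≤ R} u)
    (hQ : 0 ≤ Q) (hs : 0 < s)
    (hrow : ∀ x, D o x ≤ R →
      ∫ y, rowF (5 * s) Q (D x y) (acos G D u x y) * (conorm G y (cd u y) * dens G y) ≤ ε) :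
    ∫ x, (∫ y, (1 - Real.exp (-(Q * D x y))) *
        pairKer (s * Real.sqrt (2 * D x y)) (acos G D u y x) (acos G D u x y) *
          (conorm G y (cd u y) * dens G y)) * (conorm G x (cd u x) * dens G x) ≤
      17 * per G u ^ 2 + 5 / s ^ 2 * (ε * per G u) := by
  have hK := h.proper o R
  have := isFiniteMeasure_bdry h hK hu
  have hν : ∀ᵐ y ∂bdry G u, y ∈ {y | D o y ≤ R} := ae_bdry_mem h hK hu
  obtain ⟨B, hB⟩ := ((hK.prod hK).image h.continuous_D).isBounded.subset_closedBall 0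
  obtain ⟨C, hC⟩ := ((isCompact_Icc (a := (0 : ℝ)) (b := max B 0)).prod
    (isCompact_Icc (a := (0 : ℝ)) (b := 1))).exists_bound_of_continuousOn
      (continuous_rowF (5 * s) Q).continuousOn
  set Fd : (Fin 6 → ℝ) × (Fin 6 → ℝ) → ℝ := fun z => rowF (5 * s) Q (D z.1 z.2) (acos G D u z.1 z.2)
  set Fc : (Fin 6 → ℝ) × (Fin 6 → ℝ) → ℝ := fun z => rowF (5 * s) Q (D z.1 z.2) (acos G D u z.2 z.1)
  set Ker : (Fin 6 → ℝ) × (Fin 6 → ℝ) → ℝ := fun z => (1 - Real.exp (-(Q * D z.1 z.2))) *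
    pairKer (s * Real.sqrt (2 * D z.1 z.2)) (acos G D u z.2 z.1) (acos G D u z.1 z.2)
  have hRm : Measurable fun z : ℝ × ℝ => rowF (5 * s) Q z.1 z.2 :=
    (continuous_rowF (5 * s) Q).measurable
  have ha := h.measurable_acos hu.1
  have hd : Measurable Fd := by
    have := hRm.comp (h.continuous_D.measurable.prodMk ha)
    exact this
  have hswap : Measurable fun z : (Fin 6 → ℝ) × (Fin 6 → ℝ) => acos G D u z.2 z.1 := by
    have := ha.comp (measurable_swap (α := (Fin 6 → ℝ)) (β := (Fin 6 → ℝ)))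
    exact this
  have hc : Measurable Fc := by
    have := hRm.comp (h.continuous_D.measurable.prodMk hswap)
    exact this
  have hae : ∀ᵐ z ∂(bdry G u).prod (bdry G u), z.1 ∈ {y | D o y ≤ R} ∧ z.2 ∈ {y | D o y ≤ R} :=
    (Measure.quasiMeasurePreserving_fst.ae hν).and (Measure.quasiMeasurePreserving_snd.ae hν)
  have hD : ∀ z : (Fin 6 → ℝ) × (Fin 6 → ℝ), z.1 ∈ {y | D o y ≤ R} → z.2 ∈ {y | D o y ≤ R} →
      D z.1 z.2 ∈ Icc (0 : ℝ) (max B 0) := fun z h1 h2 => by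
    have := hB ⟨z, ⟨h1, h2⟩, rfl⟩
    simp only [Metric.mem_closedBall, dist_zero_right, Real.norm_eq_abs] at this
    exact ⟨h.dist_nonneg _ _, ((le_abs_self _).trans this).trans (le_max_left _ _)⟩
  have hdi : Integrable Fd ((bdry G u).prod (bdry G u)) :=
    Integrable.of_bound hd.aestronglyMeasurable C (hae.mono fun z hz => hC (D z.1 z.2, _)
      ⟨hD z hz.1 hz.2, acos_nonneg u _ _, h.acos_le_one u _ _⟩)
  have hci : Integrable Fc ((bdry G u).prod (bdry G u)) :=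
    Integrable.of_bound hc.aestronglyMeasurable C (hae.mono fun z hz => hC (D z.1 z.2, _)
      ⟨hD z hz.1 hz.2, acos_nonneg u _ _, h.acos_le_one u _ _⟩)
  have hK1 : ∀ z, 0 ≤ Ker z ∧ Ker z ≤ 17 + 5 / (2 * s ^ 2) * (Fc z + Fd z) := fun z => by
    refine ⟨mul_nonneg (sub_nonneg.2 (Real.exp_le_one_iff.2 ?_)) (pairKer_nonneg
      ⟨acos_nonneg u _ _, h.acos_le_one u _ _⟩ ⟨acos_nonneg u _ _, h.acos_le_one u _ _⟩), ?_⟩
    · linarith [mul_nonneg hQ (h.dist_nonneg z.1 z.2)]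
    · exact trunc_pairKer_le hQ (h.dist_nonneg _ _) hs ⟨acos_nonneg u _ _, h.acos_le_one u _ _⟩
        ⟨acos_nonneg u _ _, h.acos_le_one u _ _⟩
  have hUi : Integrable (fun z => 17 + 5 / (2 * s ^ 2) * (Fc z + Fd z))
      ((bdry G u).prod (bdry G u)) := (integrable_const _).add ((hci.fun_add hdi).const_mul _)
  have hKm : Measurable Ker := by
    have h1 := (h.continuous_D.measurable.const_mul Q).neg.exp.const_sub 1
    have h2 : Measurable fun q : ℝ × ℝ × ℝ => pairKer q.1 q.2.1 q.2.2 := by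
      unfold pairKer; fun_prop
    have h3 := h2.comp (((h.continuous_D.measurable.const_mul 2).sqrt.const_mul s).prodMk
      (hswap.prodMk ha))
    exact h1.mul h3
  have hKi : Integrable Ker ((bdry G u).prod (bdry G u)) :=
    hUi.mono' hKm.aestronglyMeasurable (Eventually.of_forall fun z => by
      rw [Real.norm_eq_abs, abs_of_nonneg (hK1 z).1]; exact (hK1 z).2)
  have e1 : ∫ x, (∫ y, (1 - Real.exp (-(Q * D x y))) *
      pairKer (s * Real.sqrt (2 * D x y)) (acos G D u y x) (acos G D u x y) *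
        (conorm G y (cd u y) * dens G y)) * (conorm G x (cd u x) * dens G x) =
      ∫ z, Ker z ∂(bdry G u).prod (bdry G u) := by
    rw [integral_prod _ hKi, integral_bdry h hu.1]
    exact integral_congr_ae (Eventually.of_forall fun x => by
      simp only [integral_bdry h hu.1]; rfl)
  have e2 : ∫ z, Fd z ∂(bdry G u).prod (bdry G u) ≤ ε * per G u := by
    rw [integral_prod _ hdi, ← real_bdry_univ h hK hu]
    refine (integral_mono_ae hdi.integral_prod_left (integrable_const ε) (hν.mono fun x hx => ?_)).trans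
      (le_of_eq (by rw [integral_const, smul_eq_mul, mul_comm]))
    simp only [integral_bdry h hu.1]
    exact hrow x hx
  have e3 : ∫ z, Fc z ∂(bdry G u).prod (bdry G u) = ∫ z, Fd z ∂(bdry G u).prod (bdry G u) := by
    rw [← integral_prod_swap Fd]
    exact integral_congr_ae (Eventually.of_forall fun z => by
      simp only [Fc, Fd, Prod.fst_swap, Prod.snd_swap]; rw [dist_comm' h z.2 z.1])
  rw [e1]
  refine (integral_mono hKi hUi fun z => (hK1 z).2).trans ?_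
  rw [integral_add (integrable_const _) ((hci.fun_add hdi).const_mul _), integral_const,
    integral_const_mul, integral_add hci hdi, e3, ← univ_prod_univ, measureReal_prod_prod, real_bdry_univ h hK hu]
  simp only [smul_eq_mul]
  have e4 : 5 / (2 * s ^ 2) * (∫ z, Fd z ∂(bdry G u).prod (bdry G u) +
      ∫ z, Fd z ∂(bdry G u).prod (bdry G u)) = 5 / s ^ 2 * ∫ z, Fd z ∂(bdry G u).prod (bdry G u) := by
    field_simp; ring
  have := mul_le_mul_of_nonneg_left e2 (by positivity : (0 : ℝ) ≤ 5 / s ^ 2)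
  rw [e4]
  linarith

/-- The sharp constant to the sixth power. -/
lemma sharp_pow : (6 * (Real.pi ^ 3 / 6) ^ ((1 : ℝ) / 6)) ^ 6 = 6 ^ 5 * Real.pi ^ 3 := by
  rw [mul_pow, ← Real.rpow_natCast ((Real.pi ^ 3 / 6) ^ ((1 : ℝ) / 6)) 6, ← Real.rpow_mul (by positivity)]
  norm_num
  ring

/-- The closing inequality, with the errors collected. -/
lemma no_almost_minimiser {l θ ρ V P s η gp Q ε I W : ℝ} (hl : 0 < l) (hθ1 : 1 ≤ θ)
    (hρ : ρ = l ^ 6 / (6 ^ 5 * Real.pi ^ 3)) (hV : 0 < V) (hη : 0 < η) (hη2 : η ≤ 1)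
    (hgp : 0 ≤ gp) (hP0 : 0 ≤ P) (hs : s = l * θ / 6 * V ^ (-(1 : ℝ) / 6))
    (hW : W = V ^ ((5 : ℝ) / 6)) (hP : P ≤ l * W)
    (hpair : 360 * s * ((1 - 2 * η) ^ 2 * (V - gp / η)) - 43 * P - 360 * s / Real.sqrt Q * P ≤
      s ^ 5 / Real.pi ^ 3 * I)
    (hI : I ≤ 17 * P ^ 2 + 5 / s ^ 2 * (ε * P)) :
    17 * l * (1 - ρ * θ ^ 5) * W ≤ 1440 * s * η * V + 360 * s * gp / η +
      360 * s / Real.sqrt Q * P + 5 * s ^ 3 * ε * P / Real.pi ^ 3 := by
  have hs0 : 0 < s := by rw [hs]; positivity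
  have hpi : (0 : ℝ) < Real.pi ^ 3 := by positivity
  have eV : s * V = l * θ / 6 * W := by
    rw [hs, hW, mul_assoc, ← Real.rpow_add_one hV.ne']
    norm_num
  have e5 : s ^ 5 / Real.pi ^ 3 * (17 * (l * W) ^ 2) = 17 * ρ * θ ^ 5 * l * W := by
    have h1 : (V ^ (-(1 : ℝ) / 6)) ^ 5 * W ^ 2 = W := by
      rw [hW, ← Real.rpow_natCast _ 5, ← Real.rpow_mul hV.le, ← Real.rpow_natCast _ 2,
        ← Real.rpow_mul hV.le, ← Real.rpow_add hV]
      norm_num
    rw [hs, hρ]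
    calc _ = (l * θ / 6) ^ 5 / Real.pi ^ 3 * 17 * l ^ 2 * ((V ^ (-(1 : ℝ) / 6)) ^ 5 * W ^ 2) := by
          ring
      _ = _ := by rw [h1]; field_simp
  have hP2 : s ^ 5 / Real.pi ^ 3 * (17 * P ^ 2) ≤ 17 * ρ * θ ^ 5 * l * W := by
    rw [← e5]; gcongr
  have hr : s ^ 5 / Real.pi ^ 3 * (5 / s ^ 2 * (ε * P)) = 5 * s ^ 3 * ε * P / Real.pi ^ 3 := by
    field_simp
  have h2 := mul_le_mul_of_nonneg_left hI (by positivity : 0 ≤ s ^ 5 / Real.pi ^ 3)
  rw [mul_add, hr] at h2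
  have h3 : V - 4 * η * V - gp / η ≤ (1 - 2 * η) ^ 2 * (V - gp / η) := by
    nlinarith [mul_nonneg (mul_nonneg hη.le hη.le) hV.le,
      mul_nonneg (mul_nonneg hη.le (sub_nonneg.2 hη2)) (div_nonneg hgp hη.le)]
  have h4 := mul_le_mul_of_nonneg_left h3 (by positivity : 0 ≤ 360 * s)
  have hW0 : 0 ≤ l * W := hP0.trans hP
  have h5 : 60 * (l * W) ≤ 60 * θ * (l * W) := by
    nlinarith
  have h6 : 360 * (s * V) = 60 * θ * (l * W) := by rw [eV]; ring
  have e7 : 360 * s * (V - 4 * η * V - gp / η) =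
      360 * (s * V) - 1440 * s * η * V - 360 * s * gp / η := by ring
  linarith

/-- The assembly. -/
theorem assembly : AssemblyPin := by
  intro hMin hRow hPair G D e h he Ω A hΩ hΩb hA
  by_contra hlt
  rw [not_le] at hlt
  obtain ⟨L, hL⟩ : ∃ L : ℝ, L = 6 * (Real.pi ^ 3 / 6) ^ ((1 : ℝ) / 6) := ⟨_, rfl⟩
  rw [← hL] at hlt
  have hA0 : 0 ≤ A := by
    obtain ⟨S, v, -, -, -, hA'⟩ := hA
    exact le_trans (h.per_nonneg (v 0)) (hA' 0)
  obtain ⟨X, hX⟩ : ∃ X : ℝ, X = volG G Ω ^ ((5 : ℝ) / 6) := ⟨_, rfl⟩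
  rw [← hX] at hlt
  have hL0 : 0 < L := by rw [hL]; positivity
  have hX0 : 0 < X := by
    by_contra hX0
    rw [not_lt] at hX0
    linarith [mul_nonpos_of_nonneg_of_nonpos hL0.le hX0]
  obtain ⟨l, hl1, hl2⟩ := exists_between ((div_lt_iff₀ hX0).2 hlt)
  have hl : 0 < l := lt_of_le_of_lt (div_nonneg hA0 hX0.le) hl1
  have hexp : ((((6 : ℕ) : ℝ)) - 1) / ((6 : ℕ) : ℝ) = 5 / 6 := by norm_num
  obtain ⟨R, M, P₀, v₀, hR, hM, hP₀, hv₀, hmin⟩ := hMin (by norm_num) G D h Ω A l hΩ hΩb hA hl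
    (by rw [hexp, ← hX]; exact (div_lt_iff₀ hX0).1 hl1) 0
  obtain ⟨ρ, hρ⟩ : ∃ ρ : ℝ, ρ = l ^ 6 / (6 ^ 5 * Real.pi ^ 3) := ⟨_, rfl⟩
  have hρ0 : 0 < ρ := by rw [hρ]; positivity
  have hρ1 : ρ < 1 := by
    rw [hρ, div_lt_one (by positivity), ← sharp_pow, ← hL]
    exact pow_lt_pow_left₀ hl2 hl.le (by norm_num)
  obtain ⟨θ, hθ⟩ : ∃ θ : ℝ, θ = (1 / ρ) ^ ((1 : ℝ) / 10) := ⟨_, rfl⟩
  have hθ1 : 1 < θ := hθ ▸ Real.one_lt_rpow ((one_lt_div hρ0).2 hρ1) (by norm_num)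
  have hθ5 : ρ * θ ^ 5 < 1 := by
    have e1 : θ ^ 5 = Real.sqrt (1 / ρ) := by
      rw [hθ, Real.sqrt_eq_rpow, ← Real.rpow_natCast _ 5, ← Real.rpow_mul (by positivity)]
      norm_num
    rw [e1, Real.sqrt_div zero_le_one, Real.sqrt_one, ← mul_div_assoc, mul_one, Real.div_sqrt,
      ← Real.sqrt_one]
    exact Real.sqrt_lt_sqrt hρ0.le hρ1
  have hK := h.proper 0 R
  obtain ⟨VK, hVKdef⟩ : ∃ VK, VK = volG G {y | D 0 y ≤ R} := ⟨_, rfl⟩
  have hVK : v₀ ≤ VK := by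
    obtain ⟨u, hu, -, hv, -⟩ := hmin 1 one_pos
    exact hVKdef ▸ hv.trans (h.vol_le hK hu)
  obtain ⟨σ, hσ⟩ : ∃ σ : ℝ, σ = 17 * l * (1 - ρ * θ ^ 5) * v₀ ^ ((5 : ℝ) / 6) := ⟨_, rfl⟩
  have hσ0 : 0 < σ := by
    rw [hσ]; have : 0 < 1 - ρ * θ ^ 5 := sub_pos.2 hθ5; positivity
  obtain ⟨S, hS⟩ : ∃ S : ℝ, S = l * θ / 6 * v₀ ^ (-(1 : ℝ) / 6) := ⟨_, rfl⟩
  have hS0 : 0 < S := by rw [hS]; positivity
  have hVK0 : 0 < VK := hv₀.trans_le hVK
  obtain ⟨η, hη⟩ : ∃ η : ℝ, η = min (1 / 4) (σ / (5 * (1440 * S * VK))) := ⟨_, rfl⟩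
  have hη0 : 0 < η := hη ▸ lt_min (by norm_num) (by positivity)
  obtain ⟨Q, hQ⟩ : ∃ Q : ℝ, Q = ((5 * (360 * S * P₀)) / σ + 1) ^ 2 := ⟨_, rfl⟩
  have hQ0 : 0 < Q := hQ ▸ by positivity
  obtain ⟨ε, hε⟩ : ∃ ε : ℝ, ε = σ * Real.pi ^ 3 / (5 * (5 * S ^ 3 * P₀ + 1)) := ⟨_, rfl⟩
  have hε0 : 0 < ε := hε ▸ by positivity
  obtain ⟨δ₀, hδ₀, hrow⟩ := hRow G D h 0 R M P₀ v₀ l θ Q ε hR hM hP₀ hv₀ hl hθ1 hQ0 hε0
  obtain ⟨δ, hδ⟩ : ∃ δ : ℝ, δ = min δ₀ (σ * η / (5 * (360 * S))) := ⟨_, rfl⟩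
  have hδ0 : 0 < δ := hδ ▸ lt_min hδ₀ (by positivity)
  obtain ⟨u, hu, hPu, hVu, hgu, hPV, hopt⟩ := hmin δ hδ0
  rw [hexp] at hPV
  obtain ⟨s, hs⟩ : ∃ s : ℝ, s = l * θ / 6 * vol G u ^ (-(1 : ℝ) / 6) := ⟨_, rfl⟩
  have hV0 : 0 < vol G u := hv₀.trans_le hVu
  have hs0 : 0 < s := by rw [hs]; positivity
  have hsS : s ≤ S := by
    rw [hs, hS]
    exact mul_le_mul_of_nonneg_left (Real.rpow_le_rpow_of_nonpos hv₀ hVu (by norm_num))
      (by positivity)
  have hr := hrow u δ hδ0 (hδ ▸ min_le_left _ _) hu hPu hVu hgu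
    (fun u' hu' => by have := hopt u' hu'; rw [hexp] at this; exact this)
  rw [show l * (5 / 6) * θ * vol G u ^ (-(1 : ℝ) / 6) = 5 * s by rw [hs]; ring] at hr
  have hI := pair_le_rows h (s := s) (Q := Q) (ε := ε) hu hQ0.le hs0 hr
  have hp := hPair G D e h he 0 R Q η s u hQ0 hη0
    ((hη ▸ min_le_left _ _).trans_lt (by norm_num)) hs0 hu
  have hgp := h.gap_nonneg (G := G) hu.2.2
  have hP0 := h.per_nonneg u
  have key := no_almost_minimiser hl hθ1.le hρ hV0 hη0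
    ((hη ▸ min_le_left _ _).trans (by norm_num)) hgp hP0 hs rfl hPV hp hI
  have hlow : σ ≤ 17 * l * (1 - ρ * θ ^ 5) * vol G u ^ ((5 : ℝ) / 6) := by
    rw [hσ]
    exact mul_le_mul_of_nonneg_left (Real.rpow_le_rpow hv₀.le hVu (by norm_num))
      (mul_nonneg (by positivity) (sub_pos.2 hθ5).le)
  have h1 : 1440 * s * η * vol G u ≤ σ / 5 := by
    calc 1440 * s * η * vol G u ≤ 1440 * S * (σ / (5 * (1440 * S * VK))) * VK := by
          refine mul_le_mul ?_ (hVKdef ▸ h.vol_le hK hu) hV0.le (by positivity)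
          exact mul_le_mul (by linarith) (hη ▸ min_le_right _ _) hη0.le (by positivity)
      _ = σ / 5 := by field_simp
  have h2 : 360 * s * gap G u / η ≤ σ / 5 := by
    rw [div_le_iff₀ hη0]
    calc 360 * s * gap G u ≤ 360 * S * (σ * η / (5 * (360 * S))) :=
          mul_le_mul (by linarith) (hgu.trans (hδ ▸ min_le_right _ _)) hgp (by positivity)
      _ = σ / 5 * η := by field_simp
  have h3 : 360 * s / Real.sqrt Q * per G u ≤ σ / 5 := by
    rw [hQ, Real.sqrt_sq (by positivity), div_mul_eq_mul_div, div_le_iff₀ (by positivity)]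
    calc 360 * s * per G u ≤ 360 * S * P₀ := mul_le_mul (by linarith) hPu hP0 (by positivity)
      _ ≤ _ := by
        rw [mul_add, mul_one]
        have : σ / 5 * (5 * (360 * S * P₀) / σ) = 360 * S * P₀ := by field_simp
        linarith
  have h4 : 5 * s ^ 3 * ε * per G u / Real.pi ^ 3 ≤ σ / 5 := by
    rw [div_le_iff₀ (by positivity)]
    calc 5 * s ^ 3 * ε * per G u ≤ 5 * S ^ 3 * ε * P₀ := by gcongr
      _ = σ * Real.pi ^ 3 / 5 * (5 * S ^ 3 * P₀ / (5 * S ^ 3 * P₀ + 1)) := by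
          rw [hε]; field_simp
      _ ≤ σ * Real.pi ^ 3 / 5 * 1 := by
          refine mul_le_mul_of_nonneg_left ((div_le_one (by positivity)).2 (by linarith)) (by positivity)
      _ = _ := by ring
  linarith

end Vale.Agent.P219.CH.Six
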