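import Vale.Agent.P219.Six.PairPoint

/-!
# The row dominates the truncated pair kernel
-/

noncomputable section

open MeasureTheory Set Filter Topology Matrix
open scoped ENNReal

namespace Vale.Agent.P219.CH.Six

/-- The row at half squared distance `a` and cosine `d`. -/
def rowF (h Q a d : ℝ) : ℝ := ∫ q in (0 : ℝ)..Q, rowInt h q a d

lemma continuous_rowF (h Q : ℝ) : Continuous fun z : ℝ × ℝ => rowF h Q z.1 z.2 := by
  refine intervalIntegral.continuous_parametric_intervalIntegral_of_continuous' ?_ 0 Q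
  unfold rowInt Function.uncurry
  fun_prop

/-- The row is at least its limit, truncated by `1 - exp (-Q a)`. -/
lemma le_rowF {h Q a d : ℝ} (hQ : 0 ≤ Q) (ha : 0 ≤ a) (hd : d ∈ Icc (0 : ℝ) 1) :
    (1 - Real.exp (-(Q * a))) / a * (3 + 2 * d ^ 2 - h * d * Real.sqrt (2 * a)) ≤ rowF h Q a d := by
  have hd1 : 0 ≤ 1 - d ^ 2 := sub_nonneg.2 (pow_le_one₀ hd.1 hd.2)
  rcases eq_or_lt_of_le ha with rfl | ha0
  · simp only [div_zero, zero_mul, rowF, rowInt]
    simp
    linarith
  have h1 : ∫ q in (0 : ℝ)..Q, Real.exp (-(q * a)) = (1 - Real.exp (-(Q * a))) / a := by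
    rw [intervalIntegral.integral_eq_sub_of_hasDerivAt
      (f := fun q => -Real.exp (-(q * a)) / a) (fun q _ => ?_)
      ((Continuous.intervalIntegrable (by fun_prop) _ _))]
    · simp; ring
    · refine ((((hasDerivAt_id q).mul_const a).neg.exp).neg.div_const a).congr_deriv ?_
      simp only [id, Pi.neg_apply]
      field_simp
  have h2 : ∫ q in (0 : ℝ)..Q, (1 - q * a) * Real.exp (-(q * a)) = Q * Real.exp (-(Q * a)) := by
    rw [intervalIntegral.integral_eq_sub_of_hasDerivAt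
      (f := fun q => q * Real.exp (-(q * a))) (fun q _ => ?_)
      ((Continuous.intervalIntegrable (by fun_prop) _ _))]
    · simp
    · refine ((hasDerivAt_id q).mul (((hasDerivAt_id q).mul_const a).neg.exp)).congr_deriv ?_
      simp only [id, Pi.neg_apply]
      ring
  have e : rowF h Q a d = (3 + 2 * d ^ 2 - h * d * Real.sqrt (2 * a)) * ((1 - Real.exp (-(Q * a))) / a) +
      2 * (1 - d ^ 2) * (Q * Real.exp (-(Q * a))) := by
    rw [rowF, ← h1, ← h2, ← intervalIntegral.integral_const_mul, ← intervalIntegral.integral_const_mul,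
      ← intervalIntegral.integral_add (Continuous.intervalIntegrable (by fun_prop) _ _)
        (Continuous.intervalIntegrable (by fun_prop) _ _)]
    exact intervalIntegral.integral_congr fun q _ => by simp only [rowInt]; ring
  rw [e, mul_comm]
  have : 0 ≤ 2 * (1 - d ^ 2) * (Q * Real.exp (-(Q * a))) := by positivity
  linarith

/-- The truncated kernel is at most `17` plus the symmetrised rows. -/
theorem trunc_pairKer_le {Q a c d s : ℝ} (hQ : 0 ≤ Q) (ha : 0 ≤ a) (hs : 0 < s)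
    (hc : c ∈ Icc (0 : ℝ) 1) (hd : d ∈ Icc (0 : ℝ) 1) :
    (1 - Real.exp (-(Q * a))) * pairKer (s * Real.sqrt (2 * a)) c d ≤
      17 + 5 / (2 * s ^ 2) * (rowF (5 * s) Q a c + rowF (5 * s) Q a d) := by
  have h1 := le_rowF (h := 5 * s) hQ ha hc
  have h2 := le_rowF (h := 5 * s) hQ ha hd
  have hw1 : 1 - Real.exp (-(Q * a)) ≤ 1 := sub_le_self _ (Real.exp_pos _).le
  obtain ⟨E, hE⟩ : ∃ E, E = 1 - Real.exp (-(Q * a)) := ⟨_, rfl⟩
  rw [← hE] at h1 h2 hw1 ⊢
  have hs2 : (0 : ℝ) ≤ 5 / (2 * s ^ 2) := by positivity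
  have h3 := mul_le_mul_of_nonneg_left (add_le_add h1 h2) hs2
  refine le_trans ?_ (add_le_add le_rfl h3)
  rcases eq_or_lt_of_le ha with rfl | ha0
  · have : E = 0 := by rw [hE]; simp
    simp [this]
  have hsq : Real.sqrt (2 * a) ^ 2 = 2 * a := Real.sq_sqrt (by linarith)
  obtain ⟨r, hr⟩ : ∃ r, r = Real.sqrt (2 * a) := ⟨_, rfl⟩
  have hr0 : 0 < r := hr ▸ Real.sqrt_pos.2 (by linarith)
  rw [← hr] at hsq ⊢
  have ea : a = r ^ 2 / 2 := by linarith
  subst ea
  have e : E * pairKer (s * r) c d = 17 * E + 5 / (2 * s ^ 2) *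
      (E / (r ^ 2 / 2) * (3 + 2 * c ^ 2 - 5 * s * c * r) +
        E / (r ^ 2 / 2) * (3 + 2 * d ^ 2 - 5 * s * d * r)) := by
    unfold pairKer
    field_simp
    ring
  rw [e]
  linarith

end Vale.Agent.P219.CH.Six
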