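import Vale.Agent.P219.CH.Defs

/-!
# P219: the sharp isoperimetric inequality of six-dimensional Cartan-Hadamard manifolds

The proof tests the first variation with `grad D / r ^ 2`, bounds the pair integral below along
geodesics and evaluates it with Santalo's formula. The parts are stated here as pins.
-/

noncomputable section

open MeasureTheory Set Filter Topology Matrix
open scoped ENNReal

namespace Vale.Agent.P219.CH.Six

variable {n : ℕ}

/-- A point with a tangent vector at it. -/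
abbrev Phase (n : ℕ) := (Fin n → ℝ) × (Fin n → ℝ)

/-- The tangent vector at `x` pointing to `y`, of length the distance. -/
def logv (G : (Fin n → ℝ) → Matrix (Fin n) (Fin n) ℝ) (D : (Fin n → ℝ) → (Fin n → ℝ) → ℝ)
    (x y : Fin n → ℝ) : Fin n → ℝ := -grad G (D y) x

/-- `e` is the exponential map: a continuously differentiable inverse of `logv`. -/
structure IsExp (G : (Fin n → ℝ) → Matrix (Fin n) (Fin n) ℝ)
    (D : (Fin n → ℝ) → (Fin n → ℝ) → ℝ) (e : Phase n → Fin n → ℝ) : Prop where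
  contDiff : ContDiff ℝ 1 e
  logv_exp : ∀ x v, logv G D x (e (x, v)) = v
  exp_logv : ∀ x y, e (x, logv G D x y) = y

/-- The length of a tangent vector. -/
def vnorm (G : (Fin n → ℝ) → Matrix (Fin n) (Fin n) ℝ) (x v : Fin n → ℝ) : ℝ :=
  Real.sqrt (v ⬝ᵥ (G x *ᵥ v))

/-- The Gaussian weight of Lebesgue measure on the tangent space at `x`. -/
def fibre (G : (Fin n → ℝ) → Matrix (Fin n) (Fin n) ℝ) (x v : Fin n → ℝ) : ℝ :=
  dens G x * Real.exp (-(vnorm G x v ^ 2 / 2))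

/-- The Liouville measure with Gaussian weight. -/
def liou (G : (Fin n → ℝ) → Matrix (Fin n) (Fin n) ℝ) : Measure (Phase n) :=
  volume.withDensity fun p => ENNReal.ofReal (dens G p.1 * fibre G p.1 p.2)

/-- The Riemannian volume measure. -/
def volM (G : (Fin n → ℝ) → Matrix (Fin n) (Fin n) ℝ) : Measure (Fin n → ℝ) :=
  volume.withDensity fun y => ENNReal.ofReal (dens G y)

/-- The geodesic of a phase point. -/
def line (e : Phase n → Fin n → ℝ) (p : Phase n) (t : ℝ) : Fin n → ℝ := e (p.1, t • p.2)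

/-- The geodesic flow. -/
def flow (e : Phase n → Fin n → ℝ) (t : ℝ) (p : Phase n) : Phase n :=
  (line e p t, deriv (line e p) t)

/-- Reversal of the tangent vector. -/
def flip (p : Phase n) : Phase n := (p.1, -p.2)

/-- `t` is a record of `f` since its last visit below `η`. -/
def Rec (η : ℝ) (f : ℝ → ℝ) (t : ℝ) : Prop :=
  ∀ s ≤ t, f s ≤ f t ∨ ∃ z ∈ Icc s t, f z ≤ η

/-- An entry `a` and an exit `b` of `f` in the band, both records, in one excursion above `η`. -/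
def Paired (η : ℝ) (f : ℝ → ℝ) (a b : ℝ) : Prop :=
  Rec η f a ∧ Rec η (fun s => f (-s)) (-b) ∧ f a ∈ Ioo η (1 - η) ∧ f b ∈ Ioo η (1 - η) ∧
    ∀ z ∈ Icc a b, η < f z

/-- The integrand of the first variation with the weight `exp (-q D)`, per unit of `|du| dvol`;
`d` is the absolute cosine and `a` the half squared distance. -/
def rowInt (h q a d : ℝ) : ℝ :=
  (5 - 2 * q * a * (1 - d ^ 2) - h * d * Real.sqrt (2 * a)) * Real.exp (-(q * a))

/-- The absolute cosine at `y` between the gradient of `D x` and that of `u`. -/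
def acos (G : (Fin n → ℝ) → Matrix (Fin n) (Fin n) ℝ) (D : (Fin n → ℝ) → (Fin n → ℝ) → ℝ)
    (u : (Fin n → ℝ) → ℝ) (x y : Fin n → ℝ) : ℝ :=
  |normalPart G D x u y| / (conorm G y (cd u y) * Real.sqrt (2 * D x y))

/-- The pair integrand, symmetrised, in units where the mean curvature is five. -/
def pairKer (r c d : ℝ) : ℝ :=
  17 - 25 * (c + d) / r + (30 + 10 * (c ^ 2 + d ^ 2)) / r ^ 2

/-! ## Pins -/

/-- The polynomial inequality: equality for `r = 2 c = 2 d`. -/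
def PolyPin : Prop :=
  ∀ r c d : ℝ, 0 < r → 0 ≤ c → 0 ≤ d →
    360 * c * d * r - 240 * (c * d) * (c + d) - 48 * (c * d) * (c ^ 3 + d ^ 3) ≤
      r ^ 5 * pairKer r c d

/-- The one-dimensional pairing lemma. -/
def LinePin : Prop :=
  ∀ (f : ℝ → ℝ), ContDiff ℝ 1 f → HasCompactSupport f → (∀ t, f t ∈ Icc (0 : ℝ) 1) →
    ∀ η : ℝ, 0 < η → η < 1 / 2 →
    (∀ a, ∫⁻ s in Ioi (0 : ℝ), {s | Paired η f a (a + s)}.indicator
        (fun s => ENNReal.ofReal (-deriv f (a + s))) s ≤ 1) ∧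
    (∀ b, ∫⁻ s in Ioi (0 : ℝ), {s | Paired η f (b - s) b}.indicator
        (fun s => ENNReal.ofReal (deriv f (b - s))) s ≤ 1) ∧
    ENNReal.ofReal ((1 - 2 * η) ^ 2) * volume {t | 1 - η < f t} ≤
      ∫⁻ a, ∫⁻ s in Ioi (0 : ℝ), {s | Paired η f a (a + s)}.indicator
        (fun s => ENNReal.ofReal (deriv f a) * ENNReal.ofReal (-deriv f (a + s)) *
          ENNReal.ofReal s) s

/-- Geometry: the geodesic flow of the exponential map. -/
def FlowPin (n : ℕ) : Prop :=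
  ∀ (G : (Fin n → ℝ) → Matrix (Fin n) (Fin n) ℝ) (D : (Fin n → ℝ) → (Fin n → ℝ) → ℝ)
    (e : Phase n → Fin n → ℝ), IsCH G D → IsExp G D e →
    (∀ x y, D x y = D y x) ∧
    (∀ p t, HasDerivAt (line e p) (flow e t p).2 t) ∧
    (∀ p, flow e 0 p = p) ∧
    (∀ p t s, line e (flow e t p) s = line e p (t + s)) ∧
    (∀ p t s, flow e s (flow e t p) = flow e (t + s) p) ∧
    (∀ p t, line e (flip p) t = line e p (-t)) ∧
    (∀ p t, vnorm G (flow e t p).1 (flow e t p).2 = vnorm G p.1 p.2) ∧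
    (∀ p t, D p.1 (line e p t) = t ^ 2 * vnorm G p.1 p.2 ^ 2 / 2) ∧
    (∀ p t, grad G (D p.1) (line e p t) = t • (flow e t p).2) ∧
    (Continuous fun z : ℝ × Phase n => flow e z.1 z.2) ∧
    MeasurePreserving flip (liou G) (liou G) ∧
    ∀ t, MeasurePreserving (flow e t) (liou G) (liou G)

/-- The geodesic change of variables from one point, with Rauch's Jacobian bound. -/
def PolarPin : Prop :=
  ∀ (G : (Fin 6 → ℝ) → Matrix (Fin 6) (Fin 6) ℝ) (D : (Fin 6 → ℝ) → (Fin 6 → ℝ) → ℝ)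
    (e : Phase 6 → Fin 6 → ℝ), IsCH G D → IsExp G D e →
    ∀ (x : Fin 6 → ℝ) (f : (Fin 6 → ℝ) → ℝ≥0∞), Measurable f →
      ∫⁻ v, ENNReal.ofReal (fibre G x v) * ∫⁻ t in Ioi (0 : ℝ),
          f (line e (x, v) t) * ENNReal.ofReal ((t * vnorm G x v) ^ 5 * vnorm G x v) ≤
        8 * ∫⁻ y, f y ∂volM G

/-- Gaussian moments of directions. -/
def MomentPin : Prop :=
  ∀ (G : (Fin 6 → ℝ) → Matrix (Fin 6) (Fin 6) ℝ) (x ξ : Fin 6 → ℝ), (G x).PosDef →
    (∫⁻ v, ENNReal.ofReal (fibre G x v) = ENNReal.ofReal ((2 * Real.pi) ^ 3)) ∧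
    (∫⁻ v, ENNReal.ofReal (fibre G x v * (max (ξ ⬝ᵥ v) 0 / vnorm G x v) ^ 2) =
      ENNReal.ofReal ((2 * Real.pi) ^ 3 / 12 * conorm G x ξ ^ 2)) ∧
    (∫⁻ v, ENNReal.ofReal (fibre G x v * (max (ξ ⬝ᵥ v) 0 / vnorm G x v) ^ 4) =
      ENNReal.ofReal ((2 * Real.pi) ^ 3 / 32 * conorm G x ξ ^ 4))

/-- The first variation, integrated over the scales `q`: the row of a centre `x` at an almost
minimiser of dimension six. -/
def RowPin : Prop :=
  ∀ (G : (Fin 6 → ℝ) → Matrix (Fin 6) (Fin 6) ℝ) (D : (Fin 6 → ℝ) → (Fin 6 → ℝ) → ℝ), IsCH G D →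
    ∀ (o : Fin 6 → ℝ) (R M P₀ v₀ l θ Q ε : ℝ),
      0 < R → 0 ≤ M → 0 ≤ P₀ → 0 < v₀ → 0 < l → 1 < θ → 0 < Q → 0 < ε →
    ∃ δ₀ : ℝ, 0 < δ₀ ∧ ∀ u δ, 0 < δ → δ ≤ δ₀ → Comp {y | D o y ≤ R} u → per G u ≤ P₀ →
      v₀ ≤ vol G u → gap G u ≤ δ →
      (∀ u', Comp {y | D o y ≤ R} u' →
        per G u - l * vol G u ^ ((5 : ℝ) / 6) + M * gap G u ≤
          per G u' - l * vol G u' ^ ((5 : ℝ) / 6) + M * gap G u' + δ) →
      ∀ x, D o x ≤ R →
        ∫ y, (∫ q in (0 : ℝ)..Q, rowInt (l * (5 / 6) * θ * vol G u ^ (-(1 : ℝ) / 6)) q (D x y)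
          (acos G D u x y)) * (conorm G y (cd u y) * dens G y) ≤ ε

/-- The pair integral along geodesics: polar coordinates, pairing, Santalo and the moments. -/
def PairPin : Prop :=
  ∀ (G : (Fin 6 → ℝ) → Matrix (Fin 6) (Fin 6) ℝ) (D : (Fin 6 → ℝ) → (Fin 6 → ℝ) → ℝ)
    (e : Phase 6 → Fin 6 → ℝ), IsCH G D → IsExp G D e →
    ∀ (o : Fin 6 → ℝ) (R Q η s : ℝ) (u : (Fin 6 → ℝ) → ℝ),
      0 < Q → 0 < η → η < 1 / 2 → 0 < s → Comp {y | D o y ≤ R} u →
      360 * s * ((1 - 2 * η) ^ 2 * (vol G u - gap G u / η)) - 43 * per G u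
          - 360 * s / Real.sqrt Q * per G u ≤
        s ^ 5 / Real.pi ^ 3 * ∫ x, (∫ y, (1 - Real.exp (-(Q * D x y))) *
          pairKer (s * Real.sqrt (2 * D x y)) (acos G D u y x) (acos G D u x y) *
            (conorm G y (cd u y) * dens G y)) * (conorm G x (cd u x) * dens G x)

/-- The sharp inequality in dimension six. -/
def SharpSix : Prop :=
  ∀ (G : (Fin 6 → ℝ) → Matrix (Fin 6) (Fin 6) ℝ) (D : (Fin 6 → ℝ) → (Fin 6 → ℝ) → ℝ)
    (e : Phase 6 → Fin 6 → ℝ), IsCH G D → IsExp G D e →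
    ∀ (Ω : Set (Fin 6 → ℝ)) (A : ℝ), MeasurableSet Ω → Bornology.IsBounded Ω →
      PerimeterLE G Ω A →
      6 * (Real.pi ^ 3 / 6) ^ ((1 : ℝ) / 6) * volG G Ω ^ ((5 : ℝ) / 6) ≤ A

/-- The assembly. -/
def AssemblyPin : Prop := MinPin 6 → RowPin → PairPin → SharpSix

/-- The pair integral from its parts. -/
def PairAssemblyPin : Prop :=
  PolyPin → LinePin → FlowPin 6 → PolarPin → MomentPin → PairPin

end Vale.Agent.P219.CH.Six
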