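import Mathlib

/-!
# P219: iterating a descent step on a compact set

A continuous step that decreases a size by a fixed factor and moves by at most a multiple of the
size retracts a compact set onto the zeros of the size. Two zeros in a preconnected part of the
set therefore agree when the zeros are isolated.
-/

noncomputable section

open Set Filter Topology

namespace Vale.Agent.P219.CH.Six.Descent

variable {X : Type*} [MetricSpace X] [CompleteSpace X] {K : Set X} {T : X → X} {e : X → ℝ} {q C : ℝ}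

omit [MetricSpace X] [CompleteSpace X] in
lemma size_iterate (hT : MapsTo T K K) (hq : 0 ≤ q) (hdec : ∀ z ∈ K, e (T z) ≤ q * e z) {z : X}
    (hz : z ∈ K) : ∀ k, T^[k] z ∈ K ∧ e (T^[k] z) ≤ q ^ k * e z
  | 0 => ⟨by simpa using hz, by simp⟩
  | k + 1 => by
    obtain ⟨h1, h2⟩ := size_iterate hT hq hdec hz k
    rw [Function.iterate_succ_apply']
    exact ⟨hT h1, (hdec _ h1).trans ((mul_le_mul_of_nonneg_left h2 hq).trans_eq (by ring))⟩

omit [CompleteSpace X] in
lemma step_iterate (hT : MapsTo T K K) (hq : 0 ≤ q) (hC : 0 ≤ C)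
    (hdec : ∀ z ∈ K, e (T z) ≤ q * e z) (hstep : ∀ z ∈ K, dist z (T z) ≤ C * e z) {z : X}
    (hz : z ∈ K) (k : ℕ) : dist (T^[k] z) (T^[k + 1] z) ≤ C * e z * q ^ k := by
  obtain ⟨h1, h2⟩ := size_iterate hT hq hdec hz k
  rw [Function.iterate_succ_apply']
  exact (hstep _ h1).trans ((mul_le_mul_of_nonneg_left h2 hC).trans_eq (by ring))

/-- From every starting point some zero of the size is reached. -/
theorem exists_zero (hK : IsCompact K) (hT : MapsTo T K K) (he : ContinuousOn e K)
    (h0 : ∀ z ∈ K, 0 ≤ e z) (hq : 0 ≤ q) (hq1 : q < 1) (hC : 0 ≤ C)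
    (hdec : ∀ z ∈ K, e (T z) ≤ q * e z) (hstep : ∀ z ∈ K, dist z (T z) ≤ C * e z) {z : X}
    (hz : z ∈ K) :
    ∃ a ∈ K, Tendsto (fun k => T^[k] z) atTop (𝓝 a) ∧ e a = 0 := by
  obtain ⟨a, ha⟩ := cauchySeq_tendsto_of_complete
    (cauchySeq_of_le_geometric q (C * e z) hq1 fun k => step_iterate hT hq hC hdec hstep hz k)
  have hmem : ∀ k, T^[k] z ∈ K := fun k => (size_iterate hT hq hdec hz k).1
  have haK : a ∈ K := hK.isClosed.mem_of_tendsto ha (Eventually.of_forall hmem)
  refine ⟨a, haK, ha, le_antisymm ?_ (h0 a haK)⟩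
  have h1 : Tendsto (fun k => e (T^[k] z)) atTop (𝓝 (e a)) :=
    (he a haK).tendsto.comp (tendsto_nhdsWithin_iff.2 ⟨ha, Eventually.of_forall hmem⟩)
  have h2 : Tendsto (fun k => q ^ k * e z) atTop (𝓝 0) := by
    simpa using (tendsto_pow_atTop_nhds_zero_of_lt_one hq hq1).mul_const (e z)
  exact le_of_tendsto_of_tendsto h1 h2
    (Eventually.of_forall fun k => (size_iterate hT hq hdec hz k).2)

/-- Isolated zeros in a preconnected part of the set agree. -/
theorem eq_of_zeros (hK : IsCompact K) (hT : MapsTo T K K) (hTc : ContinuousOn T K)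
    (he : ContinuousOn e K) (h0 : ∀ z ∈ K, 0 ≤ e z) (hq : 0 ≤ q) (hq1 : q < 1) (hC : 0 ≤ C)
    (hdec : ∀ z ∈ K, e (T z) ≤ q * e z) (hstep : ∀ z ∈ K, dist z (T z) ≤ C * e z)
    (hiso : ∀ z ∈ K, e z = 0 → ∀ᶠ w in 𝓝[≠] z, e w ≠ 0) {S : Set X} (hS : IsPreconnected S)
    (hSK : S ⊆ K) {x y : X} (hx : x ∈ S) (hy : y ∈ S) (ex : e x = 0) (ey : e y = 0) : x = y := by
  have hex : ∀ z ∈ K, ∃ a ∈ K, Tendsto (fun k => T^[k] z) atTop (𝓝 a) ∧ e a = 0 := fun z hz =>
    exists_zero hK hT he h0 hq hq1 hC hdec hstep hz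
  choose! L hLK hLt hL0 using hex
  have hiter : ∀ k, ContinuousOn (fun z => T^[k] z) K := by
    intro k
    induction k with
    | zero => exact continuousOn_id
    | succ k ih =>
      simp only [Function.iterate_succ_apply']
      exact hTc.comp ih fun z hz => (size_iterate hT hq hdec hz k).1
  obtain ⟨E, hE⟩ := hK.bddAbove_image he
  have hu : TendstoUniformlyOn (fun k z => T^[k] z) L atTop K := by
    rw [Metric.tendstoUniformlyOn_iff]
    intro ε hε
    have h2 : Tendsto (fun k => C * E * q ^ k / (1 - q)) atTop (𝓝 0) := by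
      simpa using ((tendsto_pow_atTop_nhds_zero_of_lt_one hq hq1).const_mul (C * E)).div_const (1 - q)
    filter_upwards [h2.eventually (eventually_lt_nhds hε)] with k hk z hz
    rw [dist_comm]
    refine lt_of_le_of_lt (dist_le_of_le_geometric_of_tendsto q (C * e z) hq1
      (fun j => step_iterate hT hq hC hdec hstep hz j) (hLt z hz) k) (lt_of_le_of_lt ?_ hk)
    have : e z ≤ E := hE ⟨z, hz, rfl⟩
    have : 0 < 1 - q := by linarith
    gcongr
  have hLc : ContinuousOn L K := hu.continuousOn (Frequently.of_forall hiter)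
  set Z := {z | z ∈ K ∧ e z = 0} with hZ
  have hfix : ∀ z ∈ Z, L z = z := by
    intro z hz
    have hT1 : T z = z := by
      have h1 := hstep z hz.1
      rw [hz.2, mul_zero] at h1
      exact (dist_le_zero.1 h1).symm
    refine tendsto_nhds_unique (hLt z hz.1) ?_
    simp only [Function.iterate_fixed hT1]
    exact tendsto_const_nhds
  have hd : IsDiscrete Z := by
    rw [isDiscrete_iff_nhdsNE]
    intro z hz
    rw [inf_principal_eq_bot]
    filter_upwards [hiso z hz.1 hz.2] with w hw hwZ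
    exact hw hwZ.2
  have h1 := hS.constant_of_mapsTo hd (hLc.mono hSK)
    (fun z hz => ⟨hLK z (hSK hz), hL0 z (hSK hz)⟩) hx hy
  rwa [hfix x ⟨hSK hx, ex⟩, hfix y ⟨hSK hy, ey⟩] at h1

end Vale.Agent.P219.CH.Six.Descent
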