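import Vale.Agent.P219.Six.Defs
import Vale.Agent.P219.Bend.Defs
import Vale.Agent.P219.CH.Flat

/-!
# The unit ball of six-dimensional space and the exponential map of the flat metric
-/

noncomputable section

open MeasureTheory Set Filter Topology Matrix

namespace Vale.Agent.P219.CH.Six

lemma unitBall_six : Bend.unitBall 6 = Real.pi ^ 3 / 6 := by
  rw [Bend.unitBall, EuclideanSpace.volume_ball]
  have hg : Real.Gamma (((6 : ℕ) : ℝ) / 2 + 1) = 6 := by
    rw [show (((6 : ℕ) : ℝ) / 2 + 1) = ((3 : ℕ) : ℝ) + 1 by norm_num, Real.Gamma_nat_eq_factorial]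
    norm_num [Nat.factorial]
  simp only [ENNReal.ofReal_one, one_pow, one_mul, Fintype.card_fin, hg]
  rw [ENNReal.toReal_ofReal (by positivity)]
  rw [show Real.sqrt Real.pi ^ 6 = (Real.sqrt Real.pi ^ 2) ^ 3 by ring,
    Real.sq_sqrt Real.pi_pos.le]

lemma isExp_flat (n : ℕ) : IsExp (flatG n) (flatD n) (fun p : Phase n => p.1 + p.2) where
  contDiff := contDiff_fst.add contDiff_snd
  logv_exp x v := by
    funext i
    simp [logv, grad, flatG, cd_flatD]
  exp_logv x y := by
    funext i
    simp [logv, grad, flatG, cd_flatD]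

end Vale.Agent.P219.CH.Six
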