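import Vale.Agent.P219.Six.Defs

/-!
# P219: Gaussian moments of directions in six dimensions

By symmetry alone: the squares of the six coordinates of a direction have equal means, and the
fourth moment is three times the mixed one.
-/

noncomputable section

open MeasureTheory Set Filter Topology Matrix
open scoped ENNReal RealInnerProductSpace MatrixOrder

namespace Vale.Agent.P219.CH.Six

namespace Moment

/-- Six-dimensional Euclidean space. -/
abbrev E6 := EuclideanSpace ℝ (Fin 6)

/-- The Gaussian weight. -/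
def phi (w : E6) : ℝ := Real.exp (-(1 / 2) * ‖w‖ ^ 2)

/-- The Gaussian weight times a product of direction cosines. -/
def mom (g : E6 → ℝ) : ℝ := ∫ w, phi w * g w

theorem integrable_phi : Integrable phi := by
  refine Integrable.of_integral_ne_zero ?_
  rw [show phi = fun w : E6 => Real.exp (-(1 / 2) * ‖w‖ ^ 2) from rfl,
    GaussianFourier.integral_rexp_neg_mul_sq_norm (V := E6) (b := 1 / 2) (by norm_num)]
  positivity

theorem mom_one : mom (fun _ => 1) = (2 * Real.pi) ^ 3 := by
  simp only [mom, mul_one, phi]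
  rw [GaussianFourier.integral_rexp_neg_mul_sq_norm (V := E6) (b := 1 / 2) (by norm_num),
    finrank_euclideanSpace_fin, show ((6 : ℕ) : ℝ) / 2 = ((3 : ℕ) : ℝ) by norm_num,
    Real.rpow_natCast]
  congr 1
  ring

/-- The cosine of a direction with a fixed vector, times the length of the vector. -/
def dir (η w : E6) : ℝ := ⟪η, w⟫ / ‖w‖

theorem abs_dir_le (η w : E6) : |dir η w| ≤ ‖η‖ := by
  rw [dir, abs_div, abs_norm]
  rcases eq_or_ne w 0 with rfl | hw
  · simp
  · rw [div_le_iff₀ (norm_pos_iff.2 hw)]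
    exact abs_real_inner_le_norm η w

theorem measurable_dir (η : E6) : Measurable (dir η) :=
  (continuous_const.inner continuous_id).measurable.div measurable_norm

theorem integrable_of_bound {g : E6 → ℝ} (hg : Measurable g) {c : ℝ} (hc : ∀ w, |g w| ≤ c) :
    Integrable fun w => phi w * g w :=
  integrable_phi.mul_bdd (c := c) hg.aestronglyMeasurable
    (Eventually.of_forall fun w => by rw [Real.norm_eq_abs]; exact hc w)

theorem integrable_dir_pow (η : E6) (k : ℕ) : Integrable fun w => phi w * dir η w ^ k :=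
  integrable_of_bound ((measurable_dir η).pow_const k) fun w => by
    rw [abs_pow]
    exact pow_le_pow_left₀ (abs_nonneg _) (abs_dir_le η w) k

theorem integrable_dir_mul (η ζ : E6) : Integrable fun w => phi w * (dir η w ^ 2 * dir ζ w ^ 2) :=
  integrable_of_bound (((measurable_dir η).pow_const 2).mul ((measurable_dir ζ).pow_const 2))
    fun w => by
      rw [abs_mul, abs_pow, abs_pow]
      exact mul_le_mul (pow_le_pow_left₀ (abs_nonneg _) (abs_dir_le η w) 2)
        (pow_le_pow_left₀ (abs_nonneg _) (abs_dir_le ζ w) 2) (by positivity) (by positivity)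

theorem mom_isometry (L : E6 ≃ₗᵢ[ℝ] E6) (g : E6 → ℝ) : mom (fun w => g (L w)) = mom g := by
  have h := L.measurePreserving.integral_comp L.toHomeomorph.measurableEmbedding
    (fun w => phi w * g w)
  simpa [mom, phi] using h

theorem mom_dir_isometry (L : E6 ≃ₗᵢ[ℝ] E6) (η : E6) (k : ℕ) :
    mom (fun w => dir (L η) w ^ k) = mom (fun w => dir η w ^ k) := by
  rw [← mom_isometry L (fun w => dir (L η) w ^ k)]
  simp [dir]

theorem mom_dir_smul (c : ℝ) (η : E6) (k : ℕ) :
    mom (fun w => dir (c • η) w ^ k) = c ^ k * mom (fun w => dir η w ^ k) := by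
  simp only [mom, dir, ← integral_const_mul]
  refine integral_congr_ae (Eventually.of_forall fun w => ?_)
  simp only [real_inner_smul_left, mul_div_assoc, mul_pow]
  ring

/-- A coordinate vector. -/
def e (i : Fin 6) : E6 := EuclideanSpace.single i 1

theorem norm_e (i : Fin 6) : ‖e i‖ = 1 := by simp [e]

theorem mom_dir_eq (η : E6) (i : Fin 6) (k : ℕ) :
    mom (fun w => dir η w ^ k) = ‖η‖ ^ k * mom (fun w => dir (e i) w ^ k) := by
  have h : ‖η‖ = ‖‖η‖ • e i‖ := by simp [norm_smul, norm_e]
  rw [← mom_dir_smul, ← mom_dir_isometry (ℝ ∙ (η - ‖η‖ • e i))ᗮ.reflection η k,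
    Submodule.reflection_sub h]

theorem dir_e (i : Fin 6) (w : E6) : dir (e i) w = w i / ‖w‖ := by
  simp [dir, e, EuclideanSpace.inner_single_left]

theorem ae_sum_sq : ∀ᵐ w : E6, ∑ i, dir (e i) w ^ 2 = 1 := by
  filter_upwards [Measure.ae_ne volume (0 : E6)] with w hw
  have h : ∑ i, w i ^ 2 = ‖w‖ ^ 2 := by
    rw [EuclideanSpace.norm_sq_eq]
    simp [Real.norm_eq_abs, sq_abs]
  simp only [dir_e, div_pow, ← Finset.sum_div, h]
  exact div_self (pow_ne_zero 2 (norm_ne_zero_iff.2 hw))

theorem mom_e_two (i : Fin 6) : mom (fun w => dir (e i) w ^ 2) = (2 * Real.pi) ^ 3 / 6 := by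
  have h : ∑ j, mom (fun w => dir (e j) w ^ 2) = (2 * Real.pi) ^ 3 := by
    rw [← mom_one]
    simp only [mom]
    rw [← integral_finsetSum _ fun j _ => integrable_dir_pow (e j) 2]
    refine integral_congr_ae (ae_sum_sq.mono fun w hw => ?_)
    simp only [← Finset.mul_sum, hw, mul_one]
  have h' : ∀ j, mom (fun w => dir (e j) w ^ 2) = mom (fun w => dir (e i) w ^ 2) := fun j => by
    rw [mom_dir_eq (e j) i 2, norm_e, one_pow, one_mul]
  simp only [h', Finset.sum_const, Finset.card_univ, Fintype.card_fin, nsmul_eq_mul] at h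
  push_cast at h
  linarith

theorem mom_mixed {i j : Fin 6} (hij : i ≠ j) :
    3 * mom (fun w => dir (e i) w ^ 2 * dir (e j) w ^ 2) = mom (fun w => dir (e i) w ^ 4) := by
  have hn : ∀ s : ℝ, s ^ 2 = 1 → ‖e i + s • e j‖ ^ 4 = 4 := fun s hs => by
    have h : ‖e i + s • e j‖ ^ 2 = 2 := by
      rw [norm_add_sq_real, real_inner_smul_right, norm_smul, norm_e, norm_e, mul_one,
        Real.norm_eq_abs, sq_abs, hs]
      simp [e, EuclideanSpace.inner_single_left, hij]
      norm_num
    rw [show ‖e i + s • e j‖ ^ 4 = (‖e i + s • e j‖ ^ 2) ^ 2 by ring, h]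
    norm_num
  have h1 := mom_dir_eq (e i + (1 : ℝ) • e j) i 4
  have h2 := mom_dir_eq (e i + (-1 : ℝ) • e j) i 4
  rw [hn 1 (by norm_num)] at h1
  rw [hn (-1) (by norm_num)] at h2
  have hj : mom (fun w => dir (e j) w ^ 4) = mom (fun w => dir (e i) w ^ 4) := by
    rw [mom_dir_eq (e j) i 4, norm_e, one_pow, one_mul]
  have hsum : mom (fun w => dir (e i + (1 : ℝ) • e j) w ^ 4) +
      mom (fun w => dir (e i + (-1 : ℝ) • e j) w ^ 4) =
      2 * mom (fun w => dir (e i) w ^ 4) + 2 * mom (fun w => dir (e j) w ^ 4) +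
        12 * mom (fun w => dir (e i) w ^ 2 * dir (e j) w ^ 2) := by
    simp only [mom]
    rw [← integral_add (integrable_dir_pow _ 4) (integrable_dir_pow _ 4), ← integral_const_mul,
      ← integral_const_mul, ← integral_const_mul,
      ← integral_add ((integrable_dir_pow _ 4).const_mul 2) ((integrable_dir_pow _ 4).const_mul 2)]
    have hab : Integrable fun w => 2 * (phi w * dir (e i) w ^ 4) + 2 * (phi w * dir (e j) w ^ 4) :=
      ((integrable_dir_pow _ 4).const_mul 2).add ((integrable_dir_pow _ 4).const_mul 2)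
    rw [← integral_add hab ((integrable_dir_mul _ _).const_mul 12)]
    refine integral_congr_ae (Eventually.of_forall fun w => ?_)
    simp only [dir, inner_add_left, real_inner_smul_left]
    ring
  linarith

theorem mom_e_four (i : Fin 6) : mom (fun w => dir (e i) w ^ 4) = (2 * Real.pi) ^ 3 / 16 := by
  have h : ∑ j, ∑ k, mom (fun w => dir (e j) w ^ 2 * dir (e k) w ^ 2) = (2 * Real.pi) ^ 3 := by
    rw [← mom_one]
    simp only [mom]
    simp_rw [← integral_finsetSum _ fun k (_ : k ∈ Finset.univ) => integrable_dir_mul (e _) (e k)]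
    rw [← integral_finsetSum _ fun j _ =>
      integrable_finsetSum _ fun k _ => integrable_dir_mul (e j) (e k)]
    refine integral_congr_ae (ae_sum_sq.mono fun w hw => ?_)
    simp only [← Finset.mul_sum, hw, mul_one]
  have hval : ∀ j k, mom (fun w => dir (e j) w ^ 2 * dir (e k) w ^ 2) =
      (if j = k then 1 else 1 / 3) * mom (fun w => dir (e i) w ^ 4) := fun j k => by
    have hj : mom (fun w => dir (e j) w ^ 4) = mom (fun w => dir (e i) w ^ 4) := by
      rw [mom_dir_eq (e j) i 4, norm_e, one_pow, one_mul]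
    split_ifs with hjk
    · subst hjk
      rw [one_mul, ← hj]
      congr 1
      funext w
      ring
    · rw [← hj, ← mom_mixed hjk]
      ring
  have hite : ∀ j k : Fin 6, (if j = k then (1 : ℝ) else 1 / 3) =
      1 / 3 + if j = k then (2 / 3 : ℝ) else 0 := fun j k => by split_ifs <;> norm_num
  simp only [hval, hite, ← Finset.sum_mul, Finset.sum_add_distrib, Finset.sum_ite_eq,
    Finset.mem_univ, if_true, Finset.sum_const, Finset.card_univ, Fintype.card_fin,
    nsmul_eq_mul] at h
  push_cast at h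
  linarith

theorem mom_pos_part (η : E6) {k : ℕ} (hk : Even k) (hk0 : k ≠ 0) :
    mom (fun w => max (dir η w) 0 ^ k) = mom (fun w => dir η w ^ k) / 2 := by
  have hi : ∀ ζ : E6, Integrable fun w => phi w * max (dir ζ w) 0 ^ k := fun ζ =>
    integrable_of_bound (c := ‖ζ‖ ^ k) (((measurable_dir ζ).max measurable_const).pow_const k) fun w => by
      rw [abs_pow]
      refine pow_le_pow_left₀ (abs_nonneg _) ?_ k
      rw [abs_of_nonneg (le_max_right _ _)]
      exact max_le ((le_abs_self _).trans (abs_dir_le ζ w)) (norm_nonneg ζ)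
  have e1 : mom (fun w => max (-dir η w) 0 ^ k) = mom (fun w => max (dir η w) 0 ^ k) := by
    rw [← mom_isometry (LinearIsometryEquiv.neg ℝ) (fun w => max (dir η w) 0 ^ k)]
    simp [dir, neg_div]
  have e2 : mom (fun w => max (dir η w) 0 ^ k) + mom (fun w => max (-dir η w) 0 ^ k) =
      mom (fun w => dir η w ^ k) := by
    simp only [mom]
    rw [← integral_add (hi η) (by simpa [dir, neg_div] using hi (-η))]
    refine integral_congr_ae (Eventually.of_forall fun w => ?_)
    rcases le_total 0 (dir η w) with h | h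
    · simp [max_eq_left h, max_eq_right (neg_nonpos.2 h), zero_pow hk0]
    · simp [max_eq_right h, max_eq_left (neg_nonneg.2 h), zero_pow hk0, hk.neg_pow]
  linarith

end Moment

open Moment

/-- The moment pin. -/
theorem momentPin : MomentPin := by
  intro G x ξ hM
  set B := CFC.sqrt (G x)
  have hBB : B * B = G x := CFC.sqrt_mul_sqrt_self (G x) hM.posSemidef.nonneg
  have hBs : Bᵀ = B := by
    have := (CFC.sqrt_nonneg (G x)).posSemidef.isHermitian.eq
    rwa [Matrix.conjTranspose_eq_transpose_of_trivial] at this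
  have hdet : B.det * B.det = (G x).det := by rw [← det_mul, hBB]
  have hB0 : B.det ≠ 0 := fun h => hM.det_pos.ne' (by rw [← hdet, h, mul_zero])
  have hdens : dens G x = |B.det| := by
    rw [dens, ← hdet, Real.sqrt_mul_self_eq_abs]
  set η : E6 := WithLp.toLp 2 (B⁻¹ *ᵥ ξ)
  have hvn : ∀ v, vnorm G x v = ‖WithLp.toLp 2 (B *ᵥ v)‖ := fun v => by
    rw [vnorm, ← hBB, ← Matrix.mulVec_mulVec, EuclideanSpace.norm_eq]
    congr 1
    rw [dotProduct_mulVec, ← mulVec_transpose, hBs]
    simp [dotProduct, sq]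
  have hin : ∀ v, ξ ⬝ᵥ v = ⟪η, WithLp.toLp 2 (B *ᵥ v)⟫ := fun v => by
    rw [EuclideanSpace.inner_toLp_toLp, star_trivial, dotProduct_comm, dotProduct_mulVec,
      ← mulVec_transpose, Matrix.transpose_nonsing_inv, hBs, Matrix.mulVec_mulVec,
      Matrix.nonsing_inv_mul _ (Ne.isUnit hB0),
      Matrix.one_mulVec, dotProduct_comm]
  have hco : conorm G x ξ = ‖η‖ := by
    have hBi : B⁻¹ᵀ = B⁻¹ := by rw [Matrix.transpose_nonsing_inv, hBs]
    rw [conorm, pairing, ← hBB, Matrix.mul_inv_rev, ← Matrix.mulVec_mulVec, EuclideanSpace.norm_eq]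
    congr 1
    rw [dotProduct_mulVec, ← mulVec_transpose, hBi]
    simp [η, dotProduct, sq]
  have main : ∀ g : E6 → ℝ, Measurable g → (∀ w, 0 ≤ g w) → Integrable (fun w => phi w * g w) →
      ∫⁻ v, ENNReal.ofReal (fibre G x v * g (WithLp.toLp 2 (B *ᵥ v))) =
        ENNReal.ofReal (mom g) := fun g hg h0 hi => by
    have hm : Measurable fun v : Fin 6 → ℝ => ENNReal.ofReal (phi (WithLp.toLp 2 v) *
        g (WithLp.toLp 2 v)) := by
      have : Measurable phi := by unfold phi; fun_prop
      exact ((this.comp (WithLp.measurable_toLp 2 _)).mul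
        (hg.comp (WithLp.measurable_toLp 2 _))).ennreal_ofReal
    have e1 : ∀ v, ENNReal.ofReal (fibre G x v * g (WithLp.toLp 2 (B *ᵥ v))) =
        ENNReal.ofReal |B.det| * ENNReal.ofReal (phi (WithLp.toLp 2 (B *ᵥ v)) *
          g (WithLp.toLp 2 (B *ᵥ v))) := fun v => by
      rw [← ENNReal.ofReal_mul (abs_nonneg _)]
      congr 1
      rw [fibre, hdens, hvn, phi]
      ring_nf
    simp only [e1]
    rw [lintegral_const_mul' _ _ ENNReal.ofReal_ne_top]
    have hmap := Real.map_matrix_volume_pi_eq_smul_volume_pi (M := B) hB0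
    have e2 : ∫⁻ v, ENNReal.ofReal (phi (WithLp.toLp 2 (B *ᵥ v)) * g (WithLp.toLp 2 (B *ᵥ v))) =
        ∫⁻ v, ENNReal.ofReal (phi (WithLp.toLp 2 v) * g (WithLp.toLp 2 v))
          ∂(Measure.map (toLin' B) volume) := by
      rw [lintegral_map hm (LinearMap.continuous_of_finiteDimensional _).measurable]
      simp [Matrix.toLin'_apply]
    rw [e2, hmap, lintegral_smul_measure, smul_eq_mul, ← mul_assoc,
      ← ENNReal.ofReal_mul (abs_nonneg _), ← abs_mul, mul_inv_cancel₀ hB0, abs_one,
      ENNReal.ofReal_one, one_mul,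
      ← (PiLp.volume_preserving_ofLp (Fin 6)).lintegral_comp hm, mom,
      ofReal_integral_eq_lintegral_ofReal hi
        (Eventually.of_forall fun w => mul_nonneg (Real.exp_pos _).le (h0 w))]
  have hm2 : ∀ k : ℕ, Even k → k ≠ 0 → ∫⁻ v, ENNReal.ofReal
      (fibre G x v * (max (ξ ⬝ᵥ v) 0 / vnorm G x v) ^ k) =
      ENNReal.ofReal (mom (fun w => dir η w ^ k) / 2) := fun k hk hk0 => by
    have e : ∀ v, (max (ξ ⬝ᵥ v) 0 / vnorm G x v) ^ k =
        max (dir η (WithLp.toLp 2 (B *ᵥ v))) 0 ^ k := fun v => by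
      rw [hvn, hin, dir]
      congr 1
      rw [← max_div_div_right (norm_nonneg _), zero_div]
    simp only [e]
    rw [main _ (((measurable_dir η).max measurable_const).pow_const k) (fun w => by positivity),
      mom_pos_part η hk hk0]
    exact integrable_of_bound (c := ‖η‖ ^ k) (((measurable_dir η).max measurable_const).pow_const k) fun w => by
      rw [abs_pow]
      refine pow_le_pow_left₀ (abs_nonneg _) ?_ k
      rw [abs_of_nonneg (le_max_right _ _)]
      exact max_le ((le_abs_self _).trans (abs_dir_le η w)) (norm_nonneg η)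
  refine ⟨?_, ?_, ?_⟩
  · have h := main (fun _ => 1) measurable_const (fun _ => zero_le_one)
      (by simpa using integrable_phi)
    simpa [mom_one] using h
  · rw [hm2 2 even_two two_ne_zero, mom_dir_eq η 0 2, mom_e_two, hco]
    congr 1
    ring
  · rw [hm2 4 (by decide) (by norm_num), mom_dir_eq η 0 4, mom_e_four, hco]
    congr 1
    ring

end Vale.Agent.P219.CH.Six
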