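import Vale.Agent.P219.Six.PairReal

/-!
# The pair integral from pairing, polar coordinates, flow invariance and moments
-/

noncomputable section

open MeasureTheory Set Filter Topology Matrix
open scoped ENNReal

namespace Vale.Agent.P219.CH.Six

/-- The pair integral from its parts. -/
theorem pairAssembly : PairAssemblyPin := by
  intro hpoly hline hflow hpolar hmom G D e h he o R Q η s u hQ hη hη2 hs hu
  obtain ⟨hI, hIE⟩ := ofReal_pair_integral h hu hQ hs
  have hB := (measurable_pairB (Q := Q) (s := s) h hu.1).ennreal_ofReal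
  have : SFinite (volM G) := by unfold volM; infer_instance
  set κ : ℝ := 360 * s / Real.sqrt Q
  have hκ : 0 ≤ κ := by positivity
  set PK : Phase 6 × ℝ → ℝ≥0∞ := fun z => ENNReal.ofReal (pairB G D u Q s z.1.1 (line e z.1 z.2)) *
    ENNReal.ofReal ((z.2 * vnorm G z.1.1 z.1.2) ^ 5 * vnorm G z.1.1 z.1.2)
  have hNm : Measurable fun z : Phase 6 × ℝ => vnorm G z.1.1 z.1.2 :=
    h.continuous_vnorm.measurable.comp measurable_fst
  have hPK : Measurable PK :=
    (hB.comp ((measurable_fst.comp measurable_fst).prodMk he.continuous_line.measurable)).mul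
      (((measurable_snd.mul hNm).pow_const 5).mul hNm).ennreal_ofReal
  have hPKi : Measurable fun p => ∫⁻ t in Ioi (0 : ℝ), PK (p, t) := hPK.lintegral_prod_right'
  have hpol : ∫⁻ p, (∫⁻ t in Ioi (0 : ℝ), PK (p, t)) ∂liou G ≤
      8 * ∫⁻ x, (∫⁻ y, ENNReal.ofReal (pairB G D u Q s x y) ∂volM G) ∂volM G := by
    rw [pair_lintegral_liou h hPKi, ← lintegral_const_mul _ (hB.lintegral_prod_right' (ν := volM G))]
    exact lintegral_mono fun x =>
      hpolar G D e h he x (fun y => ENNReal.ofReal (pairB G D u Q s x y))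
        (measurable_pairB_left h hu.1 x).ennreal_ofReal
  have hA := measurable_pairA (η := η) hflow h he hu.1
  have hW := (hA.mul ((measurable_pairW h hu.1 κ).comp measurable_fst))
  have hmain : ENNReal.ofReal (360 * s) * ∫⁻ p, pairH e u η p ∂liou G ≤
      ENNReal.ofReal (s ^ 5) * (8 * ∫⁻ x, (∫⁻ y, ENNReal.ofReal (pairB G D u Q s x y) ∂volM G) ∂volM G) +
        ENNReal.ofReal ((2 * Real.pi) ^ 3 * (κ + 43 / 2) * per G u) +
        ENNReal.ofReal ((2 * Real.pi) ^ 3 * (0 + 43 / 2) * per G u) := by
    refine le_trans ?_ (add_le_add (add_le_add (mul_le_mul_right hpol _)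
      (lintegral_entries_le hline hflow hmom h he hu hη hη2 hκ))
      (lintegral_exits_le hline hflow hmom h he hu hη hη2 le_rfl))
    have hWi : Measurable fun p => ∫⁻ t in Ioi (0 : ℝ), pairA e u η (p, t) * pairW G u κ p :=
      hW.lintegral_prod_right'
    rw [← lintegral_const_mul _ (measurable_pairH hflow h he hu.1),
      ← lintegral_const_mul _ hPKi, ← lintegral_add_left (hPKi.const_mul _),
      ← lintegral_add_left ((hPKi.const_mul _).fun_add hWi)]
    refine lintegral_mono fun p => ?_
    have m1 : Measurable fun t => PK (p, t) := hPK.comp measurable_prodMk_left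
    have m2 : Measurable fun t => pairA e u η (p, t) * pairW G u κ p :=
      (hA.comp measurable_prodMk_left).mul_const _
    simp only [pairH]
    rw [← lintegral_const_mul' _ _ ENNReal.ofReal_ne_top, ← lintegral_const_mul _ m1,
      ← lintegral_add_left (m1.const_mul _), ← lintegral_add_left ((m1.const_mul _).fun_add m2)]
    exact setLIntegral_mono' measurableSet_Ioi fun t ht => pairA_le hpoly hflow h he hQ hs p ht
  rw [← hIE] at hmain
  have hall := (mul_le_mul_right (le_lintegral_pairH hline hflow hmom h he hu hη hη2) _).trans hmain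
  generalize ∫ x, (∫ y, (1 - Real.exp (-(Q * D x y))) *
    pairKer (s * Real.sqrt (2 * D x y)) (acos G D u y x) (acos G D u x y) *
      (conorm G y (cd u y) * dens G y)) * (conorm G x (cd u x) * dens G x) = I at hall hI ⊢
  have hP0 := h.per_nonneg u
  rw [show (8 : ℝ≥0∞) = ENNReal.ofReal 8 by simp, ← ENNReal.ofReal_mul (by norm_num : (0 : ℝ) ≤ 8),
    ← ENNReal.ofReal_mul (pow_nonneg hs.le 5), ← ENNReal.ofReal_mul (by positivity),
    ← ENNReal.ofReal_add (by positivity) (by positivity),
    ← ENNReal.ofReal_add (by positivity) (by positivity),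
    ENNReal.ofReal_le_ofReal_iff (by positivity)] at hall
  have hpi : 0 < Real.pi ^ 3 := by positivity
  rw [div_mul_eq_mul_div (s ^ 5), le_div_iff₀ hpi]
  simp only [κ] at hall
  have e8 : (2 * Real.pi) ^ 3 = 8 * Real.pi ^ 3 := by ring
  rw [e8] at hall
  linarith

end Vale.Agent.P219.CH.Six
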