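import Vale.Agent.P219.Six.Defs
import Vale.Agent.P219.CH.Main
import Vale.Agent.P219.CH.Variation
import Vale.Agent.P219.CH.VarDefect

/-!
# P219: the row of a centre at an almost minimiser, integrated over the Gaussian scales
-/

noncomputable section

open MeasureTheory Set Filter Topology Matrix

namespace Vale.Agent.P219.CH.Six

variable {n : ℕ} {G : (Fin n → ℝ) → Matrix (Fin n) (Fin n) ℝ}
  {D : (Fin n → ℝ) → (Fin n → ℝ) → ℝ} {K : Set (Fin n → ℝ)}

/-- The first variation at an almost minimiser, keeping the normal part. -/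
theorem row_step (h : IsCH G D) (hn : 2 ≤ n) {m α : ℝ} (hm : m = (n : ℝ) - 1)
    (hαm : α = m / n) (hK : IsCompact K) {x : Fin n → ℝ} {u u' : (Fin n → ℝ) → ℝ}
    (hu : Comp K u) {B : ℝ} (hB : ∀ y ∈ K, D x y ≤ B)
    {s t e l M C δ θ r v₀ P₀ Fm hh hmax : ℝ} (ht0 : 0 < t) (he : 0 ≤ e) (hl : 0 ≤ l)
    (hM : 0 ≤ M) (hC : 0 ≤ C) (hθ1 : 1 < θ) (hr : r = θ ^ (-(n : ℝ))) (hv₀ : 0 < v₀)
    (hVu : v₀ ≤ vol G u) (hPu : per G u ≤ P₀) (hFm : Fm = Real.sqrt (2 * B) * P₀ + e * P₀ + 1)
    (hFm0 : 0 < Fm) (ht : t ≤ (1 - r) * v₀ / Fm)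
    (hhh : hh = l * α * θ * vol G u ^ (α - 1)) (hhmax' : hh ≤ hmax) (hgu : gap G u ≤ δ)
    (hper : per G u' ≤ per G u
      - t * (m * gQ G D x s u - 2 * gMom G D x s u + gNormal G D x s u) + t * e * per G u)
    (hvol : vol G u - t * gFlux G D x s u - t * e * per G u ≤ vol G u')
    (hgap' : gap G u' ≤ (1 + C * t) * gap G u)
    (hopt : per G u - l * vol G u ^ α + M * gap G u ≤
      per G u' - l * vol G u' ^ α + M * gap G u' + δ) :
    m * gQ G D x s u - 2 * gMom G D x s u + gNormal G D x s u - hh * gFlux G D x s u ≤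
      e * P₀ * (1 + hmax) + M * C * δ + δ / t := by
  have hn2 : (2 : ℝ) ≤ n := by exact_mod_cast hn
  have hθ0 : 0 < θ := by linarith
  have hmp : 0 < m := by linarith
  have hα0 : 0 < α := by rw [hαm]; positivity
  have hα1 : α ≤ 1 := by rw [hαm, div_le_one (by linarith)]; linarith
  have hr0 : 0 < r := by rw [hr]; positivity
  have hr1 : r < 1 := hr ▸ Real.rpow_lt_one_of_one_lt_of_neg hθ1 (by linarith)
  obtain ⟨V, hV⟩ : ∃ V : ℝ, V = vol G u := ⟨_, rfl⟩
  rw [← hV] at hVu hhh hopt hvol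
  have hV0 : 0 < V := hv₀.trans_le hVu
  obtain ⟨d, hd⟩ : ∃ d : ℝ, d = t * gFlux G D x s u + t * e * per G u := ⟨_, rfl⟩
  have hP := h.per_nonneg u
  have hfl : 0 ≤ gFlux G D x s u := integral_nonneg fun y =>
    mul_nonneg (mul_nonneg (abs_nonneg _) (gw_pos x s y).le) (h.dens_pos y).le
  have hdle : d ≤ (1 - r) * v₀ := by
    have h1 := h.flux_le hK hu x s hB
    have h2 : gFlux G D x s u + e * per G u ≤ Fm := by
      have := mul_le_mul_of_nonneg_left hPu (Real.sqrt_nonneg (2 * B))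
      have := mul_le_mul_of_nonneg_left hPu he
      rw [hFm]; linarith
    calc d = t * (gFlux G D x s u + e * per G u) := by rw [hd]; ring
      _ ≤ t * Fm := mul_le_mul_of_nonneg_left h2 ht0.le
      _ ≤ (1 - r) * v₀ / Fm * Fm := mul_le_mul_of_nonneg_right ht hFm0.le
      _ = _ := div_mul_cancel₀ _ hFm0.ne'
  have hd0 : 0 ≤ d := by rw [hd]; positivity
  have hdV : r * V ≤ V - d := by
    linarith [mul_le_mul_of_nonneg_left hVu (sub_nonneg.2 hr1.le)]
  have hrV : 0 < r * V := mul_pos hr0 hV0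
  have hb' : l * α * (V - d) ^ (α - 1) ≤ hh := by
    have h1 : (V - d) ^ (α - 1) ≤ (r * V) ^ (α - 1) :=
      Real.rpow_le_rpow_of_nonpos hrV hdV (by linarith)
    rw [Real.mul_rpow hr0.le hV0.le, hr, ← Real.rpow_mul hθ0.le,
      show -(n : ℝ) * (α - 1) = 1 by rw [hαm, hm]; field_simp; ring, Real.rpow_one] at h1
    calc l * α * (V - d) ^ (α - 1) ≤ l * α * (θ * V ^ (α - 1)) :=
          mul_le_mul_of_nonneg_left h1 (by positivity)
      _ = hh := by rw [hhh]; ring
  have hhh0 : 0 ≤ hh := by rw [hhh]; positivity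
  have h1 := concave_step (V := V) (V' := vol G u') (α := α) hd0 (by linarith)
    (by rw [hd]; linarith) hα0.le hα1
  have h3 : l * V ^ α - l * vol G u' ^ α ≤ hh * d :=
    calc l * V ^ α - l * vol G u' ^ α = l * (V ^ α - vol G u' ^ α) := by ring
      _ ≤ l * (α * (V - d) ^ (α - 1) * d) := mul_le_mul_of_nonneg_left (by linarith) hl
      _ = l * α * (V - d) ^ (α - 1) * d := by ring
      _ ≤ hh * d := mul_le_mul_of_nonneg_right hb' hd0
  have h4 : M * gap G u' ≤ M * gap G u + M * C * t * δ := by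
    nlinarith [mul_le_mul_of_nonneg_left hgap' hM,
      mul_le_mul_of_nonneg_left hgu (mul_nonneg (mul_nonneg hM hC) ht0.le)]
  have h6 : hh * (t * e * per G u) ≤ hmax * (t * e * P₀) :=
    mul_le_mul hhmax' (mul_le_mul_of_nonneg_left hPu (by positivity)) (by positivity)
      (hhh0.trans hhmax')
  have h7 : t * e * per G u ≤ t * e * P₀ := mul_le_mul_of_nonneg_left hPu (by positivity)
  refine le_of_mul_le_mul_left ?_ ht0
  have e1 : t * (e * P₀ * (1 + hmax) + M * C * δ + δ / t) =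
      t * e * P₀ + hmax * (t * e * P₀) + M * C * t * δ + δ := by field_simp
  rw [e1]
  rw [hd] at h3
  linarith

/-- The absolute cosine times the length of `grad (D x)` is the normal part. -/
lemma acos_mul (h : IsCH G D) (u : (Fin n → ℝ) → ℝ) (x y : Fin n → ℝ) :
    acos G D u x y * Real.sqrt (2 * D x y) * conorm G y (cd u y) = |normalPart G D x u y| := by
  have hle := h.abs_normalPart_le x u y
  rcases eq_or_lt_of_le (mul_nonneg (conorm_nonneg (G := G) y (cd u y))
    (Real.sqrt_nonneg (2 * D x y))) with h0 | h0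
  · rw [← h0] at hle
    rw [abs_nonpos_iff.1 hle, mul_assoc, mul_comm (Real.sqrt _), ← h0, mul_zero, abs_zero]
  · rw [acos, mul_assoc, mul_comm (Real.sqrt _), div_mul_cancel₀ _ h0.ne']

lemma acos_mem (h : IsCH G D) (u : (Fin n → ℝ) → ℝ) (x y : Fin n → ℝ) :
    acos G D u x y ∈ Icc (0 : ℝ) 1 :=
  ⟨div_nonneg (abs_nonneg _) (mul_nonneg (conorm_nonneg y _) (Real.sqrt_nonneg _)),
    div_le_one_of_le₀ (h.abs_normalPart_le x u y)
      (mul_nonneg (conorm_nonneg y _) (Real.sqrt_nonneg _))⟩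

/-- The first variation with the weight `exp (-q D)` is the integral of `rowInt`. -/
theorem rowInt_integral {G : (Fin 6 → ℝ) → Matrix (Fin 6) (Fin 6) ℝ}
    {D : (Fin 6 → ℝ) → (Fin 6 → ℝ) → ℝ} {K : Set (Fin 6 → ℝ)} (h : IsCH G D) (hK : IsCompact K)
    {u : (Fin 6 → ℝ) → ℝ} (hu : Comp K u) (x : Fin 6 → ℝ) (hh : ℝ) {q s : ℝ}
    (hq : q = 1 / s ^ 2) :
    ∫ y, rowInt hh q (D x y) (acos G D u x y) * (conorm G y (cd u y) * dens G y) =
      5 * gQ G D x s u - 2 * gMom G D x s u + gNormal G D x s u - hh * gFlux G D x s u := by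
  have i1 := h.integrable_mul_conorm hK hu (h.continuous_gw x s)
  have i2 : Integrable fun y => D x y / s ^ 2 * gw D x s y * (conorm G y (cd u y) * dens G y) :=
    h.integrable_mul_conorm hK hu
      (((h.continuous_D_left x).div_const (s ^ 2)).mul (h.continuous_gw x s))
  have i3 := h.integrable_normal hK hu x s
  have i4 := h.integrable_flux hK hu x s
  have key : ∀ y, rowInt hh q (D x y) (acos G D u x y) * (conorm G y (cd u y) * dens G y) =
      5 * (gw D x s y * (conorm G y (cd u y) * dens G y)) -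
        2 * (D x y / s ^ 2 * gw D x s y * (conorm G y (cd u y) * dens G y)) +
        normalPart G D x u y ^ 2 / conorm G y (cd u y) / s ^ 2 * gw D x s y * dens G y -
        hh * (|normalPart G D x u y| * gw D x s y * dens G y) := fun y => by
    have e1 := acos_mul h u x y
    have e2 : Real.sqrt (2 * D x y) ^ 2 = 2 * D x y :=
      Real.sq_sqrt (by linarith [h.dist_nonneg x y])
    have e3 : Real.exp (-(q * D x y)) = gw D x s y := by
      rw [gw, hq, one_div_mul_eq_div]
    rw [rowInt, e3, ← sq_abs (normalPart G D x u y), ← e1]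
    rcases eq_or_ne (conorm G y (cd u y)) 0 with hc | hc
    · simp [hc]
    · rw [mul_pow, mul_pow, e2, hq]
      field_simp
      ring
  simp only [key]
  have j12 : Integrable fun y => 5 * (gw D x s y * (conorm G y (cd u y) * dens G y)) -
      2 * (D x y / s ^ 2 * gw D x s y * (conorm G y (cd u y) * dens G y)) :=
    (i1.const_mul 5).sub (i2.const_mul 2)
  have j123 : Integrable fun y => 5 * (gw D x s y * (conorm G y (cd u y) * dens G y)) -
      2 * (D x y / s ^ 2 * gw D x s y * (conorm G y (cd u y) * dens G y)) +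
      normalPart G D x u y ^ 2 / conorm G y (cd u y) / s ^ 2 * gw D x s y * dens G y := j12.add i3
  rw [integral_sub j123 (i4.const_mul hh), integral_add j12 i3,
    integral_sub (i1.const_mul 5) (i2.const_mul 2), integral_const_mul, integral_const_mul,
    integral_const_mul, gQ, gMom, gNormal, gFlux]

lemma abs_rowInt_le {hh q a d Q H B : ℝ} (hq : q ∈ Icc 0 Q) (ha : a ∈ Icc 0 B)
    (hd : d ∈ Icc (0 : ℝ) 1) (hh0 : hh ∈ Icc 0 H) :
    |rowInt hh q a d| ≤ 5 + 2 * Q * B + H * Real.sqrt (2 * B) := by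
  rw [rowInt, abs_mul, Real.abs_exp]
  have hQ0 : 0 ≤ Q := hq.1.trans hq.2
  have h1 : 0 ≤ 2 * q * a * (1 - d ^ 2) :=
    mul_nonneg (mul_nonneg (mul_nonneg (by norm_num) hq.1) ha.1) (by nlinarith [hd.1, hd.2])
  have h2 : 2 * q * a * (1 - d ^ 2) ≤ 2 * Q * B := by
    calc 2 * q * a * (1 - d ^ 2) ≤ 2 * q * a * 1 :=
          mul_le_mul_of_nonneg_left (by nlinarith [sq_nonneg d])
            (mul_nonneg (mul_nonneg (by norm_num) hq.1) ha.1)
      _ ≤ 2 * Q * B := by
          rw [mul_one]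
          exact mul_le_mul (by linarith [hq.2]) ha.2 ha.1 (by positivity)
  have hs := Real.sqrt_le_sqrt (show 2 * a ≤ 2 * B by linarith [ha.2])
  have h3 : 0 ≤ hh * d * Real.sqrt (2 * a) :=
    mul_nonneg (mul_nonneg hh0.1 hd.1) (Real.sqrt_nonneg _)
  have h4 : hh * d * Real.sqrt (2 * a) ≤ H * Real.sqrt (2 * B) := by
    refine mul_le_mul ?_ hs (Real.sqrt_nonneg _) (hh0.1.trans hh0.2)
    exact (mul_le_of_le_one_right hh0.1 hd.2).trans hh0.2
  have h5 : Real.exp (-(q * a)) ≤ 1 :=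
    Real.exp_le_one_iff.2 (neg_nonpos.2 (mul_nonneg hq.1 ha.1))
  calc |5 - 2 * q * a * (1 - d ^ 2) - hh * d * Real.sqrt (2 * a)| * Real.exp (-(q * a))
      ≤ |5 - 2 * q * a * (1 - d ^ 2) - hh * d * Real.sqrt (2 * a)| * 1 :=
        mul_le_mul_of_nonneg_left h5 (abs_nonneg _)
    _ ≤ _ := by rw [mul_one, abs_le]; constructor <;> linarith

/-- `RowPin`. -/
theorem rowPin : RowPin := by
  intro G D h o R M P₀ v₀ l θ Q ε hR hM hP₀ hv₀ hl hθ hQ hε
  set K : Set (Fin 6 → ℝ) := {y | D o y ≤ R} with hKdef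
  have hK : IsCompact K := h.proper o R
  obtain ⟨B, hB0, hB⟩ : ∃ B : ℝ, 0 ≤ B ∧ ∀ x ∈ K, ∀ y ∈ K, D x y ≤ B := by
    obtain ⟨B, hB⟩ := (hK.prod hK).bddAbove_image (h.continuous_D.continuousOn (s := K ×ˢ K))
    exact ⟨max B 0, le_max_right _ _,
      fun x hx y hy => (hB ⟨(x, y), ⟨hx, hy⟩, rfl⟩).trans (le_max_left _ _)⟩
  obtain ⟨hmax, hhmax⟩ : ∃ z : ℝ, z = l * (5 / 6) * θ * v₀ ^ (-(1 : ℝ) / 6) := ⟨_, rfl⟩
  have hθ0 : 0 < θ := by linarith
  have hmax0 : 0 < hmax := by rw [hhmax]; positivity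
  obtain ⟨L, hL⟩ : ∃ z : ℝ, z = 5 + 2 * Q * B + hmax * Real.sqrt (2 * B) := ⟨_, rfl⟩
  have hL0 : 0 < L := by rw [hL]; positivity
  obtain ⟨q₀, hq₀⟩ : ∃ z : ℝ, z = min Q (ε / (2 * (L * P₀ + 1))) := ⟨_, rfl⟩
  have hq₀0 : 0 < q₀ := hq₀ ▸ lt_min hQ (by positivity)
  have hq₀Q : q₀ ≤ Q := hq₀ ▸ min_le_left _ _
  obtain ⟨κ, hκ⟩ : ∃ z : ℝ, z = ε / (2 * Q) := ⟨_, rfl⟩
  have hκ0 : 0 < κ := by rw [hκ]; positivity
  obtain ⟨e, he⟩ : ∃ z : ℝ, z = κ / (2 * (P₀ * (1 + hmax) + 1)) := ⟨_, rfl⟩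
  have he0 : 0 < e := by rw [he]; positivity
  obtain ⟨τ, C, hτ, hC, hvar⟩ := variationPin_of_defect defectPin 6 (by norm_num) G D h o R
    (1 / Real.sqrt Q) (1 / Real.sqrt q₀) e hR (by positivity)
    (one_div_le_one_div_of_le (Real.sqrt_pos.2 hq₀0) (Real.sqrt_le_sqrt hq₀Q)) he0
  obtain ⟨Fm, hFm⟩ : ∃ z : ℝ, z = Real.sqrt (2 * B) * P₀ + e * P₀ + 1 := ⟨_, rfl⟩
  have hFm0 : 0 < Fm := by rw [hFm]; positivity
  obtain ⟨r, hr⟩ : ∃ z : ℝ, z = θ ^ (-((6 : ℕ) : ℝ)) := ⟨_, rfl⟩
  have hr1 : r < 1 := hr ▸ Real.rpow_lt_one_of_one_lt_of_neg hθ (by norm_num)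
  obtain ⟨t, ht⟩ : ∃ z : ℝ, z = min τ ((1 - r) * v₀ / Fm) := ⟨_, rfl⟩
  have ht0 : 0 < t := ht ▸ lt_min hτ (div_pos (mul_pos (by linarith) hv₀) hFm0)
  refine ⟨κ / (2 * (M * C + 1 / t + 1)), by positivity, ?_⟩
  intro u δ hδ0 hδ hu hPu hVu hgu hopt x hx
  obtain ⟨hh, hhh⟩ : ∃ z : ℝ, z = l * (5 / 6) * θ * vol G u ^ (-(1 : ℝ) / 6) := ⟨_, rfl⟩
  rw [← hhh]
  have hV0 : 0 < vol G u := hv₀.trans_le hVu
  have hh0 : 0 ≤ hh := by rw [hhh]; positivity
  have hhmax' : hh ≤ hmax := by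
    rw [hhh, hhmax]
    exact mul_le_mul_of_nonneg_left (Real.rpow_le_rpow_of_nonpos hv₀ hVu (by norm_num))
      (by positivity)
  set μf : (Fin 6 → ℝ) → ℝ := fun y => conorm G y (cd u y) * dens G y with hμf
  have hμ0 : ∀ y, 0 ≤ μf y := fun y => mul_nonneg (conorm_nonneg y _) (h.dens_pos y).le
  have hμi : Integrable μf := by
    simpa using h.integrable_mul_conorm hK hu (continuous_const (y := (1 : ℝ)))
  have hbd : ∀ q ∈ Icc (0 : ℝ) Q, ∀ y,
      ‖rowInt hh q (D x y) (acos G D u x y) * μf y‖ ≤ L * μf y := by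
    intro q hq y
    by_cases hy : y ∈ K
    · rw [Real.norm_eq_abs, abs_mul, abs_of_nonneg (hμ0 y), hL]
      exact mul_le_mul_of_nonneg_right (abs_rowInt_le hq ⟨h.dist_nonneg x y, hB x hx y hy⟩
        (acos_mem h u x y) ⟨hh0, hhmax'⟩) (hμ0 y)
    · simp [μf, cd_eq_zero_of_notMem fun hs => hy (hu.2.1 hs), conorm_zero]
  have hmeas : Measurable (fun p : ℝ × (Fin 6 → ℝ) =>
      rowInt hh p.1 (D x p.2) (acos G D u x p.2) * μf p.2) := by
    have ha : Measurable fun y => acos G D u x y :=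
      ((h.continuous_normalPart hu.1 x).abs.measurable).div
        ((h.continuous_conorm_cd hu.1).measurable.mul
          (((h.continuous_D_left x).const_mul 2).sqrt.measurable))
    have hr' : Continuous fun p : ℝ × ℝ × ℝ => rowInt hh p.1 p.2.1 p.2.2 := by
      unfold rowInt; fun_prop
    exact (hr'.measurable.comp (measurable_fst.prodMk
      (((h.continuous_D_left x).measurable.comp measurable_snd).prodMk
        (ha.comp measurable_snd)))).mul
      (((h.continuous_conorm_cd hu.1).mul h.continuous_dens).measurable.comp measurable_snd)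
  have hint : Integrable (Function.uncurry fun q y =>
      rowInt hh q (D x y) (acos G D u x y) * μf y) ((volume.restrict (uIoc 0 Q)).prod volume) := by
    have : IsFiniteMeasure (volume.restrict (uIoc (0 : ℝ) Q)) :=
      isFiniteMeasure_restrict.2 (by simp [uIoc])
    refine Integrable.mono' ((integrable_const (1 : ℝ)).mul_prod (hμi.const_mul L))
      hmeas.aestronglyMeasurable ?_
    rw [Measure.ae_prod_iff_ae_ae]
    · filter_upwards [ae_restrict_mem measurableSet_uIoc] with q hq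
      rw [uIoc_of_le hQ.le] at hq
      refine Eventually.of_forall fun y => ?_
      simpa [Function.uncurry] using hbd q ⟨hq.1.le, hq.2⟩ y
    · exact measurableSet_le hmeas.norm
        (measurable_const.mul
          ((((h.continuous_conorm_cd hu.1).mul h.continuous_dens).measurable.comp
            measurable_snd).const_mul L))
  calc ∫ y, (∫ q in (0 : ℝ)..Q, rowInt hh q (D x y) (acos G D u x y)) * μf y
      = ∫ q in (0 : ℝ)..Q, ∫ y, rowInt hh q (D x y) (acos G D u x y) * μf y := by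
        rw [intervalIntegral_integral_swap hint]
        simp only [intervalIntegral.integral_mul_const]
    _ ≤ ε := by
        set F : ℝ → ℝ := fun q => ∫ y, rowInt hh q (D x y) (acos G D u x y) * μf y
        have hFi : IntegrableOn F (uIoc 0 Q) := hint.integral_prod_left
        have hF1 : IntervalIntegrable F volume 0 q₀ := intervalIntegrable_iff.2
          (hFi.mono_set (by rw [uIoc_of_le hq₀0.le, uIoc_of_le hQ.le]; exact Ioc_subset_Ioc_right hq₀Q))
        have hF2 : IntervalIntegrable F volume q₀ Q := intervalIntegrable_iff.2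
          (hFi.mono_set (by rw [uIoc_of_le hq₀Q, uIoc_of_le hQ.le]; exact Ioc_subset_Ioc_left hq₀0.le))
        have hs : ∀ q ∈ Icc q₀ Q, F q ≤ κ := by
          intro q hq
          have hq0 : 0 < q := hq₀0.trans_le hq.1
          obtain ⟨s, hs⟩ : ∃ s : ℝ, s = 1 / Real.sqrt q := ⟨_, rfl⟩
          have hsI : s ∈ Icc (1 / Real.sqrt Q) (1 / Real.sqrt q₀) := hs ▸
            ⟨one_div_le_one_div_of_le (Real.sqrt_pos.2 hq0) (Real.sqrt_le_sqrt hq.2),
              one_div_le_one_div_of_le (Real.sqrt_pos.2 hq₀0) (Real.sqrt_le_sqrt hq.1)⟩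
          have hqs : q = 1 / s ^ 2 := by
            rw [hs, div_pow, one_pow, Real.sq_sqrt hq0.le, one_div_one_div]
          obtain ⟨u', hu', hper, hvol, hgap'⟩ :=
            hvar t x s u ht0 (ht ▸ min_le_left _ _) hx hsI hu
          have hst := row_step h (n := 6) (by norm_num) (m := 5) (α := 5 / 6) (by norm_num)
            (by norm_num) hK hu (hB x hx) ht0 he0.le hl.le hM hC hθ hr hv₀ hVu hPu hFm hFm0
            (ht ▸ min_le_right _ _) (hh := hh) (hhh.trans (by norm_num)) hhmax' hgu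
            (by norm_num at hper ⊢; exact hper) hvol hgap' (hopt u' hu')
          simp only [F, μf]
          rw [rowInt_integral h hK hu x hh hqs]
          exact hst.trans (error_le hκ0 hP₀ hmax0 (mul_nonneg hM hC) ht0 hδ0 he hδ)
        have hsmall : ∀ q ∈ Icc (0 : ℝ) q₀, F q ≤ L * P₀ := fun q hq => by
          refine (le_abs_self _).trans ((norm_integral_le_of_norm_le (hμi.const_mul L)
            (Eventually.of_forall (hbd q ⟨hq.1, hq.2.trans hq₀Q⟩))).trans ?_)
          rw [integral_const_mul]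
          exact mul_le_mul_of_nonneg_left hPu hL0.le
        rw [← intervalIntegral.integral_add_adjacent_intervals hF1 hF2]
        have b1 := intervalIntegral.integral_mono_on hq₀0.le hF1 intervalIntegrable_const hsmall
        have b2 := intervalIntegral.integral_mono_on hq₀Q hF2 intervalIntegrable_const hs
        simp only [intervalIntegral.integral_const, smul_eq_mul, sub_zero] at b1 b2
        have c1 : q₀ * (L * P₀) ≤ ε / 2 := by
          have : q₀ ≤ ε / (2 * (L * P₀ + 1)) := hq₀ ▸ min_le_right _ _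
          rw [le_div_iff₀ (by positivity)] at this
          nlinarith
        have c2 : (Q - q₀) * κ ≤ ε / 2 := by
          have : κ * (2 * Q) = ε := hκ ▸ div_mul_cancel₀ _ (by positivity)
          nlinarith
        linarith

end Vale.Agent.P219.CH.Six
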