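import Vale.Agent.P219.Six.Assembly
import Vale.Agent.P219.Six.PairAssembly
import Vale.Agent.P219.Six.Line
import Vale.Agent.P219.Six.Flow
import Vale.Agent.P219.Six.Polar
import Vale.Agent.P219.Six.Moment
import Vale.Agent.P219.Six.Poly
import Vale.Agent.P219.Six.Row
import Vale.Agent.P219.CH.Min

/-!
# The sharp isoperimetric inequality in dimension six, with an exponential map
-/

noncomputable section

namespace Vale.Agent.P219.CH.Six

/-- The sharp inequality for every metric with an exponential map. -/
theorem sharpSix : SharpSix :=
  assembly (minPin 6) rowPin
    (pairAssembly polyPin Line.linePin (flowPin 6) polarPin momentPin)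

end Vale.Agent.P219.CH.Six
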