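import Vale.Agent.P219.Six.PairPoint

/-!
# Liouville measure and the moments of one fibre
-/

noncomputable section

open MeasureTheory Set Filter Topology Matrix
open scoped ENNReal

namespace Vale.Agent.P219.CH.Six


variable {G : (Fin 6 → ℝ) → Matrix (Fin 6) (Fin 6) ℝ} {D : (Fin 6 → ℝ) → (Fin 6 → ℝ) → ℝ} {u : (Fin 6 → ℝ) → ℝ}

lemma pair_lintegral_liou (h : IsCH G D) {K : Phase 6 → ℝ≥0∞} (hK : Measurable K) :
    ∫⁻ p, K p ∂liou G = ∫⁻ x, (∫⁻ v, ENNReal.ofReal (fibre G x v) * K (x, v)) ∂volM G := by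
  have hf : Measurable fun p : Phase 6 => fibre G p.1 p.2 :=
    ((h.continuous_dens.comp continuous_fst).mul
      ((h.continuous_vnorm.pow 2).div_const 2).neg.rexp).measurable
  have hd : Measurable fun p : Phase 6 => ENNReal.ofReal (dens G p.1 * fibre G p.1 p.2) :=
    ((h.continuous_dens.measurable.comp measurable_fst).mul hf).ennreal_ofReal
  rw [liou, lintegral_withDensity_eq_lintegral_mul _ hd hK, Measure.volume_eq_prod,
    lintegral_prod _ (hd.mul hK).aemeasurable, volM,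
    lintegral_withDensity_eq_lintegral_mul _ h.continuous_dens.measurable.ennreal_ofReal
      (Measurable.lintegral_prod_right' (f := fun p : Phase 6 =>
        ENNReal.ofReal (fibre G p.1 p.2) * K p) (hf.ennreal_ofReal.mul hK))]
  refine lintegral_congr fun x => ?_
  simp only [Pi.mul_apply, ENNReal.ofReal_mul (h.dens_pos x).le, mul_assoc]
  exact lintegral_const_mul _
    (((hf.comp measurable_prodMk_left).ennreal_ofReal).mul (hK.comp measurable_prodMk_left))

/-- The bound on one fibre for a negative term. -/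
theorem fibre_weight_le (hmom : MomentPin) (h : IsCH G D) (x ξ : (Fin 6 → ℝ)) {κ : ℝ} (hκ : 0 ≤ κ) :
    ∫⁻ v, ENNReal.ofReal (fibre G x v) * (ENNReal.ofReal (ξ ⬝ᵥ v) * ENNReal.ofReal
        ((κ + cosWt (|ξ ⬝ᵥ v| / (conorm G x ξ * vnorm G x v))) / vnorm G x v)) ≤
      ENNReal.ofReal ((2 * Real.pi) ^ 3 * (κ + 43 / 2) * conorm G x ξ) := by
  obtain ⟨h0, h2, h4⟩ := hmom G x ξ (h.posDef x)
  set cξ := conorm G x ξ
  have hc0 : 0 ≤ cξ := conorm_nonneg x ξ
  have hf0 : ∀ v, 0 ≤ fibre G x v := fun v => mul_nonneg (h.dens_pos x).le (Real.exp_pos _).le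
  have hN0 : ∀ v, 0 ≤ vnorm G x v := fun v => Real.sqrt_nonneg _
  have hfm : Measurable fun v : (Fin 6 → ℝ) => fibre G x v :=
    (((h.continuous_vnorm.comp (continuous_const.prodMk continuous_id)).pow 2).div_const 2).neg.rexp.measurable.const_mul
      (dens G x)
  have hqm : Measurable fun v : (Fin 6 → ℝ) => max (ξ ⬝ᵥ v) 0 / vnorm G x v :=
    ((continuous_const.dotProduct continuous_id).max continuous_const).measurable.div
      (h.continuous_vnorm.comp (continuous_const.prodMk continuous_id)).measurable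
  have hpt : ∀ v, ENNReal.ofReal (fibre G x v) * (ENNReal.ofReal (ξ ⬝ᵥ v) * ENNReal.ofReal
      ((κ + cosWt (|ξ ⬝ᵥ v| / (cξ * vnorm G x v))) / vnorm G x v)) ≤
      ENNReal.ofReal (κ * cξ) * ENNReal.ofReal (fibre G x v) +
        ENNReal.ofReal (240 / cξ) * ENNReal.ofReal (fibre G x v * (max (ξ ⬝ᵥ v) 0 / vnorm G x v) ^ 2) +
        ENNReal.ofReal (48 / cξ ^ 3) *
          ENNReal.ofReal (fibre G x v * (max (ξ ⬝ᵥ v) 0 / vnorm G x v) ^ 4) := by
    intro v
    rcases le_or_gt (ξ ⬝ᵥ v) 0 with ha | ha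
    · simp [ENNReal.ofReal_of_nonpos ha]
    rw [← ENNReal.ofReal_mul ha.le, ← ENNReal.ofReal_mul (hf0 v),
      ← ENNReal.ofReal_mul (mul_nonneg hκ hc0), ← ENNReal.ofReal_mul (by positivity),
      ← ENNReal.ofReal_mul (by positivity)]
    refine le_trans (ENNReal.ofReal_le_ofReal ?_)
      ((ENNReal.ofReal_add_le).trans (add_le_add ENNReal.ofReal_add_le le_rfl))
    rw [max_eq_left ha.le, abs_of_pos ha]
    have hle := (le_abs_self _).trans (h.dotProduct_le x ξ v)
    have hN : 0 < vnorm G x v := pos_of_mul_pos_right (ha.trans_le hle) hc0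
    have hc : 0 < cξ := pos_of_mul_pos_left (ha.trans_le hle) hN.le
    have h1 : (ξ ⬝ᵥ v) / vnorm G x v ≤ cξ := (div_le_iff₀ hN).2 hle
    have h1' := mul_le_mul_of_nonneg_left h1 (mul_nonneg (hf0 v) hκ)
    refine le_trans (le_of_eq ?_) (add_le_add (add_le_add (le_of_le_of_eq h1' (by ring)) le_rfl) le_rfl)
    unfold cosWt
    field_simp
    ring
  refine (lintegral_mono hpt).trans (le_of_eq ?_)
  rw [lintegral_add_left ((hfm.ennreal_ofReal.const_mul _).fun_add
      ((hfm.fun_mul (hqm.pow_const 2)).ennreal_ofReal.const_mul _)),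
    lintegral_add_left (hfm.ennreal_ofReal.const_mul _),
    lintegral_const_mul _ hfm.ennreal_ofReal,
    lintegral_const_mul _ (f := fun v => ENNReal.ofReal (fibre G x v * (max (ξ ⬝ᵥ v) 0 / vnorm G x v) ^ 2))
      ((hfm.fun_mul (hqm.pow_const 2)).ennreal_ofReal),
    lintegral_const_mul _ (f := fun v => ENNReal.ofReal (fibre G x v * (max (ξ ⬝ᵥ v) 0 / vnorm G x v) ^ 4))
      ((hfm.fun_mul (hqm.pow_const 4)).ennreal_ofReal),
    h0, h2, h4, ← ENNReal.ofReal_mul (mul_nonneg hκ hc0), ← ENNReal.ofReal_mul (by positivity),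
    ← ENNReal.ofReal_mul (by positivity), ← ENNReal.ofReal_add (by positivity) (by positivity),
    ← ENNReal.ofReal_add (by positivity) (by positivity)]
  congr 1
  rcases eq_or_lt_of_le hc0 with hz | hz
  · rw [← hz]; simp
  · field_simp; ring

end Vale.Agent.P219.CH.Six
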