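import Vale.Agent.P219.Six.PairFibre

/-!
# The three integrals over pairs on a line
-/

noncomputable section

open MeasureTheory Set Filter Topology Matrix
open scoped ENNReal

namespace Vale.Agent.P219.CH.Six


variable {G : (Fin 6 → ℝ) → Matrix (Fin 6) (Fin 6) ℝ} {D : (Fin 6 → ℝ) → (Fin 6 → ℝ) → ℝ} {e : Phase 6 → (Fin 6 → ℝ)}
  {u : (Fin 6 → ℝ) → ℝ} {η Q s : ℝ}

/-- A competitor along a geodesic. -/
def gl (e : Phase 6 → (Fin 6 → ℝ)) (u : (Fin 6 → ℝ) → ℝ) (p : Phase 6) (t : ℝ) : ℝ := u (line e p t)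

/-- An entry at `0` paired with an exit at `t`, with the two slopes. -/
def pairA (e : Phase 6 → (Fin 6 → ℝ)) (u : (Fin 6 → ℝ) → ℝ) (η : ℝ) : Phase 6 × ℝ → ℝ≥0∞ :=
  {z : Phase 6 × ℝ | 0 < z.2 ∧ Paired η (gl e u z.1) 0 z.2}.indicator fun z =>
    ENNReal.ofReal (slp u z.1) * ENNReal.ofReal (-slp u (flow e z.2 z.1))

/-- The weight of a negative term at a phase point. -/
def pairW (G : (Fin 6 → ℝ) → Matrix (Fin 6) (Fin 6) ℝ) (u : (Fin 6 → ℝ) → ℝ) (k : ℝ) (p : Phase 6) : ℝ≥0∞ :=
  ENNReal.ofReal ((k + cosWt (cosv G u p)) / vnorm G p.1 p.2)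

/-- The truncated pair integrand with the two densities of perimeter. -/
def pairB (G : (Fin 6 → ℝ) → Matrix (Fin 6) (Fin 6) ℝ) (D : (Fin 6 → ℝ) → (Fin 6 → ℝ) → ℝ) (u : (Fin 6 → ℝ) → ℝ) (Q s : ℝ)
    (x y : (Fin 6 → ℝ)) : ℝ :=
  (1 - Real.exp (-(Q * D x y))) *
    pairKer (s * Real.sqrt (2 * D x y)) (acos G D u y x) (acos G D u x y) *
      (conorm G x (cd u x) * conorm G y (cd u y))

lemma measurable_pairKer : Measurable fun q : ℝ × ℝ × ℝ => pairKer q.1 q.2.1 q.2.2 := by
  unfold pairKer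
  fun_prop

lemma measurable_pairB (h : IsCH G D) (hu : ContDiff ℝ 1 u) :
    Measurable fun w : (Fin 6 → ℝ) × (Fin 6 → ℝ) => pairB G D u Q s w.1 w.2 := by
  have h1 := h.measurable_acos hu
  have h2' := h1.comp (measurable_swap (α := (Fin 6 → ℝ)) (β := (Fin 6 → ℝ)))
  have h2 : Measurable fun w : (Fin 6 → ℝ) × (Fin 6 → ℝ) => acos G D u w.2 w.1 := by
    simpa only [Function.comp_def, Prod.fst_swap, Prod.snd_swap] using h2'
  have hc := h.continuous_D.measurable
  have hcn := (h.continuous_conorm_cd hu).measurable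
  have hw : Measurable fun w : (Fin 6 → ℝ) × (Fin 6 → ℝ) => 1 - Real.exp (-(Q * D w.1 w.2)) :=
    ((hc.const_mul Q).neg.exp).const_sub 1
  have hr : Measurable fun w : (Fin 6 → ℝ) × (Fin 6 → ℝ) => s * Real.sqrt (2 * D w.1 w.2) :=
    ((hc.const_mul 2).sqrt).const_mul s
  have hk : Measurable fun w : (Fin 6 → ℝ) × (Fin 6 → ℝ) => pairKer (s * Real.sqrt (2 * D w.1 w.2))
      (acos G D u w.2 w.1) (acos G D u w.1 w.2) :=
    Measurable.comp (g := fun q : ℝ × ℝ × ℝ => pairKer q.1 q.2.1 q.2.2) measurable_pairKer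
      (hr.prodMk (h2.prodMk h1))
  have hx : Measurable fun w : (Fin 6 → ℝ) × (Fin 6 → ℝ) => conorm G w.1 (cd u w.1) * conorm G w.2 (cd u w.2) :=
    (hcn.comp measurable_fst).fun_mul (hcn.comp measurable_snd)
  show Measurable fun w : (Fin 6 → ℝ) × (Fin 6 → ℝ) => (1 - Real.exp (-(Q * D w.1 w.2))) *
    pairKer (s * Real.sqrt (2 * D w.1 w.2)) (acos G D u w.2 w.1) (acos G D u w.1 w.2) *
      (conorm G w.1 (cd u w.1) * conorm G w.2 (cd u w.2))
  exact (hw.fun_mul hk).fun_mul hx

lemma pairB_nonneg (h : IsCH G D) (hQ : 0 < Q) (x y : (Fin 6 → ℝ)) : 0 ≤ pairB G D u Q s x y := by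
  refine mul_nonneg (mul_nonneg (sub_nonneg.2 (Real.exp_le_one_iff.2 ?_)) (pairKer_nonneg
    ⟨acos_nonneg u y x, h.acos_le_one u y x⟩ ⟨acos_nonneg u x y, h.acos_le_one u x y⟩))
    (mul_nonneg (conorm_nonneg _ _) (conorm_nonneg _ _))
  have := mul_nonneg hQ.le (h.dist_nonneg x y)
  linarith

lemma continuous_gl (he : IsExp G D e) (hu : ContDiff ℝ 1 u) :
    Continuous (Function.uncurry (gl e u)) :=
  hu.continuous.comp he.continuous_line

lemma contDiff_gl (he : IsExp G D e) (hu : ContDiff ℝ 1 u) (p : Phase 6) :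
    ContDiff ℝ 1 (gl e u p) := hu.comp (he.contDiff_line p)

lemma continuous_slp (hu : ContDiff ℝ 1 u) : Continuous (slp u : Phase 6 → ℝ) :=
  ((continuous_cd hu).comp continuous_fst).dotProduct continuous_snd

lemma measurable_pairW (h : IsCH G D) (hu : ContDiff ℝ 1 u) (k : ℝ) :
    Measurable (pairW G u k) := by
  have hNm := h.continuous_vnorm.measurable
  have hcos : Measurable (cosv G u) := (continuous_slp hu).abs.measurable.div
    ((((h.continuous_conorm_cd hu).comp continuous_fst).measurable).mul hNm)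
  exact ((((hcos.const_mul _).add ((hcos.pow_const 3).const_mul _)).const_add k).div
    hNm).ennreal_ofReal

lemma hasCompactSupport_gl (hflow : FlowPin 6) (h : IsCH G D) (he : IsExp G D e) {o : (Fin 6 → ℝ)} {R : ℝ}
    (hu : Comp {y | D o y ≤ R} u) (p : Phase 6) (hp : p.2 ≠ 0) :
    HasCompactSupport (gl e u p) := by
  obtain ⟨-, -, -, -, -, -, -, hD, -⟩ := hflow G D e h he
  obtain ⟨B, hB⟩ := (h.proper o R).bddAbove_image (h.contDiff_D p.1).continuous.continuousOn
  have hN0 := h.vnorm_pos (x := p.1) hp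
  obtain ⟨T, hT⟩ : ∃ T, T = Real.sqrt (2 * |B|) / vnorm G p.1 p.2 := ⟨_, rfl⟩
  refine HasCompactSupport.intro (isCompact_Icc (a := -T) (b := T)) fun t ht => ?_
  show u (line e p t) = 0
  refine image_eq_zero_of_notMem_tsupport fun hs' => ht (abs_le.1 ?_)
  have h1 : D p.1 (line e p t) ≤ |B| := (hB ⟨_, hu.2.1 hs', rfl⟩).trans (le_abs_self B)
  rw [hD] at h1
  rw [hT, le_div_iff₀ hN0]
  exact Real.le_sqrt_of_sq_le (by rw [mul_pow, sq_abs]; linarith)

lemma deriv_gl (hflow : FlowPin 6) (h : IsCH G D) (he : IsExp G D e) (hu : ContDiff ℝ 1 u)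
    (p : Phase 6) (t : ℝ) : deriv (gl e u p) t = slp u (flow e t p) := by
  obtain ⟨-, hder, -⟩ := hflow G D e h he
  have h1 : HasDerivAt (fun q => u (line e p q)) (fderiv ℝ u (line e p t) (flow e t p).2) t :=
    (hu.differentiable one_ne_zero _).hasFDerivAt.comp_hasDerivAt t (hder p t)
  rw [show deriv (gl e u p) t = _ from h1.deriv, ← cd_dotProduct]
  rfl

lemma gl_flow (hflow : FlowPin 6) (h : IsCH G D) (he : IsExp G D e) (p : Phase 6) (c : ℝ) :
    gl e u (flow e c p) = fun q => gl e u p (c + q) := by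
  obtain ⟨-, -, -, hlinec, -⟩ := hflow G D e h he
  exact funext fun q => congrArg u (hlinec p c q)

lemma measurable_pairA (hflow : FlowPin 6) (h : IsCH G D) (he : IsExp G D e)
    (hu : ContDiff ℝ 1 u) : Measurable (pairA e u η) := by
  obtain ⟨-, -, -, -, -, -, -, -, -, hcont, -⟩ := hflow G D e h he
  have hS : MeasurableSet {z : Phase 6 × ℝ | 0 < z.2 ∧ Paired η (gl e u z.1) 0 z.2} :=
    measurableSet_paired η (F := fun z : Phase 6 × ℝ => gl e u z.1)
      ((continuous_gl he hu).comp ((continuous_fst.comp continuous_fst).prodMk continuous_snd))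
      continuous_const continuous_snd
  exact ((((continuous_slp hu).comp continuous_fst).measurable.ennreal_ofReal).mul
    ((continuous_slp hu).comp (hcont.comp
      (continuous_snd.prodMk continuous_fst))).neg.measurable.ennreal_ofReal).indicator hS

/-- The pointwise inequality in the coordinates of one geodesic. -/
theorem pairA_le (hpoly : PolyPin) (hflow : FlowPin 6) (h : IsCH G D) (he : IsExp G D e)
    (hQ : 0 < Q) (hs : 0 < s) (p : Phase 6) {t : ℝ} (ht : 0 < t) :
    ENNReal.ofReal (360 * s) * (pairA e u η (p, t) * ENNReal.ofReal t) ≤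
      ENNReal.ofReal (s ^ 5) * (ENNReal.ofReal (pairB G D u Q s p.1 (line e p t)) *
        ENNReal.ofReal ((t * vnorm G p.1 p.2) ^ 5 * vnorm G p.1 p.2)) +
      pairA e u η (p, t) * pairW G u (360 * s / Real.sqrt Q) p +
      pairA e u η (p, t) * pairW G u 0 (flow e t p) := by
  obtain ⟨hsymm, -, -, -, -, -, hN, hD, hgrad, -⟩ := hflow G D e h he
  by_cases hz : (p, t) ∈ {z : Phase 6 × ℝ | 0 < z.2 ∧ Paired η (gl e u z.1) 0 z.2}
  swap
  · simp [pairA, Set.indicator_of_notMem hz]
  simp only [pairA, Set.indicator_of_mem hz]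
  rcases le_or_gt (slp u p) 0 with ha | ha
  · simp [ENNReal.ofReal_of_nonpos ha]
  rcases le_or_gt (-slp u (flow e t p)) 0 with hb | hb
  · simp [ENNReal.ofReal_of_nonpos hb]
  obtain ⟨Np, hNp⟩ : ∃ Np, Np = vnorm G p.1 p.2 := ⟨_, rfl⟩
  have hcx : slp u p ≤ conorm G p.1 (cd u p.1) * Np :=
    hNp ▸ (le_abs_self _).trans (h.dotProduct_le _ _ _)
  have hcy : -slp u (flow e t p) ≤ conorm G (line e p t) (cd u (line e p t)) * Np := by
    have := (neg_le_abs _).trans
      (h.dotProduct_le (flow e t p).1 (cd u (flow e t p).1) (flow e t p).2)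
    rw [hN, ← hNp] at this
    exact this
  have hN0 : 0 < Np := pos_of_mul_pos_right (ha.trans_le hcx) (conorm_nonneg _ _)
  have hr : Real.sqrt (2 * D p.1 (line e p t)) = t * Np := by
    rw [hD, ← hNp, show 2 * (t ^ 2 * Np ^ 2 / 2) = (t * Np) ^ 2 by ring,
      Real.sqrt_sq (by positivity)]
  have hc : acos G D u (line e p t) p.1 = slp u p / (conorm G p.1 (cd u p.1) * Np) := by
    have hl := he.logv_exp p.1 (t • p.2)
    unfold acos normalPart pairing
    rw [hsymm (line e p t) p.1, hr,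
      show (G p.1)⁻¹ *ᵥ cd (D (line e p t)) p.1 = grad G (D (line e p t)) p.1 from rfl,
      show grad G (D (line e p t)) p.1 = -(t • p.2) by rw [← hl, logv, neg_neg]; rfl,
      dotProduct_neg, dotProduct_smul, abs_neg, smul_eq_mul, abs_mul, abs_of_pos ht]
    rw [show cd u p.1 ⬝ᵥ p.2 = slp u p from rfl, abs_of_pos ha]
    field_simp
  have hd : acos G D u p.1 (line e p t) =
      -slp u (flow e t p) / (conorm G (line e p t) (cd u (line e p t)) * Np) := by
    unfold acos normalPart pairing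
    rw [hr, show (G (line e p t))⁻¹ *ᵥ cd (D p.1) (line e p t) = grad G (D p.1) (line e p t) from rfl,
      hgrad, dotProduct_smul, smul_eq_mul, abs_mul, abs_of_pos ht,
      show cd u (line e p t) ⬝ᵥ (flow e t p).2 = slp u (flow e t p) from rfl,
      abs_of_neg (by linarith : slp u (flow e t p) < 0)]
    field_simp
  have key := pair_point hpoly ha hb hN0 ht hs hQ hcx hcy
  have hv0 : cosv G u p = slp u p / (conorm G p.1 (cd u p.1) * Np) := by
    rw [cosv, abs_of_pos ha, ← hNp]
  have hv1 : cosv G u (flow e t p) =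
      -slp u (flow e t p) / (conorm G (line e p t) (cd u (line e p t)) * Np) := by
    rw [cosv, hN, abs_of_neg (by linarith : slp u (flow e t p) < 0), ← hNp]; rfl
  have hBe : pairB G D u Q s p.1 (line e p t) = (1 - Real.exp (-(Q * ((t * Np) ^ 2 / 2)))) *
      pairKer (s * (t * Np)) (slp u p / (conorm G p.1 (cd u p.1) * Np))
        (-slp u (flow e t p) / (conorm G (line e p t) (cd u (line e p t)) * Np)) *
      (conorm G p.1 (cd u p.1) * conorm G (line e p t) (cd u (line e p t))) := by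
    rw [pairB, hr, hc, hd, hD, ← hNp, show t ^ 2 * Np ^ 2 / 2 = (t * Np) ^ 2 / 2 by ring]
  have hB0 := pairB_nonneg (u := u) (s := s) h hQ p.1 (line e p t)
  rw [pairW, pairW, hv0, hv1, hN, ← hNp, zero_add]
  simp only [← ENNReal.ofReal_mul (show 0 ≤ 360 * s by positivity), ← ENNReal.ofReal_mul ha.le,
    ← ENNReal.ofReal_mul (mul_pos ha hb).le, ← ENNReal.ofReal_mul hB0,
    ← ENNReal.ofReal_mul (pow_nonneg hs.le 5)]
  rw [hBe]
  exact (ENNReal.ofReal_le_ofReal (le_of_eq_of_le (by ring) (key.trans_eq (by ring)))).trans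
    ((ENNReal.ofReal_add_le).trans (add_le_add ENNReal.ofReal_add_le le_rfl))

lemma lintegral_conorm (h : IsCH G D) {o : (Fin 6 → ℝ)} {R : ℝ} (hu : Comp {y | D o y ≤ R} u) :
    ∫⁻ x, ENNReal.ofReal (conorm G x (cd u x)) ∂volM G = ENNReal.ofReal (per G u) := by
  rw [volM, lintegral_withDensity_eq_lintegral_mul _ h.continuous_dens.measurable.ennreal_ofReal
      (h.continuous_conorm_cd hu.1).measurable.ennreal_ofReal, per,
    ofReal_integral_eq_lintegral_ofReal
      (by simpa using h.integrable_mul_conorm (h.proper o R) hu (continuous_const (y := (1 : ℝ))))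
      (Eventually.of_forall fun y => mul_nonneg (conorm_nonneg _ _) (h.dens_pos y).le)]
  exact lintegral_congr fun y => by
    simp only [Pi.mul_apply]; rw [← ENNReal.ofReal_mul (h.dens_pos y).le, mul_comm]

/-- The negative terms over the whole phase space. -/
theorem lintegral_weight_le (hmom : MomentPin) (h : IsCH G D) {o : (Fin 6 → ℝ)} {R : ℝ}
    (hu : Comp {y | D o y ≤ R} u) {k σ : ℝ} (hk : 0 ≤ k) (hσ : σ = 1 ∨ σ = -1) :
    ∫⁻ p, ENNReal.ofReal (σ * slp u p) * pairW G u k p ∂liou G ≤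
      ENNReal.ofReal ((2 * Real.pi) ^ 3 * (k + 43 / 2) * per G u) := by
  rw [pair_lintegral_liou h (K := fun p => ENNReal.ofReal (σ * slp u p) * pairW G u k p)
    (((continuous_slp hu.1).const_mul σ).measurable.ennreal_ofReal.mul (measurable_pairW h hu.1 k))]
  calc _ ≤ ∫⁻ x, ENNReal.ofReal ((2 * Real.pi) ^ 3 * (k + 43 / 2)) *
        ENNReal.ofReal (conorm G x (cd u x)) ∂volM G := ?_
    _ = _ := by
      rw [lintegral_const_mul _ (h.continuous_conorm_cd hu.1).measurable.ennreal_ofReal,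
        lintegral_conorm h hu, ← ENNReal.ofReal_mul (by positivity)]
  refine lintegral_mono fun x => ?_
  have hb := fibre_weight_le hmom h x (σ • cd u x) hk
  have hσ1 : |σ| = 1 := by rcases hσ with rfl | rfl <;> simp
  rw [h.conorm_smul, hσ1, one_mul] at hb
  rw [← ENNReal.ofReal_mul (by positivity)]
  refine le_trans (le_of_eq (lintegral_congr fun v => ?_)) hb
  simp only [pairW, smul_dotProduct, smul_eq_mul, cosv, slp, abs_mul, hσ1, one_mul]

/-- The entries: the marginal of a pairing is at most one. -/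
theorem lintegral_entries_le (hline : LinePin) (hflow : FlowPin 6) (hmom : MomentPin)
    (h : IsCH G D) (he : IsExp G D e) {o : (Fin 6 → ℝ)} {R : ℝ} (hu : Comp {y | D o y ≤ R} u)
    (hη : 0 < η) (hη2 : η < 1 / 2) {k : ℝ} (hk : 0 ≤ k) :
    ∫⁻ p, (∫⁻ t in Ioi (0 : ℝ), pairA e u η (p, t) * pairW G u k p) ∂liou G ≤
      ENNReal.ofReal ((2 * Real.pi) ^ 3 * (k + 43 / 2) * per G u) := by
  refine le_trans (lintegral_mono_ae ((ae_snd_ne_zero (by norm_num)).mono fun p hp => ?_))
    (lintegral_weight_le hmom h hu hk (Or.inl rfl))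
  rw [one_mul]
  have hne : ENNReal.ofReal (slp u p) * pairW G u k p ≠ ∞ :=
    ENNReal.mul_ne_top ENNReal.ofReal_ne_top ENNReal.ofReal_ne_top
  calc ∫⁻ t in Ioi (0 : ℝ), pairA e u η (p, t) * pairW G u k p ≤ ∫⁻ t in Ioi (0 : ℝ),
        ENNReal.ofReal (slp u p) * pairW G u k p * {t | Paired η (gl e u p) 0 (0 + t)}.indicator
          (fun t => ENNReal.ofReal (-deriv (gl e u p) (0 + t))) t := by
        refine setLIntegral_mono' measurableSet_Ioi fun t ht => le_of_eq ?_
        by_cases hz : Paired η (gl e u p) 0 t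
        · rw [pairA, Set.indicator_of_mem (show (p, t) ∈ {z : Phase 6 × ℝ | 0 < z.2 ∧ Paired η (gl e u z.1) 0 z.2} from ⟨ht, hz⟩),
            Set.indicator_of_mem (show t ∈ {t | Paired η (gl e u p) 0 (0 + t)} by simpa using hz),
            deriv_gl hflow h he hu.1, zero_add]
          ring
        · rw [pairA, Set.indicator_of_notMem (show (p, t) ∉ {z : Phase 6 × ℝ | 0 < z.2 ∧ Paired η (gl e u z.1) 0 z.2} from fun hc => hz hc.2),
            Set.indicator_of_notMem (show t ∉ {t | Paired η (gl e u p) 0 (0 + t)} by simpa using hz)]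
          simp
    _ ≤ ENNReal.ofReal (slp u p) * pairW G u k p * 1 := by
        rw [lintegral_const_mul' _ _ hne]
        exact mul_le_mul_right ((hline _ (contDiff_gl he hu.1 p)
          (hasCompactSupport_gl hflow h he hu p hp) (fun t => hu.2.2 _) η hη hη2).1 0) _
    _ = _ := mul_one _

/-- The exits, moved to the start by the flow. -/
theorem lintegral_exits_le (hline : LinePin) (hflow : FlowPin 6) (hmom : MomentPin)
    (h : IsCH G D) (he : IsExp G D e) {o : (Fin 6 → ℝ)} {R : ℝ} (hu : Comp {y | D o y ≤ R} u)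
    (hη : 0 < η) (hη2 : η < 1 / 2) {k : ℝ} (hk : 0 ≤ k) :
    ∫⁻ p, (∫⁻ t in Ioi (0 : ℝ), pairA e u η (p, t) * pairW G u k (flow e t p)) ∂liou G ≤
      ENNReal.ofReal ((2 * Real.pi) ^ 3 * (k + 43 / 2) * per G u) := by
  obtain ⟨-, -, hzero, -, hcomp, -, -, -, -, hcont, -, hmp⟩ := hflow G D e h he
  have hs := continuous_slp hu.1
  set S' : Set (Phase 6 × ℝ) := {z | -z.2 < 0 ∧ Paired η (gl e u z.1) (-z.2) 0}
  have hS' : MeasurableSet S' := measurableSet_paired η (F := fun z : Phase 6 × ℝ => gl e u z.1)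
    ((continuous_gl he hu.1).comp ((continuous_fst.comp continuous_fst).prodMk continuous_snd))
    continuous_snd.neg continuous_const
  set L : Phase 6 × ℝ → ℝ≥0∞ := S'.indicator fun z =>
    ENNReal.ofReal (slp u (flow e (-z.2) z.1)) * ENNReal.ofReal (-slp u z.1) * pairW G u k z.1
  have hL : Measurable L := ((((hs.comp (hcont.comp
    (continuous_snd.neg.prodMk continuous_fst))).measurable.ennreal_ofReal).mul
    (hs.comp continuous_fst).neg.measurable.ennreal_ofReal).mul
      ((measurable_pairW h hu.1 k).comp measurable_fst)).indicator hS'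
  have heq : ∀ p t, pairA e u η (p, t) * pairW G u k (flow e t p) = L (flow e t p, t) := by
    intro p t
    have hiff : 0 < t ∧ Paired η (gl e u p) 0 t ↔ (flow e t p, t) ∈ S' := by
      simp only [S', mem_setOf_eq, gl_flow hflow h he, paired_shift, add_neg_cancel, add_zero,
        neg_lt_zero]
    by_cases hz : 0 < t ∧ Paired η (gl e u p) 0 t
    · rw [pairA, Set.indicator_of_mem (show (p, t) ∈ {z : Phase 6 × ℝ | 0 < z.2 ∧ Paired η (gl e u z.1) 0 z.2} from hz)]
      simp only [L, Set.indicator_of_mem (hiff.1 hz), hcomp, add_neg_cancel, hzero]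
    · rw [pairA, Set.indicator_of_notMem (show (p, t) ∉ {z : Phase 6 × ℝ | 0 < z.2 ∧ Paired η (gl e u z.1) 0 z.2} from hz)]
      simp only [L, Set.indicator_of_notMem (mt hiff.2 hz), zero_mul]
  simp only [heq]
  have hLf : Measurable fun z : Phase 6 × ℝ => L (flow e z.2 z.1, z.2) :=
    hL.comp (((hcont.comp (continuous_snd.prodMk continuous_fst)).measurable).prodMk measurable_snd)
  rw [lintegral_lintegral_swap hLf.aemeasurable]
  simp only [fun t => (hmp t).lintegral_comp (f := fun q => L (q, t)) (hL.comp measurable_prodMk_right)]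
  rw [← lintegral_lintegral_swap (f := fun q t => L (q, t)) hL.aemeasurable]
  refine le_trans (lintegral_mono_ae ((ae_snd_ne_zero (by norm_num)).mono fun q hq => ?_))
    (lintegral_weight_le hmom h hu hk (Or.inr rfl))
  rw [neg_one_mul]
  have hne : ENNReal.ofReal (-slp u q) * pairW G u k q ≠ ∞ :=
    ENNReal.mul_ne_top ENNReal.ofReal_ne_top ENNReal.ofReal_ne_top
  calc ∫⁻ t in Ioi (0 : ℝ), L (q, t) ≤ ∫⁻ t in Ioi (0 : ℝ),
        ENNReal.ofReal (-slp u q) * pairW G u k q * {t | Paired η (gl e u q) (0 - t) 0}.indicator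
          (fun t => ENNReal.ofReal (deriv (gl e u q) (0 - t))) t := by
        refine setLIntegral_mono' measurableSet_Ioi fun t ht => le_of_eq ?_
        by_cases hz : Paired η (gl e u q) (-t) 0
        · rw [Set.indicator_of_mem (show t ∈ {t | Paired η (gl e u q) (0 - t) 0} by simpa using hz),
            deriv_gl hflow h he hu.1, zero_sub]
          simp only [L, Set.indicator_of_mem (show (q, t) ∈ S' from ⟨by simpa using ht, hz⟩)]
          ring
        · rw [Set.indicator_of_notMem (show t ∉ {t | Paired η (gl e u q) (0 - t) 0} by simpa using hz)]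
          simp only [L, Set.indicator_of_notMem (show (q, t) ∉ S' from fun hc => hz hc.2), mul_zero]
    _ ≤ ENNReal.ofReal (-slp u q) * pairW G u k q * 1 := by
        rw [lintegral_const_mul' _ _ hne]
        exact mul_le_mul_right ((hline _ (contDiff_gl he hu.1 q)
          (hasCompactSupport_gl hflow h he hu q hq) (fun t => hu.2.2 _) η hη hη2).2.1 0) _
    _ = _ := mul_one _

end Vale.Agent.P219.CH.Six
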