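import Vale.Agent.P219.Six.PairParts
import Vale.Agent.P219.CH.Min

/-!
# Santalo's term and the real form of the pair integral
-/

noncomputable section

open MeasureTheory Set Filter Topology Matrix
open scoped ENNReal

namespace Vale.Agent.P219.CH.Six


variable {G : (Fin 6 → ℝ) → Matrix (Fin 6) (Fin 6) ℝ} {D : (Fin 6 → ℝ) → (Fin 6 → ℝ) → ℝ} {e : Phase 6 → (Fin 6 → ℝ)}
  {u : (Fin 6 → ℝ) → ℝ} {η Q s : ℝ}

/-- The positive term on one phase point. -/
def pairH (e : Phase 6 → (Fin 6 → ℝ)) (u : (Fin 6 → ℝ) → ℝ) (η : ℝ) (p : Phase 6) : ℝ≥0∞ :=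
  ∫⁻ t in Ioi (0 : ℝ), pairA e u η (p, t) * ENNReal.ofReal t

lemma measurable_pairB_left (h : IsCH G D) (hu : ContDiff ℝ 1 u) (x : (Fin 6 → ℝ)) :
    Measurable fun y => pairB G D u Q s x y := by
  have hm := (measurable_pairB (Q := Q) (s := s) h hu).comp (measurable_prodMk_left (β := (Fin 6 → ℝ)) (x := x))
  exact hm

lemma measurable_pairH (hflow : FlowPin 6) (h : IsCH G D) (he : IsExp G D e)
    (hu : ContDiff ℝ 1 u) : Measurable (pairH e u η) :=
  Measurable.lintegral_prod_right' (f := fun z : Phase 6 × ℝ => pairA e u η z * ENNReal.ofReal z.2)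
    ((measurable_pairA hflow h he hu).mul measurable_snd.ennreal_ofReal)

/-- Santalo: the positive term carries the volume where `u` is nearly one. -/
theorem le_lintegral_pairH (hline : LinePin) (hflow : FlowPin 6) (hmom : MomentPin)
    (h : IsCH G D) (he : IsExp G D e) {o : (Fin 6 → ℝ)} {R : ℝ} (hu : Comp {y | D o y ≤ R} u)
    (hη : 0 < η) (hη2 : η < 1 / 2) :
    ENNReal.ofReal ((1 - 2 * η) ^ 2 * (2 * Real.pi) ^ 3 * (vol G u - gap G u / η)) ≤
      ∫⁻ p, pairH e u η p ∂liou G := by
  obtain ⟨-, -, -, -, hcomp, -, -, -, -, -, -, -⟩ := hflow G D e h he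
  have hK := h.proper o R
  set O : Set (Fin 6 → ℝ) := {x | 1 - η < u x}
  have hO : IsOpen O := isOpen_lt continuous_const hu.1.continuous
  set F : Phase 6 → ℝ≥0∞ := fun p => ENNReal.ofReal ((1 - 2 * η) ^ 2) * O.indicator 1 p.1
  have hFm : Measurable F :=
    ((measurable_one.indicator hO.measurableSet).comp measurable_fst).const_mul _
  have hout : ∀ p : Phase 6, R < D o p.1 → u p.1 = 0 ∧ slp u p = 0 := fun p hp => by
    have hn : p.1 ∉ tsupport u := fun hc => (not_le.2 hp) (hu.2.1 hc)
    exact ⟨image_eq_zero_of_notMem_tsupport hn, by simp [slp, cd_eq_zero_of_notMem hn]⟩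
  have hFH : ∫⁻ p, F p ∂liou G ≤ ∫⁻ p, pairH e u η p ∂liou G := by
    refine lintegral_le_of_lines (by norm_num) h he hflow o R hFm
      (measurable_pairH hflow h he hu.1) (fun p hp => ?_) (fun p hp => ?_) fun p hp => ?_
    · have hn : p.1 ∉ O := fun hc => by
        have := (hout p hp).1; simp only [O, mem_setOf_eq] at hc; linarith
      simp [F, Set.indicator_of_notMem hn]
    · have : ∀ t, pairA e u η (p, t) = 0 := fun t => by
        unfold pairA
        refine Set.indicator_apply_eq_zero.2 fun _ => ?_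
        simp [(hout p hp).2]
      simp [pairH, this]
    have e1 : ∫⁻ t, F (flow e t p) =
        ENNReal.ofReal ((1 - 2 * η) ^ 2) * volume {t | 1 - η < gl e u p t} := by
      have hm : MeasurableSet {t | 1 - η < gl e u p t} :=
        (isOpen_lt continuous_const (contDiff_gl he hu.1 p).continuous).measurableSet
      rw [← lintegral_indicator_one hm, ← lintegral_const_mul' _ _ ENNReal.ofReal_ne_top]
      rfl
    rw [e1]
    refine ((hline _ (contDiff_gl he hu.1 p) (hasCompactSupport_gl hflow h he hu p hp)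
      (fun t => hu.2.2 _) η hη hη2).2.2).trans (lintegral_mono fun a => ?_)
    refine setLIntegral_mono' measurableSet_Ioi fun t ht => le_of_eq ?_
    have hiff : Paired η (gl e u (flow e a p)) 0 t ↔ Paired η (gl e u p) a (a + t) := by
      rw [gl_flow hflow h he, paired_shift, add_zero]
    by_cases hz : Paired η (gl e u p) a (a + t)
    · rw [Set.indicator_of_mem (show t ∈ {s | Paired η (gl e u p) a (a + s)} from hz), pairA,
        Set.indicator_of_mem (show (flow e a p, t) ∈
          {z : Phase 6 × ℝ | 0 < z.2 ∧ Paired η (gl e u z.1) 0 z.2} from ⟨ht, hiff.2 hz⟩)]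
      simp only [deriv_gl hflow h he hu.1, hcomp]
    · rw [Set.indicator_of_notMem (show t ∉ {s | Paired η (gl e u p) a (a + s)} from hz), pairA,
        Set.indicator_of_notMem (show (flow e a p, t) ∉
          {z : Phase 6 × ℝ | 0 < z.2 ∧ Paired η (gl e u z.1) 0 z.2} from fun hc => hz (hiff.1 hc.2))]
      simp
  refine le_trans ?_ hFH
  have hsub : O ⊆ {y | D o y ≤ R} := fun x hx => hu.2.1 (subset_tsupport _ (by
    simp only [O, mem_setOf_eq] at hx; simp only [Function.mem_support]; linarith))
  have hint : Integrable (O.indicator (dens G)) :=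
    ((h.continuous_dens.continuousOn.integrableOn_compact hK).mono_set hsub).integrable_indicator
      hO.measurableSet
  have hV : vol G u - gap G u / η ≤ ∫ x, O.indicator (dens G) x := by
    have h1 : Integrable fun y => u y * dens G y := hu.integrable hK h.continuous_dens
    have h2 : Integrable fun y => u y * (1 - u y) * dens G y := h.integrable_gap hK hu
    rw [vol, gap, ← integral_div, ← integral_sub h1 (h2.div_const η)]
    refine integral_mono (h1.sub (h2.div_const η)) hint fun y => ?_
    have h01 := hu.2.2 y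
    have hd := (h.dens_pos y).le
    by_cases hy : y ∈ O
    · rw [Set.indicator_of_mem hy]
      have : 0 ≤ u y * (1 - u y) * dens G y / η :=
        div_nonneg (mul_nonneg (mul_nonneg h01.1 (sub_nonneg.2 h01.2)) hd) hη.le
      have := mul_le_of_le_one_left hd h01.2
      linarith
    · rw [Set.indicator_of_notMem hy]
      simp only [O, mem_setOf_eq, not_lt] at hy
      rw [sub_nonpos, le_div_iff₀ hη]
      nlinarith [mul_nonneg h01.1 hd]
  have hnn : ∀ x, 0 ≤ O.indicator (dens G) x :=
    fun x => Set.indicator_nonneg (fun y _ => (h.dens_pos y).le) x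
  have hc0 : 0 ≤ (1 - 2 * η) ^ 2 * (2 * Real.pi) ^ 3 := by positivity
  refine le_trans (ENNReal.ofReal_le_ofReal (mul_le_mul_of_nonneg_left hV hc0)) (le_of_eq ?_)
  rw [ENNReal.ofReal_mul hc0, ofReal_integral_eq_lintegral_ofReal hint (Eventually.of_forall hnn),
    pair_lintegral_liou h hFm, volM,
    lintegral_withDensity_eq_lintegral_mul₀' h.continuous_dens.measurable.ennreal_ofReal.aemeasurable,
    ← lintegral_const_mul' _ _ ENNReal.ofReal_ne_top]
  · refine lintegral_congr fun x => ?_
    simp only [Pi.mul_apply, F]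
    rw [lintegral_mul_const' _ _ (by
      by_cases hx : x ∈ O <;> simp [hx, ENNReal.mul_ne_top]), (hmom G x 0 (h.posDef x)).1]
    by_cases hx : x ∈ O
    · simp only [Set.indicator_of_mem hx, Pi.one_apply, mul_one]
      rw [ENNReal.ofReal_mul (sq_nonneg _)]
      ring
    · simp [Set.indicator_of_notMem hx]
  · refine (Measurable.lintegral_prod_right' (f := fun p : Phase 6 =>
      ENNReal.ofReal (fibre G p.1 p.2) * F p) ((((h.continuous_dens.comp continuous_fst).mul
        ((h.continuous_vnorm.pow 2).div_const 2).neg.rexp).measurable.ennreal_ofReal).mul hFm)).aemeasurable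

/-- The bound on the truncated pair integrand. -/
lemma pairB_le (h : IsCH G D) (hQ : 0 < Q) (hs : 0 < s) (x y : (Fin 6 → ℝ)) :
    pairB G D u Q s x y ≤ (17 + 25 * Q / s ^ 2) * (conorm G x (cd u x) * conorm G y (cd u y)) := by
  refine mul_le_mul_of_nonneg_right ?_ (mul_nonneg (conorm_nonneg _ _) (conorm_nonneg _ _))
  have hd0 := h.dist_nonneg x y
  obtain ⟨c, hc⟩ : ∃ c, c = acos G D u y x := ⟨_, rfl⟩
  obtain ⟨d, hd⟩ : ∃ d, d = acos G D u x y := ⟨_, rfl⟩
  have hc0 : 0 ≤ c := hc ▸ acos_nonneg u y x
  have hc1 : c ≤ 1 := hc ▸ h.acos_le_one u y x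
  have hd0' : 0 ≤ d := hd ▸ acos_nonneg u x y
  have hd1 : d ≤ 1 := hd ▸ h.acos_le_one u x y
  rw [← hc, ← hd]
  obtain ⟨E, hE⟩ : ∃ E, E = 1 - Real.exp (-(Q * D x y)) := ⟨_, rfl⟩
  rw [← hE]
  have hw : E ≤ Q * D x y := by linarith [Real.add_one_le_exp (-(Q * D x y))]
  have hw0 : 0 ≤ E := hE ▸ sub_nonneg.2 (Real.exp_le_one_iff.2 (by
    linarith [mul_nonneg hQ.le hd0]))
  have hw1 : E ≤ 1 := hE ▸ sub_le_self _ (Real.exp_pos _).le
  have h50 : 30 + 10 * (c ^ 2 + d ^ 2) ≤ 50 := by
    linarith [pow_le_one₀ (n := 2) hc0 hc1, pow_le_one₀ (n := 2) hd0' hd1]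
  rw [pairKer, mul_pow, Real.sq_sqrt (by linarith)]
  have h1 : 0 ≤ E * (25 * (c + d) / (s * Real.sqrt (2 * D x y))) := by positivity
  have h2 : E * ((30 + 10 * (c ^ 2 + d ^ 2)) / (s ^ 2 * (2 * D x y))) ≤ 25 * Q / s ^ 2 := by
    rcases eq_or_lt_of_le hd0 with hz | hz
    · rw [← hz]; simp; positivity
    · calc _ ≤ Q * D x y * (50 / (s ^ 2 * (2 * D x y))) :=
            mul_le_mul hw (div_le_div_of_nonneg_right h50 (by positivity)) (by positivity)
              (by positivity)
        _ = _ := by field_simp; ring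
  linarith

/-- The double Lebesgue integral of the pair integrand as a real integral. -/
theorem ofReal_pair_integral (h : IsCH G D) {o : (Fin 6 → ℝ)} {R : ℝ} (hu : Comp {y | D o y ≤ R} u)
    (hQ : 0 < Q) (hs : 0 < s) :
    0 ≤ ∫ x, (∫ y, (1 - Real.exp (-(Q * D x y))) *
      pairKer (s * Real.sqrt (2 * D x y)) (acos G D u y x) (acos G D u x y) *
        (conorm G y (cd u y) * dens G y)) * (conorm G x (cd u x) * dens G x) ∧
    ENNReal.ofReal (∫ x, (∫ y, (1 - Real.exp (-(Q * D x y))) *
      pairKer (s * Real.sqrt (2 * D x y)) (acos G D u y x) (acos G D u x y) *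
        (conorm G y (cd u y) * dens G y)) * (conorm G x (cd u x) * dens G x)) =
      ∫⁻ x, (∫⁻ y, ENNReal.ofReal (pairB G D u Q s x y) ∂volM G) ∂volM G := by
  have hK := h.proper o R
  set C : ℝ := 17 + 25 * Q / s ^ 2
  have hBm := measurable_pairB (Q := Q) (s := s) h hu.1
  have hB0 : ∀ x y, 0 ≤ pairB G D u Q s x y := pairB_nonneg h hQ
  have hi1 : Integrable fun y => conorm G y (cd u y) * dens G y := by
    simpa using h.integrable_mul_conorm hK hu (continuous_const (y := (1 : ℝ)))
  have hBi : ∀ x, Integrable fun y => pairB G D u Q s x y * dens G y := fun x => by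
    have hm : Measurable fun y => pairB G D u Q s x y * dens G y :=
      (measurable_pairB_left h hu.1 x).fun_mul h.continuous_dens.measurable
    refine Integrable.mono' (hi1.const_mul (C * conorm G x (cd u x))) hm.aestronglyMeasurable
      (Eventually.of_forall fun y => ?_)
    rw [Real.norm_eq_abs, abs_mul, abs_of_nonneg (hB0 x y), abs_of_pos (h.dens_pos y)]
    exact (mul_le_mul_of_nonneg_right (pairB_le h hQ hs x y) (h.dens_pos y).le).trans
      (le_of_eq (by ring))
  have hIm : StronglyMeasurable fun x => ∫ y, pairB G D u Q s x y * dens G y :=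
    StronglyMeasurable.integral_prod_right' (f := fun w : (Fin 6 → ℝ) × (Fin 6 → ℝ) => pairB G D u Q s w.1 w.2 * dens G w.2)
      (hBm.mul (h.continuous_dens.measurable.comp measurable_snd)).stronglyMeasurable
  have hI0 : ∀ x, 0 ≤ ∫ y, pairB G D u Q s x y * dens G y :=
    fun x => integral_nonneg fun y => mul_nonneg (hB0 x y) (h.dens_pos y).le
  have hOm : StronglyMeasurable fun x => (∫ y, pairB G D u Q s x y * dens G y) * dens G x :=
    hIm.mul h.continuous_dens.stronglyMeasurable
  have hOi : Integrable fun x => (∫ y, pairB G D u Q s x y * dens G y) * dens G x := by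
    refine Integrable.mono' (hi1.const_mul (C * per G u)) hOm.aestronglyMeasurable
      (Eventually.of_forall fun x => ?_)
    rw [Real.norm_eq_abs, abs_mul, abs_of_nonneg (hI0 x), abs_of_pos (h.dens_pos x)]
    calc (∫ y, pairB G D u Q s x y * dens G y) * dens G x
        ≤ (∫ y, C * conorm G x (cd u x) * (conorm G y (cd u y) * dens G y)) * dens G x := by
          refine mul_le_mul_of_nonneg_right (integral_mono (hBi x) (hi1.const_mul _) fun y => ?_)
            (h.dens_pos x).le
          exact (mul_le_mul_of_nonneg_right (pairB_le h hQ hs x y) (h.dens_pos y).le).trans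
            (le_of_eq (by ring))
      _ = _ := by rw [integral_const_mul, per]; ring
  have heq : (fun x => (∫ y, (1 - Real.exp (-(Q * D x y))) *
      pairKer (s * Real.sqrt (2 * D x y)) (acos G D u y x) (acos G D u x y) *
        (conorm G y (cd u y) * dens G y)) * (conorm G x (cd u x) * dens G x)) =
      fun x => (∫ y, pairB G D u Q s x y * dens G y) * dens G x := by
    funext x
    rw [← mul_assoc, ← integral_mul_const]
    congr 1
    exact integral_congr_ae (Eventually.of_forall fun y => by simp only [pairB]; ring)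
  rw [heq]
  refine ⟨integral_nonneg fun x => mul_nonneg (hI0 x) (h.dens_pos x).le, ?_⟩
  rw [ofReal_integral_eq_lintegral_ofReal hOi
      (Eventually.of_forall fun x => mul_nonneg (hI0 x) (h.dens_pos x).le), volM,
    lintegral_withDensity_eq_lintegral_mul _ h.continuous_dens.measurable.ennreal_ofReal
      (Measurable.lintegral_prod_right' (f := fun w : (Fin 6 → ℝ) × (Fin 6 → ℝ) =>
        ENNReal.ofReal (pairB G D u Q s w.1 w.2)) hBm.ennreal_ofReal)]
  refine lintegral_congr fun x => ?_
  simp only [Pi.mul_apply]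
  rw [lintegral_withDensity_eq_lintegral_mul _ h.continuous_dens.measurable.ennreal_ofReal
      (g := fun y => ENNReal.ofReal (pairB G D u Q s x y))
      (measurable_pairB_left h hu.1 x).ennreal_ofReal,
    ENNReal.ofReal_mul (hI0 x), mul_comm,
    ofReal_integral_eq_lintegral_ofReal (hBi x)
      (Eventually.of_forall fun y => mul_nonneg (hB0 x y) (h.dens_pos y).le)]
  congr 1
  exact lintegral_congr fun y => by
    simp only [Pi.mul_apply]; rw [ENNReal.ofReal_mul (hB0 x y), mul_comm]

end Vale.Agent.P219.CH.Six
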